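import Mathlib
import Vale.Agent.P100.Compare

/-!
# P100, weighted: solutions with the same weight `|x| ^ a` in both equations, `-2 < a ≤ 0`

`(1 + |x| ^ 2) ^ (a / 2) ≤ |x| ^ a` is a continuous minorant of the weight, so the unweighted facts on
punctured superharmonic functions apply. The means of `v` tend to zero and the comparison is the one
of the unweighted system.
-/

namespace Vale.Agent.P100.Weighted

open MeasureTheory Set Filter Topology Finset Function
open Vale.Agent.P098.Cone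
open scoped ContDiff

noncomputable section

variable {n : ℕ} {a p q : ℝ} {u v : (Fin n → ℝ) → ℝ}

/-- The weight `|x| ^ a`. -/
def wgt (a : ℝ) (x : Fin n → ℝ) : ℝ := sqr x ^ (a / 2)

/-- Its continuous minorant. -/
def soft (a : ℝ) (x : Fin n → ℝ) : ℝ := (1 + sqr x) ^ (a / 2)

theorem wgt_pos {x : Fin n → ℝ} (hx : x ≠ 0) : 0 < wgt a x := Real.rpow_pos_of_pos (sqr_pos hx) _

theorem soft_pos (a : ℝ) (x : Fin n → ℝ) : 0 < soft a x :=
  Real.rpow_pos_of_pos (by linarith [sqr_nonneg x]) _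

theorem continuous_soft (a : ℝ) : Continuous (soft (n := n) a) :=
  (continuous_const.add continuous_sqr).rpow_const fun x =>
    Or.inl (by show (1 : ℝ) + sqr x ≠ 0; linarith [sqr_nonneg x])

theorem soft_le (ha : a ≤ 0) {x : Fin n → ℝ} (hx : x ≠ 0) : soft a x ≤ wgt a x :=
  Real.rpow_le_rpow_of_nonpos (sqr_pos hx) (by linarith) (by linarith)

/-- A positive entire solution of the equally weighted system. -/
structure WSol (a p q : ℝ) (u v : (Fin n → ℝ) → ℝ) : Prop where
  cont_u : Continuous u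
  cont_v : Continuous v
  smooth_u : ContDiffOn ℝ 2 u {x | x ≠ 0}
  smooth_v : ContDiffOn ℝ 2 v {x | x ≠ 0}
  pos_u : ∀ x, 0 < u x
  pos_v : ∀ x, 0 < v x
  eq_u : ∀ x, x ≠ 0 → lap u x = -(wgt a x * v x ^ p)
  eq_v : ∀ x, x ≠ 0 → lap v x = -(wgt a x * u x ^ q)

theorem WSol.symm (h : WSol a p q u v) : WSol a q p v u :=
  ⟨h.cont_v, h.cont_u, h.smooth_v, h.smooth_u, h.pos_v, h.pos_u, h.eq_v, h.eq_u⟩

/-- An unweighted solution is one with weight exponent zero. -/
theorem WSol.of_sol (h : Sol p q u v) : WSol 0 p q u v :=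
  ⟨h.cont_u, h.cont_v, h.smooth_u, h.smooth_v, h.pos_u, h.pos_v,
    fun x hx => by simpa [wgt] using h.eq_u x hx, fun x hx => by simpa [wgt] using h.eq_v x hx⟩

theorem WSol.super_u (h : WSol a p q u v) (ha : a ≤ 0) (hp : 0 ≤ p) :
    PunctSuper u fun x => soft a x * v x ^ p :=
  ⟨h.cont_u, h.smooth_u, (continuous_soft a).mul (h.cont_v.rpow_const fun _ => Or.inr hp),
    fun x hx => by
      rw [h.eq_u x hx]
      exact neg_le_neg (mul_le_mul_of_nonneg_right (soft_le ha hx)
        (Real.rpow_nonneg (h.pos_v x).le p))⟩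

theorem WSol.super_v (h : WSol a p q u v) (ha : a ≤ 0) (hq : 0 ≤ q) :
    PunctSuper v fun x => soft a x * u x ^ q :=
  h.symm.super_u ha hq

/-- The weighted source on a ball of radius `R ≥ 1`. -/
theorem soft_bump_lower (ha : a ≤ 0) {R : ℝ} (hR : 1 ≤ R) (x : Fin n → ℝ) :
    (2 : ℝ) ^ (a / 2) * R ^ a * bump (0 : Fin n → ℝ) R x ≤ soft a x * bump (0 : Fin n → ℝ) R x := by
  rcases le_or_gt (sqr x) (R ^ 2) with hx | hx
  · refine mul_le_mul_of_nonneg_right ?_ (bump_nonneg _ _ _)
    have hR0 : 0 ≤ R := zero_le_one.trans hR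
    have h1 : (2 * R ^ 2) ^ (a / 2) ≤ soft a x :=
      Real.rpow_le_rpow_of_nonpos (by linarith [sqr_nonneg x])
        (by linarith [one_le_pow₀ hR (n := 2)]) (by linarith)
    refine le_of_eq_of_le ?_ h1
    rw [Real.mul_rpow two_pos.le (sq_nonneg R), ← Real.rpow_natCast R 2, ← Real.rpow_mul hR0,
      show ((2 : ℕ) : ℝ) * (a / 2) = a by push_cast; ring]
  · have : bump (0 : Fin n → ℝ) R x = 0 := by
      simp [bump, posPow, max_eq_right (by linarith : R ^ 2 - sqr x ≤ 0)]
    simp [this]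

/-- The loss of the mean under a source that is at least a multiple of the weight on a ball. -/
theorem deriv_mean_le_weighted {f g : (Fin n → ℝ) → ℝ} (h : PunctSuper f g) (hn : 3 ≤ n) (ha : a ≤ 0)
    {R c : ℝ} (hR : 1 ≤ R) (hc : 0 ≤ c)
    (hg : ∀ x, c * soft a x * bump (0 : Fin n → ℝ) R x ≤ g x * bump (0 : Fin n → ℝ) R x) :
    deriv (mean f 0) R ≤ -(mass n 3 / 6 * (2 : ℝ) ^ (a / 2) * c * (R * R ^ a)) := by
  have hR0 : 0 < R := zero_lt_one.trans_le hR
  refine (h.deriv_mean_le hn 0 hR0).trans (neg_le_neg ?_)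
  have hint : c * ((2 : ℝ) ^ (a / 2) * R ^ a) * (R ^ (n + 6) * mass n 3)
      ≤ ∫ x, g x * bump (0 : Fin n → ℝ) R x := by
    rw [← integral_bump n hR0, ← integral_const_mul]
    refine integral_mono
      (integrable_weight (f := fun _ => c * ((2 : ℝ) ^ (a / 2) * R ^ a)) continuous_const 0 hR0.le 3
        (by norm_num))
      (integrable_weight h.gcont 0 hR0.le 3 (by norm_num)) fun x => ?_
    refine le_trans (le_trans (le_of_eq (mul_assoc _ _ _)) (mul_le_mul_of_nonneg_left
      (soft_bump_lower ha hR x) hc)) (le_of_eq_of_le (mul_assoc _ _ _).symm (hg x))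
  refine le_trans (le_of_eq ?_) (mul_le_mul_of_nonneg_left hint (by positivity))
  rw [show n + 6 = n + 5 + 1 by omega, pow_succ R (n + 5)]
  field_simp

/-- The means of `v` tend to zero. -/
theorem WSol.exists_mean_lt (h : WSol a p q u v) (ha : a ≤ 0) (ha2 : -2 < a) (hp : 0 < p)
    (hq : 0 < q) (hn : 3 ≤ n) {e : ℝ} (he : 0 < e) : ∃ R, 0 < R ∧ mean v 0 R < e := by
  by_contra hcon
  push Not at hcon
  have hg : ∀ x, 0 ≤ soft a x * u x ^ q := fun x =>
    mul_nonneg (soft_pos a x).le (Real.rpow_nonneg (h.pos_u x).le q)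
  have hm := mass_pos n 2 one_le_two
  have hge : ∀ x, e / mass n 2 ≤ v x := fun x => by
    rw [div_le_iff₀ hm]
    exact (h.super_v ha hq.le).ge_of_mean_ge hn hg (fun y => (h.pos_v y).le) hcon x
  set c := (e / mass n 2) ^ p
  have hc : 0 < c := Real.rpow_pos_of_pos (div_pos he hm) p
  set K := mass n 3 / 6 * (2 : ℝ) ^ (a / 2) * c
  have hK : 0 < K := mul_pos (mul_pos (div_pos (mass_pos n 3 (by norm_num)) (by norm_num))
    (Real.rpow_pos_of_pos two_pos _)) hc
  set Φ := fun R : ℝ => mean u 0 R + K / (2 + a) * R ^ (2 + a)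
  have hd : ∀ R, 0 < R → HasDerivAt Φ (deriv (mean u 0) R + K * (R * R ^ a)) R := fun R hR => by
    refine ((hasDerivAt_mean h.cont_u 0 hR).differentiableAt.hasDerivAt.add
      ((Real.hasDerivAt_rpow_const (p := 2 + a) (Or.inl hR.ne')).const_mul (K / (2 + a)))).congr_deriv ?_
    rw [show 2 + a - 1 = 1 + a by ring, Real.rpow_add hR, Real.rpow_one]
    have : 2 + a ≠ 0 := by linarith
    field_simp
  have hanti : AntitoneOn Φ (Ici 1) := by
    refine antitoneOn_of_deriv_nonpos (convex_Ici _) ?_ ?_ ?_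
    · exact fun R hR => (hd R (zero_lt_one.trans_le hR)).continuousAt.continuousWithinAt
    · rw [interior_Ici]
      exact fun R (hR : 1 < R) => (hd R (by linarith)).differentiableAt.differentiableWithinAt
    · rw [interior_Ici]
      intro R (hR : 1 < R)
      rw [(hd R (by linarith)).deriv]
      have h1 := deriv_mean_le_weighted (h.super_u ha hp.le) hn ha (c := c) hR.le hc.le fun x => by
        rw [mul_comm c]
        exact mul_le_mul_of_nonneg_right (mul_le_mul_of_nonneg_left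
          (Real.rpow_le_rpow (div_pos he hm).le (hge x) hp.le) (soft_pos a x).le) (bump_nonneg _ _ _)
      simp only [K]
      linarith
  have hK2 : 0 < K / (2 + a) := div_pos hK (by linarith)
  obtain ⟨R, hR, hR1⟩ := ((tendsto_rpow_atTop (show 0 < 2 + a by linarith)).const_mul_atTop
    hK2).eventually_gt_atTop (Φ 1) |>.and (eventually_ge_atTop 1) |>.exists
  have h1 := hanti Set.self_mem_Ici hR1 hR1
  have h2 := mean_nonneg (fun y => (h.pos_u y).le) (0 : Fin n → ℝ) R
  simp only [Φ] at h1 hR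
  linarith

/-- Small means at one centre give small means at every centre. -/
theorem exists_mean_lt_of_zero {f g : (Fin n → ℝ) → ℝ} (h : PunctSuper f g) (hn : 3 ≤ n)
    (hg : ∀ x, 0 ≤ g x) (hf : ∀ x, 0 ≤ f x)
    (h0 : ∀ e, 0 < e → ∃ R, 0 < R ∧ mean f 0 R < e) (b : Fin n → ℝ) {e : ℝ} (he : 0 < e) :
    ∃ R, 0 < R ∧ mean f b R < e := by
  obtain ⟨R₁, hR₁, h1⟩ := h0 (e / 2 ^ (n + 4)) (div_pos he (by positivity))
  set d := dist2 0 b
  have hd : 0 ≤ d := Real.sqrt_nonneg _
  have hR : 0 < R₁ + d := by linarith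
  refine ⟨R₁ + d, hR, ?_⟩
  have h2 := mean_transfer h.cont hf 0 b hR
  have h3 : mean f 0 (R₁ + d + d) ≤ mean f 0 R₁ :=
    h.mean_antitone hn hg 0 hR₁.le (show 0 ≤ R₁ + d + d by linarith) (by linarith)
  have h4 : ((1 : ℝ) / 2) ^ (n + 4) ≤ ((R₁ + d) / (R₁ + d + d)) ^ (n + 4) := by
    refine pow_le_pow_left₀ (by norm_num) ?_ _
    rw [div_le_div_iff₀ two_pos (by linarith)]
    linarith
  have h5 := (mul_le_mul_of_nonneg_right h4 (mean_nonneg hf b (R₁ + d))).trans (h2.trans h3)
  rw [div_pow, one_pow, one_div_mul_eq_div, div_le_iff₀ (by positivity)] at h5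
  have := mul_lt_mul_of_pos_right h1 (show (0 : ℝ) < 2 ^ (n + 4) by positivity)
  rw [div_mul_cancel₀ e (by positivity)] at this
  linarith

/-- The comparison, for every positive solution. -/
theorem WSol.compare (h : WSol a p q u v) (ha : a ≤ 0) (ha2 : -2 < a) (hn : 3 ≤ n) (hq : 0 < q)
    (hqp : q ≤ p) (x : Fin n → ℝ) : v x ≤ ell p q * u x ^ sig p q := by
  have hp : 0 < p := hq.trans_le hqp
  set σ := sig p q with hσdef
  set l := ell p q with hldef
  have hl : 0 < l := ell_pos hp hq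
  have hσ : 0 < σ := sig_pos hp hq
  have hσ1 : σ ≤ 1 := by
    rw [hσdef, sig, div_le_one (by linarith)]; linarith
  have hO : IsOpen {y : Fin n → ℝ | y ≠ 0} := isOpen_ne
  set w : (Fin n → ℝ) → ℝ := fun y => v y - l * u y ^ σ with hwdef
  have hpw : ContDiffOn ℝ 2 (fun y => l * u y ^ σ) {y | y ≠ 0} :=
    contDiffOn_const.mul (h.smooth_u.rpow_const_of_ne fun y _ => (h.pos_u y).ne')
  have hw : ContDiffOn ℝ 2 w {y | y ≠ 0} := h.smooth_v.sub hpw
  have hwc : Continuous w :=
    h.cont_v.sub (continuous_const.mul (h.cont_u.rpow_const fun _ => Or.inr hσ.le))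
  have hlap : ∀ y, y ≠ 0 → 0 < w y → 0 ≤ lap w y := by
    intro y hy hwy
    have hu := h.pos_u y
    have h1 : ∀ᶠ t in 𝓝 (u y), HasDerivAt (fun t => l * t ^ σ) (l * (σ * t ^ (σ - 1))) t := by
      filter_upwards [lt_mem_nhds hu] with t ht
      exact (Real.hasDerivAt_rpow_const (Or.inl ht.ne')).const_mul l
    have h2 : HasDerivAt (fun t => l * (σ * t ^ (σ - 1)))
        (l * (σ * ((σ - 1) * u y ^ (σ - 1 - 1)))) (u y) :=
      ((Real.hasDerivAt_rpow_const (Or.inl hu.ne')).const_mul σ).const_mul l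
    rw [hwdef, lap_sub hO h.smooth_v hpw hy, lap_comp hO h.smooth_u hy h1 h2, h.eq_u y hy,
      h.eq_v y hy]
    have hb : ell p q * u y ^ sig p q ≤ v y := by
      simp only [w, sub_pos] at hwy
      exact hwy.le
    have h3 := mul_le_mul_of_nonneg_left (excess_sign hp hq hu hb) (wgt_pos (a := a) hy).le
    have h4 : l * (σ * ((σ - 1) * u y ^ (σ - 1 - 1))) * ∑ i, pd u i y ^ 2 ≤ 0 := by
      refine mul_nonpos_of_nonpos_of_nonneg ?_ (sum_nonneg fun i _ => sq_nonneg _)
      exact mul_nonpos_of_nonneg_of_nonpos hl.le (mul_nonpos_of_nonneg_of_nonpos hσ.le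
        (mul_nonpos_of_nonpos_of_nonneg (by linarith) (Real.rpow_nonneg hu.le _)))
    rw [← hσdef, ← hldef] at h3
    linarith
  have hsup : PunctSuper (fun y => -flat (w y)) fun _ => 0 := by
    refine ⟨(contDiff_flat.continuous.comp hwc).neg,
      (contDiff_flat.comp_contDiffOn hw).neg, continuous_const, fun y hy => ?_⟩
    rw [lap_comp (θ := fun s => -flat s) hO hw hy
      (.of_forall fun t => (hasDerivAt_flat t).neg) (hasDerivAt_flat' (w y)).neg]
    rw [neg_zero]
    rcases le_or_gt (w y) 0 with hwy | hwy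
    · simp [expNegInvGlue.zero_of_nonpos hwy]
    · have hg := expNegInvGlue.nonneg (w y)
      have := hlap y hy hwy
      have hinv : 0 < (w y)⁻¹ := inv_pos.2 hwy
      have a1 : 0 ≤ (1 + (w y)⁻¹) * expNegInvGlue (w y) * lap w y := by positivity
      have a2 : 0 ≤ (w y)⁻¹ ^ 3 * expNegInvGlue (w y) * ∑ i, pd w i y ^ 2 :=
        mul_nonneg (by positivity) (sum_nonneg fun i _ => sq_nonneg _)
      linarith
  by_contra hcon
  push Not at hcon
  have hpos : 0 < flat (w x) := mul_pos (sub_pos.2 hcon) (expNegInvGlue.pos_of_pos (sub_pos.2 hcon))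
  obtain ⟨R, hR, hlt⟩ := exists_mean_lt_of_zero (h.super_v ha hq.le) hn
    (fun y => mul_nonneg (soft_pos a y).le (Real.rpow_nonneg (h.pos_u y).le q))
    (fun y => (h.pos_v y).le) (fun e he => h.exists_mean_lt ha ha2 hp hq hn he) x
    (mul_pos hpos (mass_pos n 2 one_le_two))
  have hle := hsup.mean_le hn (fun _ => le_rfl) x hR.le
  have hcm : mean (fun y => flat (w y)) x R ≤ mean v x R := by
    refine integral_mono ?_ ?_ fun y => mul_le_mul_of_nonneg_right ?_ (posPow_nonneg _ _)
    · simpa using integrable_weight (f := fun y => flat (w (x + R • y)))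
        ((contDiff_flat.continuous.comp hwc).comp (by fun_prop)) (0 : Fin n → ℝ) zero_le_one 2
        one_le_two
    · simpa using integrable_weight (f := fun y => v (x + R • y)) (h.cont_v.comp (by fun_prop))
        (0 : Fin n → ℝ) zero_le_one 2 one_le_two
    · exact flat_le (sub_le_self _ (mul_nonneg hl.le (Real.rpow_nonneg (h.pos_u _).le σ)))
        (h.pos_v _).le
  simp only [mean, neg_mul, integral_neg] at hle
  simp only [mean] at hcm hlt
  linarith

end

end Vale.Agent.P100.Weighted
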