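import Mathlib
import Vale.Agent.P100.Identity
import Vale.Agent.P100.Weighted.Basic

/-!
# P100, weighted: the identity

The field is `|x| ^ (-a) (A (D²u ∇u - (a/2) |∇u|² x/|x|²) + B |∇u|² ∇u + C |∇u|² ∇v) + c ∇u + d ∇v`
with coefficients taken at `(u, v)`. Its divergence contains no third derivatives.
-/

namespace Vale.Agent.P100.Weighted

open MeasureTheory Set Filter Topology Finset Function
open Vale.Agent.P098.Cone
open scoped ContDiff

noncomputable section

variable {n : ℕ} {O : Set (Fin n → ℝ)}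

/-- The divergence of a field `D²f g + Y` on the set where `Δ f = t`. -/
def divField (f t : (Fin n → ℝ) → ℝ) (g Y : Fin n → (Fin n → ℝ) → ℝ) (x : Fin n → ℝ) : ℝ :=
  (∑ i, ∑ j, pd (pd f i) j x * pd (g j) i x) + (∑ j, g j x * pd t j x) + ∑ i, pd (Y i) i x

/-- The field `D²f g + Y`. -/
def hessField (f : (Fin n → ℝ) → ℝ) (g Y : Fin n → (Fin n → ℝ) → ℝ) (i : Fin n) (x : Fin n → ℝ) : ℝ :=
  (∑ j, pd (pd f i) j x * g j x) + Y i x

theorem continuousOn_divField {f t : (Fin n → ℝ) → ℝ} {g Y : Fin n → (Fin n → ℝ) → ℝ} (hO : IsOpen O)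
    (hf : ContDiffOn ℝ 2 f O) (ht : ContDiffOn ℝ 1 t O) (hg : ∀ j, ContDiffOn ℝ 1 (g j) O)
    (hY : ∀ i, ContDiffOn ℝ 1 (Y i) O) : ContinuousOn (divField f t g Y) O := by
  unfold divField
  exact ((continuousOn_finsetSum _ fun i _ => continuousOn_finsetSum _ fun j _ =>
      (continuousOn_pd (contDiffOn_pd_two hf hO i) hO j).mul (continuousOn_pd (hg j) hO i)).add
    (continuousOn_finsetSum _ fun j _ => (hg j).continuousOn.mul (continuousOn_pd ht hO j))).add
    (continuousOn_finsetSum _ fun i _ => continuousOn_pd (hY i) hO i)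

theorem continuousOn_hessField {f : (Fin n → ℝ) → ℝ} {g Y : Fin n → (Fin n → ℝ) → ℝ} (hO : IsOpen O)
    (hf : ContDiffOn ℝ 2 f O) (hg : ∀ j, ContDiffOn ℝ 1 (g j) O) (hY : ∀ i, ContDiffOn ℝ 1 (Y i) O)
    (i : Fin n) : ContinuousOn (hessField f g Y i) O :=
  (continuousOn_finsetSum _ fun j _ =>
    (continuousOn_pd (contDiffOn_pd_two hf hO i) hO j).mul (hg j).continuousOn).add (hY i).continuousOn

/-- The weak form. -/
theorem integral_divField {f t φ : (Fin n → ℝ) → ℝ} {g Y : Fin n → (Fin n → ℝ) → ℝ} (hO : IsOpen O)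
    (hf : ContDiffOn ℝ 2 f O) (ht : ContDiffOn ℝ 1 t O) (hlap : ∀ x ∈ O, lap f x = t x)
    (hg : ∀ j, ContDiffOn ℝ 1 (g j) O) (hY : ∀ i, ContDiffOn ℝ 1 (Y i) O) (hφ : ContDiff ℝ 1 φ)
    (hc : HasCompactSupport φ) (hs : tsupport φ ⊆ O) :
    ∫ x, (φ x * divField f t g Y x + ∑ i, pd φ i x * hessField f g Y i x) = 0 := by
  set S : Fin n → (Fin n → ℝ) → ℝ := fun j x => t x * g j x
  have hS : ∀ j, ContDiffOn ℝ 1 (S j) O := fun j => ht.mul (hg j)
  have iY : ∀ {Y : (Fin n → ℝ) → ℝ}, ContDiffOn ℝ 1 Y O → ∀ i,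
      Integrable fun x => φ x * pd Y i x + pd φ i x * Y x := fun {Y} hY i =>
    ((continuous_mul_of_tsupport hφ.continuous hO hs (continuousOn_pd hY hO i)).integrable_of_hasCompactSupport
      hc.mul_right).add ((continuous_mul_of_tsupport (continuous_pd_one hφ i) hO
        ((tsupport_pd _ _).trans hs) hY.continuousOn).integrable_of_hasCompactSupport
      (hasCompactSupport_pd hc i).mul_right)
  have hH : ∀ i j, ContinuousOn (pd (pd f i) j) O := fun i j =>
    continuousOn_pd (contDiffOn_pd_two hf hO i) hO j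
  have piece : ∀ i j a b, Integrable fun x =>
      pd (pd f i) a x * (φ x * pd (g j) b x + pd φ b x * g j x) := fun i j a b => by
    have h1 := continuous_mul_of_tsupport hφ.continuous hO hs
      ((hH i a).mul (continuousOn_pd (hg j) hO b))
    have h2 := continuous_mul_of_tsupport (continuous_pd_one hφ b) hO ((tsupport_pd _ _).trans hs)
      ((hH i a).mul (hg j).continuousOn)
    refine ((h1.integrable_of_hasCompactSupport hc.mul_right).add
      (h2.integrable_of_hasCompactSupport (hasCompactSupport_pd hc b).mul_right)).congr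
      (.of_forall fun x => ?_)
    simp only [Pi.add_apply, Pi.mul_apply]
    ring
  have iB : Integrable fun x => ∑ i, ∑ j, (pd (pd f i) j x * (φ x * pd (g j) i x + pd φ i x * g j x)
      - pd (pd f i) i x * (φ x * pd (g j) j x + pd φ j x * g j x)) :=
    integrable_finsetSum _ fun i _ => integrable_finsetSum _ fun j _ => (piece i j j i).sub (piece i j i j)
  have IS := integrable_finsetSum (univ : Finset (Fin n)) fun j _ => iY (hS j) j
  have IY := integrable_finsetSum (univ : Finset (Fin n)) fun i _ => iY (hY i) i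
  have hT : ∫ x, ((∑ i, ∑ j, (pd (pd f i) j x * (φ x * pd (g j) i x + pd φ i x * g j x)
      - pd (pd f i) i x * (φ x * pd (g j) j x + pd φ j x * g j x)))
      + (∑ j, (φ x * pd (S j) j x + pd φ j x * S j x))
      + ∑ i, (φ x * pd (Y i) i x + pd φ i x * Y i x)) = 0 := by
    rw [integral_add (Integrable.fun_add iB IS) IY, integral_add iB IS,
      integral_bochner hO hf hg hφ hc hs, zero_add, integral_finsetSum _ fun j _ => iY (hS j) j,
      integral_finsetSum _ fun i _ => iY (hY i) i,
      sum_eq_zero fun j _ => integral_pd_cut hO (hS j) hφ hc hs j,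
      sum_eq_zero fun i _ => integral_pd_cut hO (hY i) hφ hc hs i, add_zero]
  refine (integral_congr_ae (.of_forall fun x => ?_)).trans hT
  by_cases hx : x ∈ tsupport φ
  swap
  · have z : ∀ i, pd φ i x = 0 := fun i =>
      image_eq_zero_of_notMem_tsupport fun h => hx (tsupport_pd _ _ h)
    simp [z, image_eq_zero_of_notMem_tsupport hx]
  have hx0 : x ∈ O := hs hx
  have eS : ∀ j, pd (S j) j x = t x * pd (g j) j x + g j x * pd t j x := fun j => by
    rw [show S j = fun x => t x * g j x from rfl,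
      pd_mul ((ht.differentiableOn one_ne_zero).differentiableAt (hO.mem_nhds hx0))
        (((hg j).differentiableOn one_ne_zero).differentiableAt (hO.mem_nhds hx0))]
  have etr : ∀ F : Fin n → ℝ, ∑ i, ∑ j, pd (pd f i) i x * F j = t x * ∑ j, F j := fun F => by
    rw [← sum_mul_sum, show ∑ i, pd (pd f i) i x = t x from hlap x hx0]
  simp only [sum_sub_distrib, etr]
  simp only [eS, S, divField, hessField]
  simp only [mul_add, mul_sum, sum_add_distrib]
  simp only [mul_comm, mul_left_comm, mul_assoc]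
  ring

end

end Vale.Agent.P100.Weighted
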