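import Mathlib
import Vale.Agent.P100.Weighted.Identity
import Vale.Agent.P100.Blocks

/-!
# P100, weighted: the field of five coefficients and its divergence
-/

namespace Vale.Agent.P100.Weighted

open MeasureTheory Set Filter Topology Finset Function
open Vale.Agent.P098.Cone
open scoped ContDiff

noncomputable section

variable {n : ℕ} {a p q : ℝ} {u v : (Fin n → ℝ) → ℝ} {K : Coef}

/-- Half the logarithmic gradient of the weight. -/
def halfLog (a : ℝ) (x : Fin n → ℝ) (i : Fin n) : ℝ := a / 2 * (x i / sqr x)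

/-- The pair of values. -/
def vals2 (u v : (Fin n → ℝ) → ℝ) (x : Fin n → ℝ) : Fin 2 → ℝ := fun e => comps u v e x

/-- The right-hand side of the first equation. -/
def rhs (a p : ℝ) (v : (Fin n → ℝ) → ℝ) (x : Fin n → ℝ) : ℝ := -(wgt a x * v x ^ p)

/-- The part of the field in front of the Hessian. -/
def gvec (a : ℝ) (K : Coef) (u v : (Fin n → ℝ) → ℝ) (j : Fin n) (x : Fin n → ℝ) : ℝ :=
  (wgt a x)⁻¹ * (K.A 0 0 (vals2 u v x) * pd u j x)

/-- The first-order part of the field. -/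
def yvec (a : ℝ) (K : Coef) (u v : (Fin n → ℝ) → ℝ) (i : Fin n) (x : Fin n → ℝ) : ℝ :=
  (wgt a x)⁻¹ * ((∑ j, pd u j x * pd u j x) * (K.B 0 0 0 (vals2 u v x) * pd u i x
      + K.B 0 0 1 (vals2 u v x) * pd v i x - K.A 0 0 (vals2 u v x) * halfLog a x i))
    + (K.C 0 (vals2 u v x) * pd u i x + K.C 1 (vals2 u v x) * pd v i x)

/-- The field. -/
def wflux (a : ℝ) (K : Coef) (u v : (Fin n → ℝ) → ℝ) (i : Fin n) (x : Fin n → ℝ) : ℝ :=
  hessField u (gvec a K u v) (yvec a K u v) i x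

/-- Its divergence. -/
def wdiv (a p : ℝ) (K : Coef) (u v : (Fin n → ℝ) → ℝ) (x : Fin n → ℝ) : ℝ :=
  divField u (rhs a p v) (gvec a K u v) (yvec a K u v) x

theorem WSol.smooth_comps (h : WSol a p q u v) (c : Fin 2) :
    ContDiffOn ℝ 2 (comps u v c) {x | x ≠ 0} := by
  fin_cases c
  · exact h.smooth_u
  · exact h.smooth_v

theorem WSol.pos_vals (h : WSol a p q u v) (x : Fin n → ℝ) : vals2 u v x ∈ quad2 := by
  intro c
  fin_cases c
  · exact h.pos_u x
  · exact h.pos_v x

theorem contDiffOn_coef (h : WSol a p q u v) {F : (Fin 2 → ℝ) → ℝ} (hF : ContDiffOn ℝ 1 F quad2) :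
    ContDiffOn ℝ 1 (fun x => F (vals2 u v x)) {x | x ≠ 0} :=
  hF.comp (contDiffOn_pi.2 fun c => (h.smooth_comps c).of_le (by norm_num)) fun x _ => h.pos_vals x

theorem pd_coef (h : WSol a p q u v) {F : (Fin 2 → ℝ) → ℝ} (hF : ContDiffOn ℝ 1 F quad2)
    {x : Fin n → ℝ} (hx : x ≠ 0) (i : Fin n) :
    pd (fun x => F (vals2 u v x)) i x
      = pd u i x * pd F 0 (vals2 u v x) + pd v i x * pd F 1 (vals2 u v x) := by
  have hd : ∀ c, DifferentiableAt ℝ (comps u v c) x := fun c =>
    ((h.smooth_comps c).differentiableOn (by norm_num)).differentiableAt (isOpen_ne.mem_nhds hx)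
  have h1 : HasFDerivAt (fun x c => comps u v c x)
      (ContinuousLinearMap.pi fun c => fderiv ℝ (comps u v c) x) x :=
    hasFDerivAt_pi.2 fun c => (hd c).hasFDerivAt
  have h2 : DifferentiableAt ℝ F (vals2 u v x) :=
    (hF.differentiableOn one_ne_zero).differentiableAt (isOpen_quad2.mem_nhds (h.pos_vals x))
  have h3 : HasFDerivAt (fun x => F (vals2 u v x))
      ((fderiv ℝ F (vals2 u v x)).comp
        (ContinuousLinearMap.pi fun c => fderiv ℝ (comps u v c) x)) x :=
    h2.hasFDerivAt.comp x h1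
  rw [pd, h3.fderiv, ContinuousLinearMap.comp_apply, fderiv_eq_sum, Fin.sum_univ_two]
  rfl

theorem contDiffOn_wgt_inv (a : ℝ) : ContDiffOn ℝ 1 (fun x : Fin n → ℝ => (wgt a x)⁻¹) {x | x ≠ 0} :=
  ((contDiff_sqr.of_le (WithTop.coe_le_coe.2 le_top)).contDiffOn.rpow_const_of_ne
    fun x hx => (sqr_pos hx).ne').inv fun x hx => (wgt_pos hx).ne'

theorem contDiffOn_halfLog (a : ℝ) (i : Fin n) :
    ContDiffOn ℝ 1 (fun x => halfLog a x i) {x | x ≠ 0} :=
  contDiffOn_const.mul ((contDiff_apply ℝ ℝ i).contDiffOn.div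
    (contDiff_sqr.of_le (WithTop.coe_le_coe.2 le_top)).contDiffOn fun x hx => (sqr_pos hx).ne')

theorem WSol.smooth_pd (h : WSol a p q u v) (i : Fin n) :
    ContDiffOn ℝ 1 (pd u i) {x | x ≠ 0} ∧ ContDiffOn ℝ 1 (pd v i) {x | x ≠ 0} :=
  ⟨contDiffOn_pd_two h.smooth_u isOpen_ne i, contDiffOn_pd_two h.smooth_v isOpen_ne i⟩

theorem contDiffOn_rhs (h : WSol a p q u v) : ContDiffOn ℝ 1 (rhs a p v) {x | x ≠ 0} :=
  (((contDiff_sqr.of_le (WithTop.coe_le_coe.2 le_top)).contDiffOn.rpow_const_of_ne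
    fun x hx => (sqr_pos hx).ne').mul ((h.smooth_v.of_le (by norm_num)).rpow_const_of_ne
      fun x _ => (h.pos_v x).ne')).neg

theorem contDiffOn_gvec (h : WSol a p q u v) (hK : K.Smooth) (j : Fin n) :
    ContDiffOn ℝ 1 (gvec a K u v j) {x | x ≠ 0} :=
  (contDiffOn_wgt_inv a).mul ((contDiffOn_coef h (hK.A 0 0)).mul (h.smooth_pd j).1)

theorem contDiffOn_yvec (h : WSol a p q u v) (hK : K.Smooth) (i : Fin n) :
    ContDiffOn ℝ 1 (yvec a K u v i) {x | x ≠ 0} :=
  ((contDiffOn_wgt_inv a).mul ((ContDiffOn.sum fun j _ => (h.smooth_pd j).1.mul (h.smooth_pd j).1).mul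
    ((((contDiffOn_coef h (hK.B 0 0 0)).mul (h.smooth_pd i).1).add
      ((contDiffOn_coef h (hK.B 0 0 1)).mul (h.smooth_pd i).2)).sub
      ((contDiffOn_coef h (hK.A 0 0)).mul (contDiffOn_halfLog a i))))).add
    (((contDiffOn_coef h (hK.C 0)).mul (h.smooth_pd i).1).add
      ((contDiffOn_coef h (hK.C 1)).mul (h.smooth_pd i).2))

/-- The identity on solutions. -/
theorem WSol.identity (h : WSol a p q u v) (hK : K.Smooth) {φ : (Fin n → ℝ) → ℝ}
    (hφ : ContDiff ℝ 1 φ) (hc : HasCompactSupport φ) (hs : tsupport φ ⊆ {x | x ≠ 0}) :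
    ∫ x, (φ x * wdiv a p K u v x + ∑ i, pd φ i x * wflux a K u v i x) = 0 :=
  integral_divField isOpen_ne h.smooth_u (contDiffOn_rhs h) h.eq_u (contDiffOn_gvec h hK)
    (contDiffOn_yvec h hK) hφ hc hs

theorem WSol.continuousOn_wflux (h : WSol a p q u v) (hK : K.Smooth) (i : Fin n) :
    ContinuousOn (wflux a K u v i) {x | x ≠ 0} :=
  continuousOn_hessField isOpen_ne h.smooth_u (contDiffOn_gvec h hK) (contDiffOn_yvec h hK) i

theorem WSol.continuousOn_wdiv (h : WSol a p q u v) (hK : K.Smooth) :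
    ContinuousOn (wdiv a p K u v) {x | x ≠ 0} :=
  continuousOn_divField isOpen_ne h.smooth_u (contDiffOn_rhs h) (contDiffOn_gvec h hK)
    (contDiffOn_yvec h hK)

theorem pd_wgt {x : Fin n → ℝ} (hx : x ≠ 0) (i : Fin n) :
    pd (wgt a) i x = 2 * halfLog a x i * wgt a x := by
  have hs := sqr_pos hx
  rw [show wgt (n := n) a = fun y => (fun t : ℝ => t ^ (a / 2)) (sqr y) from rfl,
    pd_comp (Real.hasDerivAt_rpow_const (p := a / 2) (Or.inl hs.ne'))
      (contDiff_sqr.differentiable (by simp) x), pd_sqr, Real.rpow_sub_one hs.ne']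
  simp only [halfLog]
  ring

theorem pd_wgt_inv {x : Fin n → ℝ} (hx : x ≠ 0) (i : Fin n) :
    pd (fun y => (wgt a y)⁻¹) i x = -(2 * halfLog a x i) * (wgt a x)⁻¹ := by
  have hw := (wgt_pos (a := a) hx).ne'
  have hd : DifferentiableAt ℝ (wgt a) x := (((contDiff_sqr (n := n)).of_le
    (WithTop.coe_le_coe.2 le_top) : ContDiff ℝ 1 (sqr (n := n))).contDiffAt.rpow_const_of_ne
      (sqr_pos hx).ne').differentiableAt one_ne_zero
  rw [pd_comp (hasDerivAt_inv hw) hd, pd_wgt hx]
  field_simp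

theorem sum_pd_halfLog {x : Fin n → ℝ} (hx : x ≠ 0) :
    ∑ i, pd (fun y => halfLog a y i) i x = a / 2 * (n - 2) / sqr x := by
  have hs := (sqr_pos hx).ne'
  have e : ∀ i, pd (fun y => halfLog a y i) i x
      = a / 2 / sqr x - a / 2 * (2 * x i ^ 2) / sqr x ^ 2 := fun i => by
    have d1 : DifferentiableAt ℝ (fun y : Fin n → ℝ => y i) x := differentiableAt_apply i x
    have d2 : DifferentiableAt ℝ (sqr (n := n)) x := contDiff_sqr.differentiable (by simp) x
    rw [show (fun y => halfLog a y i) = fun y => a / 2 * (y i * (sqr y)⁻¹) from rfl,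
      pd_mul (differentiableAt_const _) (d1.fun_mul (d2.fun_inv hs)), pd_mul d1 (d2.fun_inv hs), pd_const,
      pd_comp (hasDerivAt_inv hs) d2, pd_sqr, pd_coord, if_pos rfl]
    ring
  simp only [e, sum_sub_distrib, ← mul_sum, ← sum_div, sum_const, card_univ, Fintype.card_fin,
    nsmul_eq_mul]
  rw [show ∑ i, x i ^ 2 = sqr x from rfl]
  field_simp

/-- The divergence, in the scalars of the jet. -/
theorem WSol.wdiv_eq (h : WSol a p q u v) (hK : K.Smooth) {x : Fin n → ℝ} (hx : x ≠ 0) :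
    let y := vals2 u v x
    let U := fun i => pd u i x
    let V := fun i => pd v i x
    let H := fun i j => pd (pd u i) j x
    let φ := halfLog a x
    let A := K.A 0 0
    let B := K.B 0 0 0
    let C := K.B 0 0 1
    let c := K.C 0
    let d := K.C 1
    let UU := inner2 U U
    let UV := inner2 U V
    let VV := inner2 V V
    let HUU := ∑ i, ∑ j, H i j * (U i * U j)
    let HUV := ∑ i, ∑ j, H i j * (U i * V j)
    let HφU := ∑ i, ∑ j, H i j * (φ i * U j)
    wdiv a p K u v x = (wgt a x)⁻¹ * (A y * (∑ i, ∑ j, H i j * H i j) - 4 * A y * HφU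
        + pd A 0 y * (HUU - UU * inner2 φ U) + pd A 1 y * (HUV - UU * inner2 φ V)
        + 2 * B y * (HUU - UU * inner2 φ U) + 2 * C y * (HUV - UU * inner2 φ V)
        + A y * UU * (2 * inner2 φ φ - a / 2 * (n - 2) / sqr x)
        - 2 * A y * wgt a x * v x ^ p * inner2 φ U - A y * wgt a x * (p * v x ^ (p - 1)) * UV
        + UU * (pd B 0 y * UU + pd B 1 y * UV + pd C 0 y * UV + pd C 1 y * VV)
        + B y * UU * -(wgt a x * v x ^ p) + C y * UU * -(wgt a x * u x ^ q))
      + (pd c 0 y * UU + pd c 1 y * UV + c y * -(wgt a x * v x ^ p)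
        + pd d 0 y * UV + pd d 1 y * VV + d y * -(wgt a x * u x ^ q)) := by
  intro y U V H φ A B C c d UU UV VV HUU HUV HφU
  have hO : IsOpen {x : Fin n → ℝ | x ≠ 0} := isOpen_ne
  have dO : ∀ {f : (Fin n → ℝ) → ℝ}, ContDiffOn ℝ 1 f {x | x ≠ 0} → DifferentiableAt ℝ f x :=
    fun hf => (hf.differentiableOn one_ne_zero).differentiableAt (hO.mem_nhds hx)
  have dF : ∀ {F}, ContDiffOn ℝ 1 F quad2 → DifferentiableAt ℝ (fun x => F (vals2 u v x)) x :=
    fun hF => dO (contDiffOn_coef h hF)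
  have dw := dO (contDiffOn_wgt_inv (n := n) a)
  have dU : ∀ i, DifferentiableAt ℝ (pd u i) x := fun i => dO (h.smooth_pd i).1
  have dV : ∀ i, DifferentiableAt ℝ (pd v i) x := fun i => dO (h.smooth_pd i).2
  have dp : ∀ i, DifferentiableAt ℝ (fun y => halfLog a y i) x := fun i => dO (contDiffOn_halfLog a i)
  have hsymm : ∀ i j, H i j = H j i := fun i j =>
    hess_comm (h.smooth_u.contDiffAt (hO.mem_nhds hx)) i j
  have hw := (wgt_pos (a := a) hx).ne'
  have eg : ∀ j i, pd (gvec a K u v j) i x = (wgt a x)⁻¹ * ((pd A 0 y * U i + pd A 1 y * V i) * U j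
      + A y * H j i - 2 * φ i * (A y * U j)) := fun j i => by
    rw [show gvec a K u v j = fun x => (wgt a x)⁻¹ * (K.A 0 0 (vals2 u v x) * pd u j x) from rfl,
      pd_mul dw ((dF (hK.A 0 0)).fun_mul (dU j)), pd_mul (dF (hK.A 0 0)) (dU j), pd_coef h (hK.A 0 0) hx,
      pd_wgt_inv hx]
    simp only [U, V, H, A, y, φ]
    ring
  have dv : DifferentiableAt ℝ v x := dO (h.smooth_v.of_le (by norm_num))
  have et : ∀ j, pd (rhs a p v) j x
      = -(wgt a x * (2 * φ j * v x ^ p + p * v x ^ (p - 1) * V j)) := fun j => by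
    have d1 : DifferentiableAt ℝ (fun y => v y ^ p) x := dv.rpow_const (Or.inl (h.pos_v x).ne')
    have d2 : DifferentiableAt ℝ (wgt a) x := by simpa using dw.fun_inv (inv_ne_zero hw)
    rw [show rhs a p v = fun y => -(wgt a y * v y ^ p) from rfl,
      show pd (fun y => -(wgt a y * v y ^ p)) j x = -pd (fun y => wgt a y * v y ^ p) j x by
        simp [pd, fderiv_fun_neg], pd_mul d2 d1, pd_wgt hx,
      pd_comp (Real.hasDerivAt_rpow_const (p := p) (Or.inl (h.pos_v x).ne')) dv]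
    simp only [V, φ]
    ring
  have ey : ∀ i, pd (yvec a K u v i) i x = (wgt a x)⁻¹ *
      (-(2 * φ i) * (UU * (B y * U i + C y * V i - A y * φ i))
        + ((∑ j, 2 * (U j * H i j)) * (B y * U i + C y * V i - A y * φ i)
          + UU * ((pd B 0 y * U i + pd B 1 y * V i) * U i + B y * H i i
            + ((pd C 0 y * U i + pd C 1 y * V i) * V i + C y * pd (pd v i) i x)
            - ((pd A 0 y * U i + pd A 1 y * V i) * φ i + A y * pd (fun z => halfLog a z i) i x))))
      + ((pd c 0 y * U i + pd c 1 y * V i) * U i + c y * H i i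
        + ((pd d 0 y * U i + pd d 1 y * V i) * V i + d y * pd (pd v i) i x)) := fun i => by
    have ds : DifferentiableAt ℝ (fun x => ∑ j, pd u j x * pd u j x) x :=
      DifferentiableAt.fun_sum fun j _ => (dU j).mul (dU j)
    have dB := (dF (hK.B 0 0 0)).fun_mul (dU i)
    have dC := (dF (hK.B 0 0 1)).fun_mul (dV i)
    have dA := (dF (hK.A 0 0)).fun_mul (dp i)
    have dc := (dF (hK.C 0)).fun_mul (dU i)
    have dd := (dF (hK.C 1)).fun_mul (dV i)
    have din := ds.fun_mul ((dB.fun_add dC).fun_sub dA)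
    rw [show yvec a K u v i = fun x => (wgt a x)⁻¹ * ((∑ j, pd u j x * pd u j x)
          * (K.B 0 0 0 (vals2 u v x) * pd u i x + K.B 0 0 1 (vals2 u v x) * pd v i x
            - K.A 0 0 (vals2 u v x) * halfLog a x i))
        + (K.C 0 (vals2 u v x) * pd u i x + K.C 1 (vals2 u v x) * pd v i x) from rfl,
      pd_add (dw.fun_mul din) (dc.fun_add dd), pd_mul dw din, pd_mul ds ((dB.fun_add dC).fun_sub dA),
      pd_sub (dB.fun_add dC) dA, pd_add dB dC, pd_add dc dd, pd_mul (dF (hK.B 0 0 0)) (dU i),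
      pd_mul (dF (hK.B 0 0 1)) (dV i), pd_mul (dF (hK.A 0 0)) (dp i), pd_mul (dF (hK.C 0)) (dU i),
      pd_mul (dF (hK.C 1)) (dV i), pd_sum _ (F := fun j x => pd u j x * pd u j x)
        fun j _ => (dU j).mul (dU j), pd_coef h (hK.A 0 0) hx, pd_coef h (hK.B 0 0 0) hx,
      pd_coef h (hK.B 0 0 1) hx, pd_coef h (hK.C 0) hx, pd_coef h (hK.C 1) hx, pd_wgt_inv hx]
    simp only [pd_mul (dU _) (dU _), show ∀ j, pd (pd u j) i x = H i j from fun j => hsymm j i]
    simp only [U, V, H, A, B, C, c, d, y, φ, UU, inner2, two_mul, sum_add_distrib]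
    simp only [mul_comm]
    ring
  have tru : ∑ i, H i i = -(wgt a x * v x ^ p) := h.eq_u x hx
  have trv : ∑ i, pd (pd v i) i x = -(wgt a x * u x ^ q) := h.eq_v x hx
  have s1 : ∀ w : Fin n → ℝ, ∑ i, (∑ j, U j * H i j) * w i
      = ∑ i, ∑ j, H i j * (w i * U j) := fun w => by
    simp only [sum_mul]
    exact sum_congr rfl fun i _ => sum_congr rfl fun j _ => by ring
  have sH : ∀ s t : Fin n → ℝ, ∑ i, ∑ j, H i j * (s i * t j) = ∑ i, ∑ j, H i j * (t i * s j) :=
    fun s t => by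
    rw [sum_comm]
    exact sum_congr rfl fun i _ => sum_congr rfl fun j _ => by rw [hsymm j i]; ring
  have e1 : ∑ i, ∑ j, H i j * pd (gvec a K u v j) i x = (wgt a x)⁻¹ * (pd A 0 y * HUU
      + pd A 1 y * HUV + A y * (∑ i, ∑ j, H i j * H i j) - 2 * A y * HφU) := by
    simp only [eg, HUU, HUV, HφU, sH U V, mul_sum, ← sum_add_distrib, ← sum_sub_distrib]
    exact sum_congr rfl fun i _ => sum_congr rfl fun j _ => by rw [hsymm j i]; ring
  have e2 : ∑ j, gvec a K u v j x * pd (rhs a p v) j x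
      = -(A y * (2 * v x ^ p * inner2 φ U + p * v x ^ (p - 1) * UV)) := by
    simp only [et, gvec, UV, inner2, mul_sum, ← sum_add_distrib, ← sum_neg_distrib]
    refine sum_congr rfl fun j _ => ?_
    simp only [A, y, U, V]
    field_simp
  have e3 : ∑ i, pd (yvec a K u v i) i x = (wgt a x)⁻¹ *
      (-2 * UU * (B y * inner2 φ U + C y * inner2 φ V - A y * inner2 φ φ)
        + 2 * B y * HUU + 2 * C y * HUV - 2 * A y * HφU
        + UU * (pd B 0 y * UU + pd B 1 y * UV + B y * -(wgt a x * v x ^ p)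
            + (pd C 0 y * UV + pd C 1 y * VV + C y * -(wgt a x * u x ^ q))
            - (pd A 0 y * inner2 φ U + pd A 1 y * inner2 φ V + A y * (a / 2 * (n - 2) / sqr x))))
      + (pd c 0 y * UU + pd c 1 y * UV + c y * -(wgt a x * v x ^ p)
        + (pd d 0 y * UV + pd d 1 y * VV + d y * -(wgt a x * u x ^ q))) := by
    have eP : ∀ i, pd (yvec a K u v i) i x = (wgt a x)⁻¹ *
        (-2 * UU * (B y * (φ i * U i) + C y * (φ i * V i) - A y * (φ i * φ i))
          + 2 * B y * ((∑ j, U j * H i j) * U i) + 2 * C y * ((∑ j, U j * H i j) * V i)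
          - 2 * A y * ((∑ j, U j * H i j) * φ i)
          + UU * (pd B 0 y * (U i * U i) + pd B 1 y * (U i * V i) + B y * H i i
              + (pd C 0 y * (U i * V i) + pd C 1 y * (V i * V i) + C y * pd (pd v i) i x)
              - (pd A 0 y * (φ i * U i) + pd A 1 y * (φ i * V i)
                + A y * pd (fun z => halfLog a z i) i x)))
        + (pd c 0 y * (U i * U i) + pd c 1 y * (U i * V i) + c y * H i i
          + (pd d 0 y * (U i * V i) + pd d 1 y * (V i * V i) + d y * pd (pd v i) i x)) := fun i => by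
      rw [ey]; simp only [← mul_sum]; ring
    have hHUV : ∑ i, ∑ j, H i j * (V i * U j) = HUV := sH V U
    simp only [eP, sum_add_distrib, sum_sub_distrib, ← mul_sum, s1, hHUV, tru, trv,
      sum_pd_halfLog hx]
    simp only [HUU, HφU, UU, UV, VV, inner2]
  simp only [wdiv, divField]
  rw [show (∑ i, ∑ j, pd (pd u i) j x * pd (gvec a K u v j) i x)
      = ∑ i, ∑ j, H i j * pd (gvec a K u v j) i x from rfl, e1, e2, e3]
  field_simp
  ring

end

end Vale.Agent.P100.Weighted
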