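import Mathlib
import Vale.Agent.P100.Dimension
import Vale.Agent.P100.Weighted.Field

/-!
# P100, weighted: the pointwise inequality

With the weight `|x| ^ a`, `-2 < a ≤ 0`, the normalised divergence is `A` times a sum of squares, the
remainder of the five functions in the real dimension `N = 2 (n + a) / (2 + a)`, and a nonnegative
multiple of `|x|² |∇u|² - (x·∇u)²`. The extra `N - n` dimensions carry the radial derivative.
-/

namespace Vale.Agent.P100.Weighted

open Set Finset Function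
open Vale.Agent.P098.Cone

noncomputable section

variable {n : ℕ} {a p q D : ℝ}

/-- The extra dimensions. -/
def extra (n : ℕ) (a : ℝ) : ℝ := -a * ((n : ℝ) - 2) / (2 + a)

/-- The dimension of the weighted system. -/
def dimW (n : ℕ) (a : ℝ) : ℝ := n + extra n a

theorem extra_nonneg (hn : 2 ≤ n) (ha : a ≤ 0) (ha2 : -2 < a) : 0 ≤ extra n a :=
  div_nonneg (mul_nonneg (by linarith) (by
    have : (2 : ℝ) ≤ n := by exact_mod_cast hn
    linarith)) (by linarith)

theorem dimW_pos (hn : 2 ≤ n) (ha : a ≤ 0) (ha2 : -2 < a) : 0 < dimW n a := by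
  have : (2 : ℝ) ≤ n := by exact_mod_cast hn
  have := extra_nonneg hn ha ha2
  simp only [dimW]
  linarith

theorem dimW_eq (ha2 : -2 < a) : dimW n a = 2 * ((n : ℝ) + a) / (2 + a) := by
  have : 2 + a ≠ 0 := by linarith
  simp only [dimW, extra]
  field_simp
  ring

/-- The square of a symmetric matrix shifted by rank one terms and a multiple of the identity. -/
theorem sum_sq_shift {H : Fin n → Fin n → ℝ} (hH : ∀ i j, H i j = H j i) (φ U V : Fin n → ℝ)
    (c₁ c₂ τ : ℝ) :
    ∑ i, ∑ j, (H i j - (φ i * U j + U i * φ j) + c₁ * (U i * U j)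
        + c₂ * ((U i * V j + V i * U j) / 2) + if i = j then inner2 φ U - τ else 0) ^ 2
      = (∑ i, ∑ j, H i j * H i j) - 4 * (∑ i, ∑ j, H i j * (φ i * U j))
        + 2 * inner2 φ φ * inner2 U U + ((n : ℝ) - 2) * inner2 φ U ^ 2
        + 2 * (∑ i, H i i) * inner2 φ U
        + 2 * c₁ * ((∑ i, ∑ j, H i j * (U i * U j)) - inner2 U U * inner2 φ U)
        + 2 * c₂ * ((∑ i, ∑ j, H i j * (U i * V j)) - inner2 U U * inner2 φ V)
        - 2 * τ * ((∑ i, H i i) + ((n : ℝ) - 2) * inner2 φ U + c₁ * inner2 U U + c₂ * inner2 U V)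
        + c₁ ^ 2 * inner2 U U ^ 2 + 2 * c₁ * c₂ * (inner2 U U * inner2 U V)
        + c₂ ^ 2 * (inner2 U U * inner2 V V + inner2 U V ^ 2) / 2 + n * τ ^ 2 := by
  set e := inner2 φ U - τ with he
  have h1 : ∀ i j, (H i j - (φ i * U j + U i * φ j) + c₁ * (U i * U j)
      + c₂ * ((U i * V j + V i * U j) / 2) + if i = j then e else 0) ^ 2
      = H i j * H i j - 4 * (H i j * sym φ U i j) + 2 * c₁ * (H i j * sym U U i j)
        + 2 * c₂ * (H i j * sym U V i j) + 4 * (sym φ U i j * sym φ U i j)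
        - 4 * c₁ * (sym φ U i j * sym U U i j) - 4 * c₂ * (sym φ U i j * sym U V i j)
        + c₁ ^ 2 * (sym U U i j * sym U U i j) + 2 * c₁ * c₂ * (sym U U i j * sym U V i j)
        + c₂ ^ 2 * (sym U V i j * sym U V i j)
        + if i = j then 2 * e * (H i i - 2 * sym φ U i i + c₁ * sym U U i i + c₂ * sym U V i i) + e ^ 2
          else 0 := fun i j => by
    by_cases hij : i = j
    · subst hij
      simp only [if_true, sym]
      ring
    · simp only [if_neg hij, add_zero, sym]
      ring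
  simp only [h1, sum_add_distrib, sum_sub_distrib, ← mul_sum, sum_sym_mul, sum_mul_sym hH,
    Finset.sum_ite_eq, Finset.mem_univ, if_true, trace_sym, sum_const, card_univ, Fintype.card_fin,
    nsmul_eq_mul, inner2_comm U φ, inner2_comm V U]
  rw [he]
  ring

/-- A shifted entry of the Hessian. -/
def shiftH (p q D : ℝ) (F : Five) (r : ℝ) (H : Fin n → Fin n → ℝ) (φ U V : Fin n → ℝ) (τ : ℝ)
    (i j : Fin n) : ℝ :=
  H i j - (φ i * U j + U i * φ j) + F.k₁ p q D r / (2 * F.A r) * (U i * U j)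
    + F.k₂ p q D r / (2 * F.A r) * ((U i * V j + V i * U j) / 2)
    + if i = j then inner2 φ U - τ else 0

/-- The shift of the trace. -/
def shiftT (n : ℕ) (a p q D : ℝ) (F : Five) (r UU UV : ℝ) : ℝ :=
  (-(r ^ p) + (F.k₁ p q D r * UU + F.k₂ p q D r * UV) / (2 * F.A r)) / dimW n a

/-- The divergence with `u = 1`, `v = r` and weight one. -/
def normDiv (a p q D : ℝ) (F : Five) (r : ℝ) (z : Fin n → ℝ) (U V : Fin n → ℝ)
    (H : Fin n → Fin n → ℝ) : ℝ :=
  F.A r * (∑ i, ∑ j, H i j * H i j)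
    - 4 * F.A r * (∑ i, ∑ j, H i j * (halfLog a z i * U j))
    + F.k₁ p q D r * ((∑ i, ∑ j, H i j * (U i * U j)) - inner2 U U * inner2 (halfLog a z) U)
    + F.k₂ p q D r * ((∑ i, ∑ j, H i j * (U i * V j)) - inner2 U U * inner2 (halfLog a z) V)
    + F.A r * inner2 U U
      * (2 * inner2 (halfLog a z) (halfLog a z) - a / 2 * (n - 2) / sqr z)
    - 2 * F.A r * r ^ p * inner2 (halfLog a z) U - F.A r * (p * r ^ (p - 1)) * inner2 U V
    + inner2 U U * (homD p q (D - 4 - wt p q 0 - wt p q 0 - wt p q 0) F.B r 0 * inner2 U U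
      + homD p q (D - 4 - wt p q 0 - wt p q 0 - wt p q 0) F.B r 1 * inner2 U V
      + homD p q (D - 4 - wt p q 0 - wt p q 0 - wt p q 1) F.C r 0 * inner2 U V
      + homD p q (D - 4 - wt p q 0 - wt p q 0 - wt p q 1) F.C r 1 * inner2 V V)
    + F.B r * inner2 U U * -(r ^ p) + F.C r * inner2 U U * -1
    + (homD p q (D - 2 - wt p q 0) F.c r 0 * inner2 U U
      + homD p q (D - 2 - wt p q 0) F.c r 1 * inner2 U V + F.c r * -(r ^ p)
      + homD p q (D - 2 - wt p q 1) F.d r 0 * inner2 U V
      + homD p q (D - 2 - wt p q 1) F.d r 1 * inner2 V V + F.d r * -1)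

/-- The radial component in the extra dimensions. -/
def radial (a : ℝ) (z U : Fin n → ℝ) : ℝ := (2 + a) / 2 * (inner2 z U / sqr z)

theorem inner2_halfLog (z U : Fin n → ℝ) :
    inner2 (halfLog a z) U = a / 2 * (inner2 z U / sqr z) := by
  simp only [inner2, halfLog, sum_div, mul_sum]
  exact sum_congr rfl fun i _ => by ring

/-- The splitting. -/
theorem normDiv_eq (F : Five) (hn : 2 ≤ n) (ha : a ≤ 0) (ha2 : -2 < a) {r : ℝ} (hA : F.A r ≠ 0)
    {z : Fin n → ℝ} (hz : z ≠ 0) (U V : Fin n → ℝ) {H : Fin n → Fin n → ℝ}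
    (hH : ∀ i j, H i j = H j i) (htr : ∑ i, H i i = -(r ^ p)) :
    normDiv a p q D F r z U V H
      = F.A r * ((∑ i, ∑ j, shiftH p q D F r H (halfLog a z) U V
            (shiftT n a p q D F r (inner2 U U) (inner2 U V)) i j ^ 2)
          + extra n a * (radial a z U - shiftT n a p q D F r (inner2 U U) (inner2 U V)) ^ 2)
        + F.restAt (dimW n a) p q D r (inner2 U U) (inner2 U V) (inner2 V V)
        + F.A r * (-a * ((n : ℝ) - 2) / 2
            * ((sqr z * inner2 U U - inner2 z U ^ 2) / sqr z ^ 2)) := by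
  have hN := (dimW_pos hn ha ha2).ne'
  have hs := (sqr_pos hz).ne'
  have h2a : 2 + a ≠ 0 := by linarith
  have eT : (dimW n a) * shiftT n a p q D F r (inner2 U U) (inner2 U V)
      = -(r ^ p) + (F.k₁ p q D r * inner2 U U + F.k₂ p q D r * inner2 U V) / (2 * F.A r) := by
    rw [shiftT, mul_div_cancel₀ _ hN]
  have eS : F.slope p q D r (inner2 U U) (inner2 U V) / dimW n a
      = F.A r * dimW n a * shiftT n a p q D F r (inner2 U U) (inner2 U V) ^ 2 := by
    simp only [Five.slope, shiftT]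
    field_simp
  have eE : extra n a = dimW n a - n := by simp [dimW]
  have eR : extra n a * radial a z U = -((n : ℝ) - 2) * inner2 (halfLog a z) U := by
    rw [inner2_halfLog]
    simp only [extra, radial]
    field_simp
  have eR2 : extra n a * radial a z U ^ 2
      = -((n : ℝ) - 2) * inner2 (halfLog a z) U * radial a z U := by
    rw [sq, ← mul_assoc, eR]
  have eφ : -((n : ℝ) - 2) * inner2 (halfLog a z) U * radial a z U
      = ((n : ℝ) - 2) * (-a / 2) * (1 + a / 2) * (inner2 z U / sqr z) ^ 2 := by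
    rw [inner2_halfLog, radial]; ring
  have eφ2 : inner2 (halfLog a z) U ^ 2 = a ^ 2 / 4 * (inner2 z U / sqr z) ^ 2 := by
    rw [inner2_halfLog]; ring
  set τ := shiftT n a p q D F r (inner2 U U) (inner2 U V)
  rw [show extra n a * (radial a z U - τ) ^ 2 = extra n a * radial a z U ^ 2
    - 2 * τ * (extra n a * radial a z U) + extra n a * τ ^ 2 by ring, eR2, eφ, eR, eE]
  simp only [shiftH, sum_sq_shift hH, eφ2, htr]
  simp only [Five.restAt, eS]
  simp only [normDiv, Five.restInf]
  have eT' := congrArg (fun y => 2 * F.A r * τ * y) eT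
  field_simp at eT' ⊢
  linear_combination (-256 : ℝ) * F.A r * sqr z ^ 2 * eT'

/-- Cauchy-Schwarz makes the last term nonnegative. -/
theorem angular_nonneg (hn : 2 ≤ n) (ha : a ≤ 0) (z U : Fin n → ℝ) :
    0 ≤ -a * ((n : ℝ) - 2) / 2 * ((sqr z * inner2 U U - inner2 z U ^ 2) / sqr z ^ 2) := by
  have : (2 : ℝ) ≤ n := by exact_mod_cast hn
  refine mul_nonneg (div_nonneg (mul_nonneg (by linarith) (by linarith)) zero_le_two)
    (div_nonneg (sub_nonneg.2 ?_) (sq_nonneg _))
  have := sum_mul_sq_le_sq_mul_sq univ z U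
  simpa only [inner2, sqr, ← pow_two] using this

end

end Vale.Agent.P100.Weighted
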