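import Mathlib
import Vale.Agent.P100.Subcritical
import Vale.Agent.P100.Weighted.Point

/-!
# P100, weighted: reduction to `u = 1` and weight one

With `l = u ^ (1/α)`, `w = |x| ^ a` the divergence is `w l ^ D` times its value at the normalised
data, and the field is `√w l ^ (D-1)` times its value there.
-/

namespace Vale.Agent.P100.Weighted

open Set Finset Function
open Vale.Agent.P098.Cone

noncomputable section

variable {n : ℕ} {a p q D : ℝ} {u v : (Fin n → ℝ) → ℝ}

/-- The scale of the solution at a point. -/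
def scaleAt (p q : ℝ) (u : (Fin n → ℝ) → ℝ) (x : Fin n → ℝ) : ℝ := u x ^ (wt p q 0)⁻¹

/-- The ratio `v / u ^ σ`. -/
def ratio (p q : ℝ) (u v : (Fin n → ℝ) → ℝ) (x : Fin n → ℝ) : ℝ := v x / u x ^ sig p q

/-- The normalised gradient of the first component. -/
def normU (a p q : ℝ) (u : (Fin n → ℝ) → ℝ) (x : Fin n → ℝ) (i : Fin n) : ℝ :=
  pd u i x / (√(wgt a x) * scaleAt p q u x * u x)

/-- The normalised gradient of the second component. -/
def normV (a p q : ℝ) (u v : (Fin n → ℝ) → ℝ) (x : Fin n → ℝ) (i : Fin n) : ℝ :=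
  pd v i x / (√(wgt a x) * scaleAt p q u x * u x ^ sig p q)

/-- The normalised Hessian of the first component. -/
def normH (a p q : ℝ) (u : (Fin n → ℝ) → ℝ) (x : Fin n → ℝ) (i j : Fin n) : ℝ :=
  pd (pd u i) j x / (wgt a x * scaleAt p q u x ^ 2 * u x)

/-- The normalised point. -/
def normZ (a p q : ℝ) (u : (Fin n → ℝ) → ℝ) (x : Fin n → ℝ) (i : Fin n) : ℝ :=
  √(wgt a x) * scaleAt p q u x * x i

/-- The field with `u = 1`, `v = r` and weight one. -/
def normFlux (a : ℝ) (F : Five) (r : ℝ) (z U V : Fin n → ℝ) (H : Fin n → Fin n → ℝ) (i : Fin n) : ℝ :=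
  F.A r * ((∑ j, H i j * U j) - inner2 U U * halfLog a z i)
    + (F.B r * inner2 U U * U i + F.C r * inner2 U U * V i) + (F.c r * U i + F.d r * V i)

/-- The coefficients of five functions. -/
def coefFive (p q D : ℝ) (F : Five) : Coef := family p q D F.fA F.fB F.fC

theorem coefFive_smooth {F : Five} (hF : F.SmoothPos) : (coefFive p q D F).Smooth := by
  refine ⟨fun w z => contDiffOn_homFun_pos _ ?_, fun a b c => contDiffOn_homFun_pos _ ?_,
    fun c => contDiffOn_homFun_pos _ ?_⟩
  · fin_cases w <;> fin_cases z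
    exacts [hF.A, contDiffOn_const, contDiffOn_const, contDiffOn_const]
  · fin_cases a <;> fin_cases b <;> fin_cases c
    exacts [hF.B, hF.C, contDiffOn_const, contDiffOn_const, contDiffOn_const, contDiffOn_const,
      contDiffOn_const, contDiffOn_const]
  · fin_cases c
    exacts [hF.c, hF.d]

theorem homFun_point (hp : 0 < p) (hpq : p * q ≠ 1) (m : ℝ) {f : ℝ → ℝ}
    (hf : ContDiffOn ℝ 1 f (Set.Ioi 0)) {l r : ℝ} (hl : 0 < l) (hr : 0 < r) :
    homFun p q m f (stretch p q l ![1, r]) = l ^ m * f r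
      ∧ ∀ e, pd (homFun p q m f) e (stretch p q l ![1, r]) = l ^ (m - wt p q e) * homD p q m f r e := by
  have hy : (![1, r] : Fin 2 → ℝ) ∈ quad2 := fun c => by
    fin_cases c
    · simp
    · simpa using hr
  have hd : DifferentiableAt ℝ f r :=
    (hf.differentiableOn one_ne_zero).differentiableAt (Ioi_mem_nhds hr)
  refine ⟨?_, fun e => ?_⟩
  · rw [hom_homFun hp hpq m f l hl _ hy, homFun_one m f (y := ![1, r]) rfl]
    rfl
  · rw [pd_hom (contDiffOn_homFun_pos m hf) (hom_homFun hp hpq m f) hl hy e,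
      pd_hom_eq_at (y := ![1, r]) m (by simpa using hd) hy rfl e]
    simp

theorem inner2_smul (c d : ℝ) (f g : Fin n → ℝ) :
    inner2 (fun i => c * f i) (fun i => d * g i) = c * d * inner2 f g := by
  simp only [inner2, mul_sum]
  exact sum_congr rfl fun i _ => by ring

theorem sum_smul_pair (h c d : ℝ) (H : Fin n → Fin n → ℝ) (f g : Fin n → ℝ) :
    ∑ i, ∑ j, h * H i j * (c * f i * (d * g j)) = h * c * d * ∑ i, ∑ j, H i j * (f i * g j) := by
  simp only [mul_sum]
  exact sum_congr rfl fun i _ => sum_congr rfl fun j _ => by ring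

/-- The data at a point. -/
theorem WSol.data (h : WSol a p q u v) (ha : a ≤ 0) (ha2 : -2 < a) (hn : 3 ≤ n) (hq : 0 < q)
    (hqp : q ≤ p) {x : Fin n → ℝ} (hx : x ≠ 0) :
    0 < scaleAt p q u x ∧ ratio p q u v x ∈ Ioc 0 (ell p q) ∧ normZ a p q u x ≠ 0
      ∧ ∀ i j, normH a p q u x i j = normH a p q u x j i := by
  have hl : 0 < scaleAt p q u x := Real.rpow_pos_of_pos (h.pos_u x) _
  refine ⟨hl, ⟨div_pos (h.pos_v x) (Real.rpow_pos_of_pos (h.pos_u x) _), ?_⟩, fun e => ?_, fun i j => ?_⟩
  · rw [ratio, div_le_iff₀ (Real.rpow_pos_of_pos (h.pos_u x) _)]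
    exact h.compare ha ha2 hn hq hqp x
  · refine hx (funext fun i => ?_)
    have := congrFun e i
    simp only [normZ, Pi.zero_apply, mul_eq_zero] at this
    rcases this with (h0 | h0) | h0
    · exact absurd h0 (Real.sqrt_pos.2 (wgt_pos hx)).ne'
    · exact absurd h0 hl.ne'
    · exact h0
  · simp only [normH]
    exact congrArg (fun t => t / _) (hess_comm (h.smooth_u.contDiffAt (isOpen_ne.mem_nhds hx)) i j)

/-- The normalised trace. -/
theorem WSol.trace_norm (h : WSol a p q u v) (hq : 0 < q) (hqp : q ≤ p) (hpq : 1 < p * q)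
    {x : Fin n → ℝ} (hx : x ≠ 0) :
    ∑ i, normH a p q u x i i = -(ratio p q u v x ^ p) := by
  have hp : 0 < p := hq.trans_le hqp
  have hu := h.pos_u x
  have hα := (wt_pos hq hqp hpq).1
  have hl : 0 < scaleAt p q u x := Real.rpow_pos_of_pos hu _
  have hb : wt p q 1 = wt p q 0 * sig p q := wt_one hp
  have e : scaleAt p q u x ^ 2 * u x = (u x ^ sig p q) ^ p := by
    rw [scaleAt, ← Real.rpow_natCast, ← Real.rpow_mul hu.le, ← Real.rpow_mul hu.le,
      ← Real.rpow_add_one hu.ne']
    congr 1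
    have := wt_one_mul hq hqp hpq
    simp only [critDim, hb] at this
    push_cast
    field_simp
    linarith
  simp only [normH, ← sum_div]
  rw [show ∑ i, pd (pd u i) i x = -(wgt a x * v x ^ p) from h.eq_u x hx, ratio,
    Real.div_rpow (h.pos_v x).le (Real.rpow_nonneg hu.le _), mul_assoc (wgt a x), ← e]
  have := (wgt_pos (a := a) hx).ne'
  have := hu.ne'
  have := hl.ne'
  field_simp

/-- The scaling of the divergence and of the field. -/
theorem WSol.scaled (h : WSol a p q u v) (hq : 0 < q) (hqp : q ≤ p) (hpq : 1 < p * q) {F : Five}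
    (hF : F.SmoothPos) {x : Fin n → ℝ} (hx : x ≠ 0) :
    wdiv a p (coefFive p q D F) u v x = wgt a x * scaleAt p q u x ^ D
        * normDiv a p q D F (ratio p q u v x) (normZ a p q u x) (normU a p q u x) (normV a p q u v x)
          (normH a p q u x)
      ∧ ∀ i, wflux a (coefFive p q D F) u v i x = √(wgt a x) * scaleAt p q u x ^ (D - 1)
        * normFlux a F (ratio p q u v x) (normZ a p q u x) (normU a p q u x) (normV a p q u v x)
          (normH a p q u x) i := by
  have hp : 0 < p := hq.trans_le hqp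
  have hu := h.pos_u x
  obtain ⟨hα, hβ⟩ := wt_pos hq hqp hpq
  set s := √(wgt a x) with hsdef
  set l := scaleAt p q u x with hldef
  set r := ratio p q u v x with hrdef
  set U := normU a p q u x with hUdef
  set V := normV a p q u v x with hVdef
  set H := normH a p q u x with hHdef
  set z := normZ a p q u x with hzdef
  have hs : 0 < s := Real.sqrt_pos.2 (wgt_pos hx)
  have hl : 0 < l := Real.rpow_pos_of_pos hu _
  have hr : 0 < r := div_pos (h.pos_v x) (Real.rpow_pos_of_pos hu _)
  have hw : wgt a x = s ^ 2 := (Real.sq_sqrt (wgt_pos hx).le).symm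
  set P := l ^ wt p q 0 with hPdef
  set Q := l ^ wt p q 1 with hQdef
  set L := l ^ D with hLdef
  have hP : 0 < P := Real.rpow_pos_of_pos hl _
  have hQ : 0 < Q := Real.rpow_pos_of_pos hl _
  have eu : u x = P := (Real.rpow_inv_rpow hu.le hα.ne').symm
  have eQ : u x ^ sig p q = Q := by
    rw [eu, ← Real.rpow_mul hl.le]
    exact congrArg (l ^ ·) (wt_one hp).symm
  have ev : v x = Q * r := by
    rw [hrdef, ratio, eQ, mul_div_cancel₀ _ hQ.ne']
  have eP2 : Q ^ p = P * l ^ 2 := by
    rw [← Real.rpow_natCast l 2, ← Real.rpow_mul hl.le, ← Real.rpow_add hl]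
    congr 1
    have := wt_one_mul hq hqp hpq
    simp only [critDim] at this
    push_cast
    linarith
  have eQ2 : P ^ q = Q * l ^ 2 := by
    rw [← Real.rpow_natCast l 2, ← Real.rpow_mul hl.le, ← Real.rpow_add hl]
    congr 1
    have := wt_zero_mul hq hqp hpq
    simp only [critDim] at this
    push_cast
    linarith
  have evp : v x ^ p = P * l ^ 2 * r ^ p := by
    rw [ev, Real.mul_rpow hQ.le hr.le, eP2]
  have evp1 : v x ^ (p - 1) = P * l ^ 2 / Q * r ^ (p - 1) := by
    rw [ev, Real.mul_rpow hQ.le hr.le, Real.rpow_sub_one hQ.ne', eP2]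
  have euq : u x ^ q = Q * l ^ 2 := by rw [eu, eQ2]
  have ey : vals2 u v x = stretch p q l ![1, r] := by
    funext c
    fin_cases c
    · simpa [vals2, comps, stretch] using eu
    · simpa [vals2, comps, stretch] using ev
  -- powers of the scale
  have l4 : l ^ (4 : ℝ) = l ^ 4 := by exact_mod_cast Real.rpow_natCast l 4
  have l2 : l ^ (2 : ℝ) = l ^ 2 := Real.rpow_two l
  obtain ⟨vA, dA⟩ := homFun_point hp hpq.ne' (D - 4 - wt p q 0 - wt p q 0) hF.A hl hr
  obtain ⟨vB, dB⟩ := homFun_point hp hpq.ne' (D - 4 - wt p q 0 - wt p q 0 - wt p q 0) hF.B hl hr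
  obtain ⟨vC, dC⟩ := homFun_point hp hpq.ne' (D - 4 - wt p q 0 - wt p q 0 - wt p q 1) hF.C hl hr
  obtain ⟨vc, dc⟩ := homFun_point hp hpq.ne' (D - 2 - wt p q 0) hF.c hl hr
  obtain ⟨vd, dd⟩ := homFun_point hp hpq.ne' (D - 2 - wt p q 1) hF.d hl hr
  simp only [Real.rpow_sub hl, l4, l2, ← hPdef, ← hQdef, ← hLdef] at vA dA vB dB vC dC vc dc vd dd
  have cA : (coefFive p q D F).A 0 0 = homFun p q (D - 4 - wt p q 0 - wt p q 0) F.A := rfl
  have cB : (coefFive p q D F).B 0 0 0
      = homFun p q (D - 4 - wt p q 0 - wt p q 0 - wt p q 0) F.B := rfl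
  have cC : (coefFive p q D F).B 0 0 1
      = homFun p q (D - 4 - wt p q 0 - wt p q 0 - wt p q 1) F.C := rfl
  have cc : (coefFive p q D F).C 0 = homFun p q (D - 2 - wt p q 0) F.c := rfl
  have cd : (coefFive p q D F).C 1 = homFun p q (D - 2 - wt p q 1) F.d := rfl
  -- the jet
  have gU : (fun i => pd u i x) = fun i => s * l * P * U i := by
    funext i
    simp only [hUdef, normU, ← hsdef, ← hldef, eu]
    field_simp
  have gV : (fun i => pd v i x) = fun i => s * l * Q * V i := by
    funext i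
    simp only [hVdef, normV, ← hsdef, ← hldef, eQ]
    field_simp
  have gH : (fun i j => pd (pd u i) j x) = fun i j => s ^ 2 * l ^ 2 * P * H i j := by
    funext i j
    simp only [hHdef, normH, ← hldef, eu, hw]
    field_simp
  have gS : sqr z = s ^ 2 * l ^ 2 * sqr x := by
    simp only [sqr, hzdef, normZ, ← hsdef, ← hldef, mul_sum]
    exact sum_congr rfl fun i _ => by ring
  have hsx := sqr_pos hx
  have gφ : halfLog a x = fun i => s * l * halfLog a z i := by
    funext i
    simp only [halfLog, gS]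
    simp only [hzdef, normZ, ← hsdef, ← hldef]
    field_simp
  have gS' : sqr x = sqr z / (s ^ 2 * l ^ 2) := by
    rw [gS]; field_simp
  constructor
  · rw [h.wdiv_eq (coefFive_smooth hF) hx]
    have eU := fun i => congrFun gU i
    have eV := fun i => congrFun gV i
    have eH := fun i j => congrFun (congrFun gH i) j
    simp only [eU, eV, eH, gφ, cA, cB, cC, cc, cd, ey, vA, dA, vB, dB, vC, dC, vc, dc, vd, dd, evp,
      evp1, euq, inner2_smul, sum_smul_pair, hw]
    rw [gS', show (∑ i, ∑ j, s ^ 2 * l ^ 2 * P * H i j * (s ^ 2 * l ^ 2 * P * H i j))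
        = (s ^ 2 * l ^ 2 * P) ^ 2 * ∑ i, ∑ j, H i j * H i j by
      simp only [mul_sum]; exact sum_congr rfl fun i _ => sum_congr rfl fun j _ => by ring]
    simp only [normDiv, Five.k₁, Five.k₂]
    have hz : sqr z ≠ 0 := by rw [gS]; positivity
    field_simp
    ring
  · intro i
    have eU := fun j => congrFun gU j
    have eV := fun j => congrFun gV j
    have eH := fun j => congrFun (congrFun gH i) j
    have eUU : (∑ j, pd u j x * pd u j x) = (s * l * P) ^ 2 * inner2 U U := by
      simp only [eU, inner2, mul_sum]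
      exact sum_congr rfl fun j _ => by ring
    simp only [wflux, hessField, gvec, yvec]
    rw [eUU]
    simp only [cA, cB, cC, cc, cd, ey, vA, vB, vC, vc, vd, hw,
      eU, eV, eH, gφ, normFlux]
    rw [show (∑ j, s ^ 2 * l ^ 2 * P * H i j * ((s ^ 2)⁻¹ * (L / l ^ 4 / P / P * F.A r * (s * l * P * U j))))
        = L * s / l * F.A r * ∑ j, H i j * U j by
      simp only [mul_sum]; exact sum_congr rfl fun j _ => by field_simp]
    rw [Real.rpow_sub_one hl.ne', ← hLdef]
    field_simp
    ring

end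

end Vale.Agent.P100.Weighted
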