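import Mathlib
import Vale.Agent.P100.Small
import Vale.Agent.P100.Weighted.Basic

/-!
# P100, weighted: no solution for `p q ≤ 1`

The means lose a fixed multiple of `R ^ (2 + a)` times themselves over a doubling.
-/

namespace Vale.Agent.P100.Weighted

open MeasureTheory Set Filter Topology Finset Function
open Vale.Agent.P098.Cone
open scoped ContDiff

noncomputable section

variable {n : ℕ} {a p q : ℝ} {u v : (Fin n → ℝ) → ℝ}

/-- The scalar inequality. -/
theorem WSol.scalar (h : WSol a p q u v) (ha : a ≤ 0) (ha2 : -2 < a) (hn : 3 ≤ n) (hq : 0 < q)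
    (hqp : q ≤ p) : PunctSuper v fun x => soft a x * (v x / ell p q) ^ expm p q := by
  have hp : 0 < p := hq.trans_le hqp
  have hl := ell_pos hp hq
  refine (h.super_v ha hq.le).mono ((continuous_soft a).mul ((h.cont_v.div_const _).rpow_const
    fun _ => Or.inr (expm_pos hp hq).le)) fun x => mul_le_mul_of_nonneg_left ?_ (soft_pos a x).le
  have hu := h.pos_u x
  have h1 : v x / ell p q ≤ u x ^ sig p q := by
    rw [div_le_iff₀ hl, mul_comm]
    exact h.compare ha ha2 hn hq hqp x
  refine (Real.rpow_le_rpow (div_pos (h.pos_v x) hl).le h1 (expm_pos hp hq).le).trans_eq ?_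
  rw [← Real.rpow_mul hu.le, expm, mul_div_cancel₀ q (sig_pos hp hq).ne']

/-- The means lose a multiple of `R ^ 2` times themselves over a doubling. -/
theorem WSol.doubling (h : WSol a p q u v) (ha : a ≤ 0) (ha2 : -2 < a) (hn : 3 ≤ n) (hq : 0 < q)
    (hqp : q ≤ p) (hpq : p * q ≤ 1) :
    ∃ K, 0 < K ∧ ∀ R, 1 ≤ R → mean v 0 (2 * R) * (1 + K * (R * R * R ^ a)) ≤ mean v 0 R := by
  have hp : 0 < p := hq.trans_le hqp
  have hl := ell_pos hp hq
  have hs := h.scalar ha ha2 hn hq hqp
  set m := expm p q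
  have hm0 : 0 < m := expm_pos hp hq
  have hm1 : m ≤ 1 := expm_le_one hp hq hpq
  have hg : ∀ x, 0 ≤ soft a x * (v x / ell p q) ^ m := fun x =>
    mul_nonneg (soft_pos a x).le (Real.rpow_nonneg (div_pos (h.pos_v x) hl).le m)
  have hv0 : ∀ x, 0 ≤ v x := fun x => (h.pos_v x).le
  have hanti := hs.mean_antitone hn hg (0 : Fin n → ℝ)
  have hm2 := mass_pos n 2 one_le_two
  have hm3 := mass_pos n 3 (by norm_num)
  have hM1 := mean_one_pos h.cont_v h.pos_v
  set c := ((1 : ℝ) / 2) ^ (n + 4) / (mass n 2 * ell p q)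
  have hc : 0 < c := div_pos (by positivity) (mul_pos hm2 hl)
  set K := mass n 3 / 6 * (2 : ℝ) ^ (a / 2) * ((c * mean v 0 1) ^ (m - 1) * c) * (2 : ℝ) ^ a
  have hK : 0 < K := mul_pos (mul_pos (mul_pos (div_pos hm3 (by norm_num))
    (Real.rpow_pos_of_pos two_pos _))
    (mul_pos (Real.rpow_pos_of_pos (mul_pos hc hM1) _) hc)) (Real.rpow_pos_of_pos two_pos _)
  set K' := mass n 3 / 6 * (2 : ℝ) ^ (a / 2) * ((c * mean v 0 1) ^ (m - 1) * c)
  have hK' : 0 < K' := mul_pos (mul_pos (div_pos hm3 (by norm_num))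
    (Real.rpow_pos_of_pos two_pos _)) (mul_pos (Real.rpow_pos_of_pos (mul_pos hc hM1) _) hc)
  have hder : ∀ R, 1 ≤ R → deriv (mean v 0) R ≤ -(K' * (R * R ^ a) * mean v 0 R) := by
    intro R hR
    have hR0 : 0 < R := zero_lt_one.trans_le hR
    have hMR : 0 < mean v 0 R := by
      have := mean_lower h.cont_v hv0 hR
      by_contra hle
      nlinarith [pow_pos hR0 (n + 4)]
    set B := (c * mean v 0 R) ^ m
    have hlow : ∀ x, B * bump (0 : Fin n → ℝ) R x ≤ (v x / ell p q) ^ m * bump (0 : Fin n → ℝ) R x := by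
      intro x
      rcases le_or_gt (sqr x) (R ^ 2) with hx | hx
      · refine mul_le_mul_of_nonneg_right (Real.rpow_le_rpow (mul_pos hc hMR).le ?_ hm0.le)
          (bump_nonneg _ _ _)
        have := hs.ball_lower hn hg hv0 hR0 hx
        rw [div_mul_eq_mul_div, div_le_div_iff₀ (mul_pos hm2 hl) hl]
        calc ((1 : ℝ) / 2) ^ (n + 4) * mean v 0 R * ell p q ≤ v x * mass n 2 * ell p q :=
              mul_le_mul_of_nonneg_right this hl.le
          _ = v x * (mass n 2 * ell p q) := mul_assoc _ _ _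
      · have : bump (0 : Fin n → ℝ) R x = 0 := by
          simp [bump, posPow, max_eq_right (by linarith : R ^ 2 - sqr x ≤ 0)]
        simp [this]
    refine (deriv_mean_le_weighted hs hn ha (c := B) hR (Real.rpow_nonneg (mul_pos hc hMR).le m)
      fun x => ?_).trans (neg_le_neg ?_)
    · rw [mul_assoc, mul_assoc, mul_left_comm]
      exact mul_le_mul_of_nonneg_left (hlow x) (soft_pos a x).le
    have hle : mean v 0 R ≤ mean v 0 1 := hanti (show (0 : ℝ) ≤ 1 from zero_le_one) hR0.le hR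
    have hB : (c * mean v 0 1) ^ (m - 1) * (c * mean v 0 R) ≤ B := by
      rw [show B = (c * mean v 0 R) ^ (m - 1) * (c * mean v 0 R) by
        rw [← Real.rpow_add_one (mul_pos hc hMR).ne', sub_add_cancel]]
      exact mul_le_mul_of_nonneg_right (Real.rpow_le_rpow_of_nonpos (mul_pos hc hMR)
        (mul_le_mul_of_nonneg_left hle hc.le) (by linarith)) (mul_pos hc hMR).le
    calc K' * (R * R ^ a) * mean v 0 R
        = mass n 3 / 6 * (2 : ℝ) ^ (a / 2) * ((c * mean v 0 1) ^ (m - 1) * (c * mean v 0 R))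
            * (R * R ^ a) := by simp only [K']; ring
      _ ≤ mass n 3 / 6 * (2 : ℝ) ^ (a / 2) * B * (R * R ^ a) :=
        mul_le_mul_of_nonneg_right (mul_le_mul_of_nonneg_left hB (by positivity)) (by positivity)
  refine ⟨K, hK, fun R hR => ?_⟩
  have hR0 : 0 < R := zero_lt_one.trans_le hR
  set s := K * (R * R ^ a) * mean v 0 (2 * R)
  have hd : ∀ t : ℝ, 0 < t → HasDerivAt (fun t => mean v 0 t + s * t) (deriv (mean v 0) t + s) t :=
    fun t ht => ((hasDerivAt_mean h.cont_v 0 ht).differentiableAt.hasDerivAt.add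
      ((hasDerivAt_id' t).const_mul s)).congr_deriv (by ring)
  have hF : AntitoneOn (fun t => mean v 0 t + s * t) (Icc R (2 * R)) := by
    refine antitoneOn_of_deriv_nonpos (convex_Icc _ _)
      ((continuous_mean h.cont_v 0).add (continuous_const.mul continuous_id)).continuousOn ?_ ?_
    · intro t ht
      rw [interior_Icc] at ht
      exact (hd t (hR0.trans ht.1)).differentiableAt.differentiableWithinAt
    · intro t ht
      rw [interior_Icc] at ht
      rw [(hd t (hR0.trans ht.1)).deriv]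
      have h1 := hder t (hR.trans ht.1.le)
      have h2 : mean v 0 (2 * R) ≤ mean v 0 t :=
        hanti (hR0.trans ht.1).le (show 0 ≤ 2 * R by linarith) ht.2.le
      have ht0 := hR0.trans ht.1
      have h4 : (2 : ℝ) ^ a * R ^ a ≤ t ^ a := by
        rw [← Real.mul_rpow two_pos.le hR0.le]
        exact Real.rpow_le_rpow_of_nonpos ht0 ht.2.le ha
      have h3 : s ≤ K' * (t * t ^ a) * mean v 0 t := by
        refine mul_le_mul ?_ h2 (mean_nonneg hv0 0 _) (by positivity)
        calc K * (R * R ^ a) = K' * (R * ((2 : ℝ) ^ a * R ^ a)) := by simp only [K, K']; ring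
          _ ≤ K' * (t * t ^ a) := mul_le_mul_of_nonneg_left
              (mul_le_mul ht.1.le h4 (by positivity) ht0.le) hK'.le
      linarith
  have := hF (Set.left_mem_Icc.2 (by linarith)) (Set.right_mem_Icc.2 (by linarith)) (by linarith)
  simp only [s] at this ⊢
  linarith

/-- No positive solution for `p q ≤ 1`. -/
theorem WSol.small (h : WSol a p q u v) (ha : a ≤ 0) (ha2 : -2 < a) (hn : 3 ≤ n) (hq : 0 < q)
    (hqp : q ≤ p) (hpq : p * q ≤ 1) : False := by
  obtain ⟨K, hK, hdbl⟩ := h.doubling ha ha2 hn hq hqp hpq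
  have hv0 : ∀ x, 0 ≤ v x := fun x => (h.pos_v x).le
  obtain ⟨R₀, hR₀, hR₁⟩ :=
    ((tendsto_rpow_atTop (show 0 < 2 + a by linarith)).const_mul_atTop hK).eventually_ge_atTop
    ((2 : ℝ) ^ (n + 5)) |>.and (eventually_ge_atTop 1) |>.exists
  have hR00 : (0 : ℝ) < R₀ := zero_lt_one.trans_le hR₁
  have key : ∀ k : ℕ, ((2 : ℝ) ^ (n + 5)) ^ k * mean v 0 (2 ^ k * R₀) ≤ mean v 0 R₀ := by
    intro k
    induction k with
    | zero => simp
    | succ k ih =>
      have hk : R₀ ≤ 2 ^ k * R₀ := le_mul_of_one_le_left hR00.le (one_le_pow₀ (by norm_num))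
      have h1 := hdbl _ (hR₁.trans hk)
      have hk0 : 0 < 2 ^ k * R₀ := hR00.trans_le hk
      have h2 : (2 : ℝ) ^ (n + 5)
          ≤ 1 + K * (2 ^ k * R₀ * (2 ^ k * R₀) * (2 ^ k * R₀) ^ a) := by
        have := mul_le_mul_of_nonneg_left
          (Real.rpow_le_rpow hR00.le hk (show 0 ≤ 2 + a by linarith)) hK.le
        rw [Real.rpow_add hk0, Real.rpow_two, sq] at this
        linarith
      rw [← mul_assoc, ← pow_succ'] at h1
      refine le_trans ?_ ih
      rw [pow_succ ((2 : ℝ) ^ (n + 5)) k, mul_assoc]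
      refine mul_le_mul_of_nonneg_left (le_trans ?_ h1) (by positivity)
      rw [mul_comm]
      exact mul_le_mul_of_nonneg_left h2 (mean_nonneg hv0 0 _)
  have bound : ∀ k : ℕ, (2 : ℝ) ^ k * mean v 0 1 ≤ R₀ ^ (n + 4) * mean v 0 R₀ := by
    intro k
    have hk : 1 ≤ 2 ^ k * R₀ := one_le_mul_of_one_le_of_one_le (one_le_pow₀ (by norm_num)) hR₁
    have h1 := mul_le_mul_of_nonneg_left (mean_lower h.cont_v hv0 hk)
      (show (0 : ℝ) ≤ 2 ^ k by positivity)
    have h2 := mul_le_mul_of_nonneg_left (key k) (show (0 : ℝ) ≤ R₀ ^ (n + 4) by positivity)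
    refine h1.trans (le_trans (le_of_eq ?_) h2)
    rw [mul_pow, ← pow_mul, ← pow_mul, show (n + 5) * k = k + k * (n + 4) by ring, pow_add]
    ring
  obtain ⟨k, hk⟩ := ((tendsto_pow_atTop_atTop_of_one_lt one_lt_two).atTop_mul_const
    (mean_one_pos h.cont_v h.pos_v)).eventually_gt_atTop (R₀ ^ (n + 4) * mean v 0 R₀) |>.exists
  exact absurd (bound k) (not_le.2 hk)

end

end Vale.Agent.P100.Weighted
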