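import Mathlib
import Vale.Agent.P100.Weighted.Scaled
import Vale.Agent.P100.Weighted.Cutoff
import Vale.Agent.P100.Weighted.Small

/-!
# P100, weighted: no solution from five functions in the dimension `2 (n + a) / (2 + a)`

The hypotheses on the five functions are asked only at the data of the solution.
-/

namespace Vale.Agent.P100.Weighted

open MeasureTheory Set Filter Topology Finset Function
open Vale.Agent.P098.Cone

noncomputable section

variable {n : ℕ} {a p q D : ℝ} {u v : (Fin n → ℝ) → ℝ}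

/-- A product of components of the gradients is bounded by the square of the size. -/
theorem abs_cross_le {U V : Fin n → ℝ} {s : ℝ} (h : inner2 U U * inner2 V V ≤ s ^ 4) (i j : Fin n) :
    |U i * V j| ≤ s ^ 2 := by
  refine le_of_pow_le_pow_left₀ two_ne_zero (by positivity) ?_
  rw [sq_abs, mul_pow, ← pow_mul]
  refine le_trans (mul_le_mul ?_ ?_ (sq_nonneg _) (sum_nonneg fun k _ => mul_self_nonneg (U k))) h
  · rw [sq]
    exact single_le_sum (f := fun k => U k * U k) (fun _ _ => mul_self_nonneg _) (Finset.mem_univ i)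
  · rw [sq]
    exact single_le_sum (f := fun k => V k * V k) (fun _ _ => mul_self_nonneg _) (Finset.mem_univ j)

/-- An entry of the Hessian, from the shifted square. -/
theorem abs_shift_le {m c₁ c₂ x₁ x₂ y τ T s : ℝ} (hm : m ^ 2 ≤ (s ^ 2) ^ 2) (hc₁ : |c₁| ≤ T)
    (hc₂ : |c₂| ≤ T) (hx₁ : |x₁| ≤ s ^ 2) (hx₂ : |x₂| ≤ s ^ 2) (hτ : |τ| ≤ y) :
    |m - c₁ * x₁ - c₂ * x₂ + τ| ≤ (1 + 2 * T) * s ^ 2 + y := by
  have hT : 0 ≤ T := (abs_nonneg _).trans hc₁
  have h1 : |c₁ * x₁| ≤ T * s ^ 2 := by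
    rw [abs_mul]; exact mul_le_mul hc₁ hx₁ (abs_nonneg _) hT
  have h2 : |c₂ * x₂| ≤ T * s ^ 2 := by
    rw [abs_mul]; exact mul_le_mul hc₂ hx₂ (abs_nonneg _) hT
  have := abs_le.1 (abs_le_of_sq_le_sq hm (sq_nonneg s))
  have := abs_le.1 h1
  have := abs_le.1 h2
  have := abs_le.1 hτ
  rw [abs_le]
  constructor <;> linarith

/-- The lower bound of the normalised divergence. -/
theorem normDiv_lower {F : Five} (hn : 2 ≤ n) (ha : a ≤ 0) (ha2 : -2 < a) {ε : ℝ} (hε : 0 < ε)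
    {r : ℝ} (hA : ε ≤ F.A r) {z : Fin n → ℝ} (hz : z ≠ 0) (U V : Fin n → ℝ)
    {H : Fin n → Fin n → ℝ} (hH : ∀ i j, H i j = H j i) (htr : ∑ i, H i i = -(r ^ p)) {R : ℝ}
    (hrest : ε * R ≤ F.restAt (dimW n a) p q D r (inner2 U U) (inner2 U V) (inner2 V V)) :
    ε * ((∑ i, ∑ j, shiftH p q D F r H (halfLog a z) U V
        (shiftT n a p q D F r (inner2 U U) (inner2 U V)) i j ^ 2) + R)
      ≤ normDiv a p q D F r z U V H := by
  have hA0 : 0 < F.A r := hε.trans_le hA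
  rw [mul_add, normDiv_eq F hn ha ha2 hA0.ne' hz U V hH htr]
  refine le_trans (add_le_add (mul_le_mul_of_nonneg_right hA (by positivity)) hrest) ?_
  have := mul_nonneg hA0.le (mul_nonneg (extra_nonneg hn ha ha2)
    (sq_nonneg (radial a z U - shiftT n a p q D F r (inner2 U U) (inner2 U V))))
  have := mul_nonneg hA0.le (angular_nonneg hn ha z U)
  linarith

/-- Positivity and the bound of the field, with `u = 1` and weight one. -/
theorem norm_bounds {F : Five} (hn : 3 ≤ n) (ha : a ≤ 0) (ha2 : -2 < a) {ε M : ℝ} (hε : 0 < ε)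
    {r : ℝ} (hr : 0 < r) (hA : ε ≤ F.A r)
    (hM : |F.A r| + |F.B r| + |F.C r| + |F.c r| + |F.d r| + |F.k₁ p q D r| + |F.k₂ p q D r|
      + r ^ p ≤ M)
    {z : Fin n → ℝ} (hz : z ≠ 0) (U V : Fin n → ℝ) {H : Fin n → Fin n → ℝ}
    (hH : ∀ i j, H i j = H j i) (htr : ∑ i, H i i = -(r ^ p))
    (hrest : ε * (1 + inner2 U U ^ 2 + inner2 U U * inner2 V V + inner2 V V)
      ≤ F.restAt (dimW n a) p q D r (inner2 U U) (inner2 U V) (inner2 V V)) :
    ε ≤ normDiv a p q D F r z U V H ∧ ∀ i, |normFlux a F r z U V H i|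
      ≤ (n * M * (1 + 2 * (M / ε) + M + 2 * (M / ε)) + 4 * M) * ε⁻¹ ^ (3 / 4 : ℝ)
        * normDiv a p q D F r z U V H ^ (3 / 4 : ℝ) := by
  have hn0 : n ≠ 0 := by omega
  have hn2 : 2 ≤ n := by omega
  have hA0 : 0 < F.A r := hε.trans_le hA
  have hM0 : 0 ≤ M := le_trans (by positivity) hM
  have hrp : 0 ≤ r ^ p := Real.rpow_nonneg hr.le p
  have b : ∀ f ∈ ([F.A r, F.B r, F.C r, F.c r, F.d r, F.k₁ p q D r, F.k₂ p q D r, r ^ p] : List ℝ),
      |f| ≤ M := by
    intro f hf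
    have := abs_nonneg (F.A r); have := abs_nonneg (F.B r); have := abs_nonneg (F.C r)
    have := abs_nonneg (F.c r); have := abs_nonneg (F.d r); have := abs_nonneg (F.k₁ p q D r)
    have := abs_nonneg (F.k₂ p q D r); have := abs_of_nonneg hrp
    simp only [List.mem_cons, List.not_mem_nil, or_false] at hf
    rcases hf with rfl | rfl | rfl | rfl | rfl | rfl | rfl | rfl <;> linarith
  set a' := inner2 U U
  set τ := shiftT n a p q D F r a' (inner2 U V)
  have hN : (n : ℝ) ≤ dimW n a := le_add_of_nonneg_right (extra_nonneg hn2 ha ha2)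
  have hN1 : 1 ≤ dimW n a := le_trans (by exact_mod_cast Nat.one_le_iff_ne_zero.2 hn0) hN
  set φ := halfLog a z
  set E := ∑ i, ∑ j, shiftH p q D F r H φ U V τ i j ^ 2
  have hE : 0 ≤ E := by positivity
  have ha0 : 0 ≤ a' := sum_nonneg fun i _ => mul_self_nonneg _
  have hg0 : 0 ≤ inner2 V V := sum_nonneg fun i _ => mul_self_nonneg _
  set P := normDiv a p q D F r z U V H
  have hlow : ε * (E + (1 + a' ^ 2 + a' * inner2 V V + inner2 V V)) ≤ P :=
    normDiv_lower hn2 ha ha2 hε hA hz U V hH htr hrest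
  have hag := mul_nonneg ha0 hg0
  have ha2' := sq_nonneg a'
  set Q := ε⁻¹ * P
  have hQ : E + (1 + a' ^ 2 + a' * inner2 V V + inner2 V V) ≤ Q := (le_inv_mul_iff₀ hε).2 hlow
  have hQ1 : 1 ≤ Q := by linarith
  refine ⟨le_trans (le_mul_of_one_le_right hε.le (by linarith)) hlow, fun i => ?_⟩
  set s := Q ^ (1 / 4 : ℝ)
  have hs1 : 1 ≤ s := Real.one_le_rpow hQ1 (by norm_num)
  have hs4 : s ^ 4 = Q := by
    rw [← Real.rpow_natCast, ← Real.rpow_mul (by linarith)]
    norm_num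
  have hP0 : 0 ≤ P := le_trans (mul_nonneg hε.le (by linarith)) hlow
  have hs3 : s ^ 3 = ε⁻¹ ^ (3 / 4 : ℝ) * P ^ (3 / 4 : ℝ) := by
    rw [← Real.mul_rpow (inv_pos.2 hε).le hP0, ← Real.rpow_natCast, ← Real.rpow_mul (by linarith)]
    norm_num [Q]
  -- the gradient bounds through a jet with these data
  set J : Jet n := ⟨![1, r], ![U, V], ![H, H]⟩
  have d0 : J.dots 0 = a' := rfl
  have d2 : J.dots 2 = inner2 V V := rfl
  have eb := J.entry_bounds hn0 hs1 (by rw [d0]; linarith) (by rw [d0, d2]; linarith)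
    (by rw [d2]; linarith)
  rw [d0] at eb
  have hs2 : 1 ≤ s ^ 2 := one_le_pow₀ hs1
  have hcrossUU : ∀ j, |U i * U j| ≤ s ^ 2 := fun j =>
    abs_cross_le (by rw [← sq, hs4]; linarith) i j
  have hcrossUV : ∀ k j, |U k * V j| ≤ s ^ 2 := abs_cross_le (by rw [hs4]; linarith)
  obtain ⟨-, ha_s, -⟩ := eb i i
  have hb : |inner2 U V| ≤ s ^ 2 := by
    refine le_of_pow_le_pow_left₀ two_ne_zero (by positivity) ?_
    rw [sq_abs, ← pow_mul, hs4]
    have h := sum_mul_sq_le_sq_mul_sq univ U V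
    simp only [sq (U _), sq (V _)] at h
    exact le_trans h (show a' * inner2 V V ≤ Q by linarith)
  have hc : ∀ k, |k| ≤ M → |k / (2 * F.A r)| ≤ M / ε := fun k hk => by
    rw [abs_div, abs_of_pos (by linarith : 0 < 2 * F.A r)]
    exact div_le_div₀ hM0 hk hε (by linarith)
  have hk₁ : |F.k₁ p q D r / (2 * F.A r)| ≤ M / ε := hc _ (b _ (by simp))
  have hk₂ : |F.k₂ p q D r / (2 * F.A r)| ≤ M / ε := hc _ (b _ (by simp))
  have hτ : |τ| ≤ (M + 2 * (M / ε)) * s ^ 2 := by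
    simp only [τ, shiftT]
    rw [abs_div, abs_of_pos (zero_lt_one.trans_le hN1)]
    refine (div_le_self (abs_nonneg _) hN1).trans ?_
    have t1 : |F.k₁ p q D r / (2 * F.A r) * a'| ≤ M / ε * s ^ 2 := by
      rw [abs_mul, abs_of_nonneg ha0]
      exact mul_le_mul hk₁ ha_s ha0 (by positivity)
    have t2 : |F.k₂ p q D r / (2 * F.A r) * inner2 U V| ≤ M / ε * s ^ 2 := by
      rw [abs_mul]
      exact mul_le_mul hk₂ hb (abs_nonneg _) (by positivity)
    have t0 : r ^ p ≤ M * s ^ 2 :=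
      ((le_abs_self _).trans (b _ (by simp))).trans (le_mul_of_one_le_right hM0 hs2)
    rw [show (F.k₁ p q D r * a' + F.k₂ p q D r * inner2 U V) / (2 * F.A r)
      = F.k₁ p q D r / (2 * F.A r) * a' + F.k₂ p q D r / (2 * F.A r) * inner2 U V by ring]
    obtain ⟨l₁, u₁⟩ := abs_le.1 t1
    obtain ⟨l₂, u₂⟩ := abs_le.1 t2
    have : 0 ≤ M / ε * s ^ 2 := by positivity
    rw [abs_le]
    constructor <;> linarith only [l₁, u₁, l₂, u₂, t0, hrp, this, mul_nonneg hM0 (sq_nonneg s)]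
  set Z := fun j => H i j - (φ i * U j + U i * φ j) + if i = j then inner2 φ U else 0
  have hZ : ∀ j, |Z j| ≤ (1 + 2 * (M / ε) + M + 2 * (M / ε)) * s ^ 2 := fun j => by
    have hm : shiftH p q D F r H φ U V τ i j ^ 2 ≤ (s ^ 2) ^ 2 := by
      rw [show (s ^ 2) ^ 2 = s ^ 4 by ring, hs4]
      refine le_trans ?_ (le_trans (le_add_of_nonneg_right (by positivity)) hQ)
      exact (single_le_sum (f := fun j => shiftH p q D F r H φ U V τ i j ^ 2)
          (fun _ _ => sq_nonneg _) (Finset.mem_univ j)).trans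
        (single_le_sum (f := fun i => ∑ j, shiftH p q D F r H φ U V τ i j ^ 2)
          (fun _ _ => by positivity) (Finset.mem_univ i))
    have hx₂ : |(U i * V j + V i * U j) / 2| ≤ s ^ 2 := by
      obtain ⟨l₁, u₁⟩ := abs_le.1 (hcrossUV i j)
      obtain ⟨l₂, u₂⟩ := abs_le.1 (hcrossUV j i)
      rw [abs_le]
      constructor <;> linarith only [l₁, u₁, l₂, u₂]
    have hd : |if i = j then τ else 0| ≤ (M + 2 * (M / ε)) * s ^ 2 := by
      split_ifs
      · exact hτ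
      · rw [abs_zero]; positivity
    have e : Z j = shiftH p q D F r H φ U V τ i j - F.k₁ p q D r / (2 * F.A r) * (U i * U j)
        - F.k₂ p q D r / (2 * F.A r) * ((U i * V j + V i * U j) / 2) + if i = j then τ else 0 := by
      simp only [Z, shiftH]
      split_ifs <;> ring
    rw [e]
    exact (abs_shift_le hm hk₁ hk₂ (hcrossUU j) hx₂ hd).trans (le_of_eq (by ring))
  have eflux : normFlux a F r z U V H i = F.A r * (∑ j, Z j * U j)
      + (F.B r * a' * U i + F.C r * a' * V i) + (F.c r * U i + F.d r * V i) := by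
    have : ∑ j, Z j * U j = (∑ j, H i j * U j) - a' * φ i := by
      simp only [Z, add_mul, sub_mul, ite_mul, zero_mul, sum_add_distrib, sum_sub_distrib,
        Finset.sum_ite_eq, Finset.mem_univ, if_true, a', inner2, mul_assoc, ← mul_sum]
      ring
    rw [this]
    rfl
  rw [eflux, mul_assoc _ (ε⁻¹ ^ (3 / 4 : ℝ)), ← hs3]
  obtain ⟨-, -, hU, hV, haV, -, -⟩ := eb i i
  refine (abs_five_flux (M := M) (N := n * ((1 + 2 * (M / ε) + M + 2 * (M / ε)) * s ^ 3))
    (b _ (by simp)) (b _ (by simp)) (b _ (by simp)) (b _ (by simp)) (b _ (by simp)) hs1 ha0 ha_s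
    hU hV haV ?_).trans (le_of_eq (by ring))
  refine (abs_sum_le_sum_abs _ _).trans ((sum_le_card_nsmul _ _
    ((1 + 2 * (M / ε) + M + 2 * (M / ε)) * s ^ 3) fun j _ => ?_).trans_eq (by simp))
  rw [abs_mul, pow_succ, ← mul_assoc]
  exact mul_le_mul (hZ j) (eb i j).2.2.1 (abs_nonneg _) ((abs_nonneg _).trans (hZ j))

theorem sqrt_wgt {x : Fin n → ℝ} (hx : x ≠ 0) : √(wgt a x) = sqr x ^ (a / 4) := by
  rw [wgt, Real.sqrt_eq_rpow, ← Real.rpow_mul (sqr_nonneg x)]
  congr 1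
  ring

/-- No solution, from five functions whose remainder in the dimension `2 (n + a) / (2 + a)` is
coercive at the data of the solution. -/
theorem WSol.false_of_five (h : WSol a p q u v) (ha : a ≤ 0) (ha2 : -2 < a) (hn : 3 ≤ n)
    (hn4 : 4 + a < n) (hq : 0 < q) (hqp : q ≤ p) (hpq : 1 < p * q) (hD : dimW n a < D)
    {F : Five} (hF : F.SmoothPos) {ε M : ℝ} (hε : 0 < ε)
    (hbd : ∀ x, x ≠ 0 → ε ≤ F.A (ratio p q u v x) ∧
      |F.A (ratio p q u v x)| + |F.B (ratio p q u v x)| + |F.C (ratio p q u v x)|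
        + |F.c (ratio p q u v x)| + |F.d (ratio p q u v x)| + |F.k₁ p q D (ratio p q u v x)|
        + |F.k₂ p q D (ratio p q u v x)| ≤ M)
    (hrest : ∀ x, x ≠ 0 → ε * (1 + inner2 (normU a p q u x) (normU a p q u x) ^ 2
        + inner2 (normU a p q u x) (normU a p q u x)
          * inner2 (normV a p q u v x) (normV a p q u v x)
        + inner2 (normV a p q u v x) (normV a p q u v x))
      ≤ F.restAt (dimW n a) p q D (ratio p q u v x) (inner2 (normU a p q u x) (normU a p q u x))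
          (inner2 (normU a p q u x) (normV a p q u v x))
          (inner2 (normV a p q u v x) (normV a p q u v x))) :
    False := by
  have hp : 0 < p := hq.trans_le hqp
  obtain ⟨hα, -⟩ := wt_pos hq hqp hpq
  have hn3 : (3 : ℝ) ≤ n := by exact_mod_cast hn
  have hN4 : 4 < dimW n a := by
    rw [dimW_eq ha2, lt_div_iff₀ (by linarith)]
    linarith
  have hD4 : (4 : ℝ) < D := hN4.trans hD
  have hD0 : (0 : ℝ) < D := by linarith
  have hK := coefFive_smooth (p := p) (q := q) (D := D) hF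
  set M' := M + ell p q ^ p
  set C1 := (n * M' * (1 + 2 * (M' / ε) + M' + 2 * (M' / ε)) + 4 * M') * ε⁻¹ ^ (3 / 4 : ℝ)
  have key : ∀ x, x ≠ 0 → ∃ l P : ℝ, 0 < l ∧ l ^ wt p q 0 = u x ∧ ε ≤ P ∧
      wdiv a p (coefFive p q D F) u v x = wgt a x * l ^ D * P ∧ ∀ i,
      |wflux a (coefFive p q D F) u v i x| ≤ √(wgt a x) * l ^ (D - 1) * (C1 * P ^ (3 / 4 : ℝ)) := by
    intro x hx
    obtain ⟨hl, hr, hz, hH⟩ := h.data ha ha2 hn hq hqp hx
    obtain ⟨hA, hM⟩ := hbd x hx
    obtain ⟨hdiv, hflux⟩ := h.scaled (D := D) hq hqp hpq hF hx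
    obtain ⟨hP, hX⟩ := norm_bounds (M := M') hn ha ha2 hε hr.1 hA
      (add_le_add hM (Real.rpow_le_rpow hr.1.le hr.2 hp.le)) hz (normU a p q u x)
      (normV a p q u v x) hH (h.trace_norm hq hqp hpq hx) (hrest x hx)
    refine ⟨scaleAt p q u x, _, hl, Real.rpow_inv_rpow (h.pos_u x).le hα.ne', hP, hdiv, fun i => ?_⟩
    rw [hflux i, abs_mul, abs_of_nonneg (mul_nonneg (Real.sqrt_nonneg _) (Real.rpow_nonneg hl.le _))]
    exact mul_le_mul_of_nonneg_left (hX i) (mul_nonneg (Real.sqrt_nonneg _) (Real.rpow_nonneg hl.le _))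
  obtain ⟨L, hL⟩ : ∃ L : ℝ, ∀ x : Fin n → ℝ, sqr x ≤ 4 → u x ≤ L := by
    obtain ⟨B, hB⟩ := (isCompact_Icc (a := fun _ : Fin n => -(2 : ℝ)) (b := fun _ => 2)
      ).exists_bound_of_continuousOn h.cont_u.continuousOn
    refine ⟨B, fun x hx => (le_abs_self _).trans (hB x ?_)⟩
    have := mem_box (x := x) (a := 0) (R := 2) (by norm_num) (by rw [sub_zero]; linarith)
    simpa using this
  set e₁ := a / 4 * (2 / D - 1) with he₁def
  set e₂ := -a / 8 with he₂def
  have h2D : 2 / D < 1 := (div_lt_one hD0).2 (by linarith)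
  refine no_positive_divergence (X := fun i => wflux a (coefFive p q D F) u v i)
    (P := wdiv a p (coefFive p q D F) u v) (D := D) (e₁ := e₁) (e₂ := e₂) hn (by linarith)
    (mul_nonneg_of_nonpos_of_nonpos (by linarith) (by linarith)) (by linarith) ?_ ?_
    (fun i => h.continuousOn_wflux hK i) (h.continuousOn_wdiv hK) (fun x hx => ?_)
    (fun φ hφ hc hs => h.identity hK hφ hc hs) ⟨|C1| * ε ^ (3 / 4 - (1 - 1 / D)), fun x hx i => ?_⟩
    ⟨|C1| * (L ^ (wt p q 0)⁻¹) ^ (D / 4 - 1), fun x hx hx4 i => ?_⟩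
  · rw [dimW_eq ha2, div_lt_iff₀ (by linarith)] at hD
    rw [he₁def, show D * (2 * (a / 4 * (2 / D - 1)) - 1) = a - a * D / 2 - D by field_simp; ring]
    linarith
  · rw [he₂def]; linarith
  · obtain ⟨l, P, hl, -, hP, hdiv, -⟩ := key x hx
    rw [hdiv]
    exact mul_pos (mul_pos (wgt_pos hx) (Real.rpow_pos_of_pos hl _)) (hε.trans_le hP)
  · obtain ⟨l, P, hl, -, hP, hdiv, hX⟩ := key x hx
    have hP0 : 0 < P := hε.trans_le hP
    have hS := sqr_pos hx
    have e : 3 / 4 - (1 - 1 / D) ≤ 0 := by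
      have : 1 / D ≤ 1 / 4 := one_div_le_one_div_of_le (by norm_num) hD4.le
      linarith
    have hE : P ^ (3 / 4 : ℝ) ≤ ε ^ (3 / 4 - (1 - 1 / D)) * P ^ (1 - 1 / D) := by
      refine le_trans (le_of_eq ?_) (mul_le_mul_of_nonneg_right
        (Real.rpow_le_rpow_of_nonpos hε hP e) (Real.rpow_nonneg hP0.le _))
      rw [← Real.rpow_add hP0, sub_add_cancel]
    refine (hX i).trans ?_
    rw [hdiv, sqrt_wgt hx, Real.mul_rpow (mul_nonneg (wgt_pos hx).le (Real.rpow_nonneg hl.le _)) hP0.le,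
      Real.mul_rpow (wgt_pos hx).le (Real.rpow_nonneg hl.le _), ← Real.rpow_mul hl.le,
      show D * (1 - 1 / D) = D - 1 by field_simp, wgt, ← Real.rpow_mul hS.le,
      show a / 4 = e₁ + a / 2 * (1 - 1 / D) by rw [he₁def]; field_simp; ring, Real.rpow_add hS]
    refine le_trans (mul_le_mul_of_nonneg_left (mul_le_mul (le_abs_self C1) hE
      (Real.rpow_nonneg hP0.le _) (abs_nonneg _)) (by positivity)) (le_of_eq (by ring))
  · obtain ⟨l, P, hl, hl0, hP, hdiv, hX⟩ := key x hx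
    have hP0 : 0 ≤ P := (hε.trans_le hP).le
    have hS := sqr_pos hx
    have hlM : l ≤ L ^ (wt p q 0)⁻¹ := by
      rw [← Real.rpow_rpow_inv hl.le hα.ne', hl0]
      exact Real.rpow_le_rpow (h.pos_u x).le (hL x hx4) (inv_pos.2 hα).le
    have hl' : l ^ (D / 4 - 1) ≤ (L ^ (wt p q 0)⁻¹) ^ (D / 4 - 1) :=
      Real.rpow_le_rpow hl.le hlM (by linarith)
    refine (hX i).trans ?_
    rw [hdiv, sqrt_wgt hx, show (1 : ℝ) - 1 / 4 = 3 / 4 by norm_num,
      Real.mul_rpow (mul_nonneg (wgt_pos hx).le (Real.rpow_nonneg hl.le _)) hP0,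
      Real.mul_rpow (wgt_pos hx).le (Real.rpow_nonneg hl.le _), ← Real.rpow_mul hl.le,
      show D - 1 = D * (3 / 4) + (D / 4 - 1) by ring, Real.rpow_add hl, wgt, ← Real.rpow_mul hS.le,
      show a / 4 = e₂ + a / 2 * (3 / 4) by rw [he₂def]; ring, Real.rpow_add hS]
    refine le_trans (mul_le_mul_of_nonneg_left (mul_le_mul_of_nonneg_right (le_abs_self C1)
      (Real.rpow_nonneg hP0 _)) (by positivity)) ?_
    calc sqr x ^ e₂ * sqr x ^ (a / 2 * (3 / 4)) * (l ^ (D * (3 / 4)) * l ^ (D / 4 - 1))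
          * (|C1| * P ^ (3 / 4 : ℝ))
        ≤ sqr x ^ e₂ * sqr x ^ (a / 2 * (3 / 4))
          * (l ^ (D * (3 / 4)) * (L ^ (wt p q 0)⁻¹) ^ (D / 4 - 1)) * (|C1| * P ^ (3 / 4 : ℝ)) :=
          mul_le_mul_of_nonneg_right (mul_le_mul_of_nonneg_left
            (mul_le_mul_of_nonneg_left hl' (by positivity)) (by positivity)) (by positivity)
      _ = _ := by ring

end

end Vale.Agent.P100.Weighted
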