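import Mathlib
import Vale.Agent.P100.Weighted.General

/-!
# P100, weighted: the diagonal `p = q`

The constant field of Gidas and Spruck in the dimension `2 (n + a) / (2 + a)`.
-/

namespace Vale.Agent.P100.Weighted

open Finset Function Set
open Vale.Agent.P098.Cone

noncomputable section

variable {n : ℕ} {a p : ℝ} {u v : (Fin n → ℝ) → ℝ}

/-- On the diagonal the components agree. -/
theorem WSol.diag (h : WSol a p p u v) (ha : a ≤ 0) (ha2 : -2 < a) (hn : 3 ≤ n) (hp : 0 < p)
    (x : Fin n → ℝ) : v x = u x := by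
  have h1 := h.compare ha ha2 hn hp le_rfl x
  have h2 := h.symm.compare ha ha2 hn hp le_rfl x
  simp only [ell, sig, div_self (show p + 1 ≠ 0 by linarith), Real.one_rpow, Real.rpow_one, one_mul] at h1 h2
  linarith

/-- No solution on the diagonal below the critical dimension. -/
theorem WSol.false_of_diag (h : WSol a p p u v) (ha : a ≤ 0) (ha2 : -2 < a) (hn : 3 ≤ n)
    (hn4 : 4 + a < n) (hp : 1 < p) (hsub : dimW n a < critDim p p) : False := by
  set M := dimW n a with hMdef
  have hM4 : 4 < M := by
    rw [hMdef, dimW_eq ha2, lt_div_iff₀ (by linarith)]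
    linarith
  have hM2 : M - 2 ≠ 0 := by linarith
  have hpq : 1 < p * p := by nlinarith
  have hα : 0 < wt p p 0 := by
    simp only [wt, Matrix.cons_val_zero]
    exact div_pos (by linarith) (by linarith)
  have h2 : wt p p 0 * (p - 1) = 2 := by
    simp only [wt, Matrix.cons_val_zero]
    have : p * p - 1 ≠ 0 := by linarith
    rw [div_mul_eq_mul_div, div_eq_iff this]
    ring
  have hw : wt p p 1 = wt p p 0 := by simp [wt]
  have h4 : (M - 2) / 2 < wt p p 0 := by
    simp only [critDim, hw] at hsub
    linarith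
  have hp4 : p < (M + 2) / (M - 2) := by
    rw [lt_div_iff₀ (by linarith)]
    have h5 := mul_lt_mul_of_pos_right h4 (show 0 < p - 1 by linarith)
    rw [h2] at h5
    linarith
  set c := 1 - 1 / M
  set k := -2 / (M - 2)
  set g := c * ((M + 2) / (M - 2) - p)
  have hinv : 1 / M ≤ 1 / 4 := one_div_le_one_div_of_le (by norm_num) hM4.le
  have hinv0 : 0 < 1 / M := one_div_pos.2 (by linarith)
  have hg : 0 < g := mul_pos (by simp only [c]; linarith) (by linarith)
  set δ := min (1 / 2) (g / 4)
  have hδ : 0 < δ := lt_min (by norm_num) (by linarith)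
  have hδ1 : δ ≤ 1 / 2 := min_le_left _ _
  have hδ2 : δ ≤ g / 4 := min_le_right _ _
  set ε := g / (4 * (|k + p| + 1))
  have hε : 0 < ε := by positivity
  have hεk : (k + p) * ε ≤ g / 4 := by
    have : (k + p) * ε ≤ (|k + p| + 1) * ε :=
      mul_le_mul_of_nonneg_right (by linarith [le_abs_self (k + p)]) hε.le
    refine this.trans (le_of_eq ?_)
    simp only [ε]; field_simp
  set b := -(M - 1) / (M - 2) + δ / 2
  set e := 1 / M - ε
  have hL : 0 ≤ -(k + 2 * b) / M - b + (k + p) * e - p := by
    have : -(k + 2 * b) / M - b + (k + p) * e - p = g - (1 / 2 + 1 / M) * δ - (k + p) * ε := by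
      simp only [k, b, e, g, c]; field_simp; ring
    rw [this]
    nlinarith
  have hQ : δ / 8 ≤ (k - 1) * b - (1 - 1 / M) * (k + 2 * b) ^ 2 / 4 := by
    have : (k - 1) * b - (1 - 1 / M) * (k + 2 * b) ^ 2 / 4 = δ / 2 - c * δ ^ 2 / 4 := by
      simp only [k, b, c]; field_simp; ring
    rw [this]
    have : c ≤ 1 := by simp only [c]; linarith
    nlinarith
  set D := 4 + wt p p 0 * (2 + k) with hDdef
  have hD : M < D := by
    have h6 : 2 + k = (2 * M - 6) / (M - 2) := by simp only [k]; field_simp; ring
    have h7 := mul_lt_mul_of_pos_right h4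
      (show 0 < 2 + k by rw [h6]; exact div_pos (by linarith) (by linarith))
    have h8 : (M - 2) / 2 * (2 + k) = M - 3 := by rw [h6]; field_simp; ring
    rw [hDdef]
    linarith
  set F : Five := ⟨fun _ => 1, fun _ => b, fun _ => 0, fun _ => e, fun _ => 0⟩ with hFdef
  have hF : F.SmoothPos :=
    ⟨contDiffOn_const, contDiffOn_const, contDiffOn_const, contDiffOn_const, contDiffOn_const⟩
  set m := min (1 : ℝ) (min (ε / 2) (δ / 24))
  have hm : 0 < m := lt_min one_pos (lt_min (by linarith) (by linarith))
  have hm1 : m ≤ 1 := min_le_left _ _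
  have hmε : m ≤ ε / 2 := (min_le_right _ _).trans (min_le_left _ _)
  have hmδ : m ≤ δ / 24 := (min_le_right _ _).trans (min_le_right _ _)
  have eA : (D - 4 - wt p p 0 - wt p p 0) / wt p p 0 = k := by rw [hDdef]; field_simp; ring
  have eB : (D - 4 - wt p p 0 - wt p p 0 - wt p p 0) / wt p p 0 = k - 1 := by rw [hDdef]; field_simp; ring
  have ec : (D - 2 - wt p p 0) / wt p p 0 = k + p := by
    rw [hDdef, div_eq_iff hα.ne']
    linear_combination -h2
  refine h.false_of_five ha ha2 hn hn4 (by linarith) le_rfl hpq hD hF (ε := m)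
    (M := 1 + |b| + |e| + |k + 2 * b|) hm (fun x _ => ⟨hm1, ?_⟩) fun x hx => ?_
  · simp only [hFdef, Five.k₁, Five.k₂, homD, Matrix.cons_val_zero, Matrix.cons_val_one, deriv_const,
      mul_zero, sub_zero, add_zero, mul_one, eA, abs_one, abs_zero]
    linarith
  have hr : ratio p p u v x = 1 := by
    have hu := h.pos_u x
    rw [ratio, h.diag ha ha2 hn (by linarith) x, sig, div_self (show p + 1 ≠ 0 by linarith),
      Real.rpow_one, div_self hu.ne']
  have huv : v = u := funext fun y => h.diag ha ha2 hn (by linarith) y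
  have hVU : normV a p p u v x = normU a p p u x := by
    funext i
    simp [normV, normU, huv, sig, div_self (show p + 1 ≠ 0 by linarith)]
  rw [hr, hVU]
  set X := inner2 (normU a p p u x) (normU a p p u x)
  have hX : 0 ≤ X := sum_nonneg fun i _ => mul_self_nonneg _
  have e1 : F.restAt M p p D 1 X X X = (1 / M - e) + (-(k + 2 * b) / M - b + (k + p) * e - p) * X
      + ((k - 1) * b - (1 - 1 / M) * (k + 2 * b) ^ 2 / 4) * X ^ 2 := by
    simp only [hFdef, Five.restAt, Five.restInf, Five.slope, Five.k₁, Five.k₂, homD,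
      Matrix.cons_val_zero, Matrix.cons_val_one, deriv_const, mul_zero, zero_mul, sub_zero, add_zero,
      mul_one, Real.one_rpow, eA, eB, ec]
    field_simp
    ring
  rw [← hMdef, e1]
  have h9 := mul_nonneg hL hX
  have h10 := mul_le_mul_of_nonneg_right hQ (sq_nonneg X)
  have h11 : 1 / M - e = ε := by simp only [e]; ring
  have h13 := mul_le_mul_of_nonneg_right hmδ (sq_nonneg X)
  have h14 : X ≤ 1 + X ^ 2 := by nlinarith only [sq_nonneg (X - 1), hX]
  have h15 := mul_le_mul_of_nonneg_left h14 hm.le
  rw [h11]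
  linarith only [h9, h10, h13, h15, hmε, hm]

end

end Vale.Agent.P100.Weighted
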