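import Mathlib
import Vale.Agent.P100.Subcritical
import Vale.Agent.P100.Weighted.Small

/-!
# P100, weighted: local comparison of the two components

On a ball that avoids the origin, has radius `d` and has `u ≤ K u(x₁)`, let `T` be `d` in the natural
length `u(x₁) ^ (-1/α) |x₁| ^ (-a/2)`. Then `u ≤ C u(x₁) ^ (1-σ) v` on the smaller ball of natural
radius `T ^ s`: where `u` exceeds a multiple of `v` the excess is subharmonic, so it is at most a mean
of `u`, and such a mean is `O(u(x₁) T ^ (-2/q))` because it feeds `v`.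
-/

namespace Vale.Agent.P100.Weighted

open MeasureTheory Set Filter Topology Finset Function
open Vale.Agent.P098.Cone
open scoped ContDiff

noncomputable section

variable {n : ℕ} {a p q : ℝ} {u v f g : (Fin n → ℝ) → ℝ}

/-- A continuous minorant of the weight, equal to it where `c ≤ |x| ^ 2`. -/
def floorW (a c : ℝ) (x : Fin n → ℝ) : ℝ := max (sqr x) c ^ (a / 2)

theorem floorW_pos {c : ℝ} (hc : 0 < c) (x : Fin n → ℝ) : 0 < floorW a c x :=
  Real.rpow_pos_of_pos (hc.trans_le (le_max_right _ _)) _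

theorem continuous_floorW {c : ℝ} (hc : 0 < c) : Continuous (floorW (n := n) a c) :=
  (continuous_sqr.max continuous_const).rpow_const fun _ =>
    Or.inl (hc.trans_le (le_max_right _ _)).ne'

theorem floorW_le (ha : a ≤ 0) {c : ℝ} {x : Fin n → ℝ} (hx : x ≠ 0) : floorW a c x ≤ wgt a x :=
  Real.rpow_le_rpow_of_nonpos (sqr_pos hx) (le_max_left _ _) (by linarith)

theorem WSol.super_floor (h : WSol a p q u v) (ha : a ≤ 0) (hp : 0 ≤ p) {c : ℝ} (hc : 0 < c) :
    PunctSuper u fun x => floorW a c x * v x ^ p :=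
  ⟨h.cont_u, h.smooth_u, (continuous_floorW hc).mul (h.cont_v.rpow_const fun _ => Or.inr hp),
    fun x hx => by
      rw [h.eq_u x hx]
      exact neg_le_neg (mul_le_mul_of_nonneg_right (floorW_le ha hx) (Real.rpow_nonneg (h.pos_v x).le p))⟩

theorem dist2_nonneg (x y : Fin n → ℝ) : 0 ≤ dist2 x y := Real.sqrt_nonneg _

theorem dist2_triangle (x y z : Fin n → ℝ) : dist2 x z ≤ dist2 x y + dist2 y z := by
  have h : inner2 (x - y) (y - z) ≤ dist2 x y * dist2 y z :=
    Real.sum_mul_le_sqrt_mul_sqrt _ _ _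
  refine (Real.sqrt_le_iff).2 ⟨add_nonneg (dist2_nonneg _ _) (dist2_nonneg _ _), ?_⟩
  have e : sqr (x - z) = sqr (x - y) + 2 * inner2 (x - y) (y - z) + sqr (y - z) := by
    simp only [sqr, inner2, Pi.sub_apply, mul_sum, ← sum_add_distrib]
    exact sum_congr rfl fun i _ => by ring
  have e1 : dist2 x y ^ 2 = sqr (x - y) := Real.sq_sqrt (sqr_nonneg _)
  have e2 : dist2 y z ^ 2 = sqr (y - z) := Real.sq_sqrt (sqr_nonneg _)
  nlinarith

theorem dist2_le {x y : Fin n → ℝ} {R : ℝ} (hR : 0 ≤ R) (h : sqr (x - y) ≤ R ^ 2) : dist2 x y ≤ R :=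
  (Real.sqrt_le_sqrt h).trans_eq (Real.sqrt_sq hR)

theorem dist2_zero_sq (x : Fin n → ℝ) : dist2 x 0 ^ 2 = sqr x := by
  rw [dist2, sub_zero, Real.sq_sqrt (sqr_nonneg x)]

/-- Off the origin on a ball, the Laplacian controls the means. -/
theorem mean_growth (hf : Continuous f) (h2 : ContDiffOn ℝ 2 f {x | x ≠ 0}) {b : Fin n → ℝ}
    {ρ c : ℝ} (hρ : 0 ≤ ρ) (hb : ∀ y, dist2 y b ≤ ρ → y ≠ 0)
    (hlap : ∀ y, dist2 y b ≤ ρ → -c ≤ lap f y) :
    f b * mass n 2 ≤ mean f b ρ + c * mass n 3 / 12 * ρ ^ 2 := by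
  have hd : ∀ R : ℝ, 0 < R → HasDerivAt (fun R => mean f b R + c * mass n 3 / 12 * R ^ 2)
      (deriv (mean f b) R + c * mass n 3 / 12 * (2 * R)) R := fun R hR =>
    ((hasDerivAt_mean hf b hR).differentiableAt.hasDerivAt.add
      ((hasDerivAt_pow 2 R).const_mul (c * mass n 3 / 12))).congr_deriv (by ring)
  have hmono : MonotoneOn (fun R => mean f b R + c * mass n 3 / 12 * R ^ 2) (Icc 0 ρ) := by
    refine monotoneOn_of_deriv_nonneg (convex_Icc _ _)
      ((continuous_mean hf b).add (continuous_const.mul (continuous_pow 2))).continuousOn ?_ ?_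
    · rw [interior_Icc]
      exact fun R hR => (hd R hR.1).differentiableAt.differentiableWithinAt
    · rw [interior_Icc]
      rintro R ⟨hR, hRρ⟩
      rw [(hd R hR).deriv, (hasDerivAt_mean hf b hR).deriv]
      have hO : IsOpen {x : Fin n → ℝ | x ≠ 0} := isOpen_ne
      have hψ := contDiff_bump b R
      have hc := hasCompactSupport_posPow b hR.le 3 (by norm_num)
      have hts : tsupport (bump b R) ⊆ {y | dist2 y b ≤ R} := by
        refine closure_minimal (fun y hy => ?_)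
          (isClosed_le ((continuous_sqr.comp (continuous_id.sub continuous_const)).sqrt) continuous_const)
        refine dist2_le hR.le (le_of_not_gt fun hlt => hy ?_)
        simp [bump, posPow, max_eq_right (sub_nonpos.2 hlt.le)]
      have hsub : tsupport (bump b R) ⊆ {x | x ≠ 0} := fun y hy => hb y ((hts hy).trans hRρ.le)
      obtain ⟨χ, hχ, -, hχs, -, hχ1⟩ := exists_cutoff (show HasCompactSupport (bump b R) from hc) hO hsub
      set F : (Fin n → ℝ) → ℝ := fun x => χ x * f x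
      have hF : ContDiff ℝ 2 F :=
        contDiff_mul_of_tsupport (hχ.of_le (WithTop.coe_le_coe.2 le_top)) hO hχs h2
      have heq : ∀ x ∈ tsupport (bump b R), F =ᶠ[𝓝 x] f := fun x hx => by
        filter_upwards [hχ1.filter_mono (nhds_le_nhdsSet hx)] with y hy
        simp [F, hy]
      have hI : -c * ∫ x, bump b R x ≤ ∫ x, f x * lap (bump b R) x := by
        calc -c * ∫ x, bump b R x = ∫ x, -c * bump b R x := (integral_const_mul _ _).symm
          _ ≤ ∫ x, bump b R x * lap F x := by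
            refine integral_mono (((contDiff_bump b R).continuous.integrable_of_hasCompactSupport hc).const_mul _)
              ((hψ.continuous.mul (continuous_lap hF)).integrable_of_hasCompactSupport hc.mul_right)
              fun x => ?_
            by_cases hx : x ∈ tsupport (bump b R)
            · rw [lap_congr (heq x hx), mul_comm (-c)]
              exact mul_le_mul_of_nonneg_left (hlap x ((hts hx).trans hRρ.le)) (bump_nonneg _ _ _)
            · simp [image_eq_zero_of_notMem_tsupport hx]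
          _ = ∫ x, F x * lap (bump b R) x := (integral_mul_lap hF hψ hc).symm
          _ = _ := by
            refine integral_congr_ae (.of_forall fun x => ?_)
            by_cases hx : x ∈ tsupport (bump b R)
            · exact congrArg (· * _) (heq x hx).self_of_nhds
            · simp [lap_eq_zero_of_notMem hx]
      have hint : ∫ x, bump b R x = R ^ (n + 6) * mass n 3 := by
        rw [← integral_bump n hR, ← integral_add_right_eq_self (bump b R) b]
        simp [bump]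
      rw [hint] at hI
      have h1 := mul_le_mul_of_nonneg_left hI (show 0 ≤ (R ^ (n + 5))⁻¹ / 6 by positivity)
      have e : (R ^ (n + 5))⁻¹ / 6 * (-c * (R ^ (n + 6) * mass n 3)) = -(c * mass n 3 / 12 * (2 * R)) := by
        rw [show n + 6 = n + 5 + 1 by omega, pow_succ]
        field_simp
        ring
      linarith
  simpa [mean_zero] using hmono (Set.left_mem_Icc.2 hρ) (Set.right_mem_Icc.2 hρ) hρ

/-- A positive superharmonic function is above a multiple of its mean on the ball of that radius. -/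
theorem ball_lower_at (h : PunctSuper f g) (hn : 3 ≤ n) (hg : ∀ x, 0 ≤ g x) (hf0 : ∀ x, 0 ≤ f x)
    {R D : ℝ} (hR : 0 < R) {x b : Fin n → ℝ} (hx : dist2 x b ≤ D) :
    (R / (R + D)) ^ (n + 4) * mean f b R ≤ f x * mass n 2 := by
  have hd := dist2_nonneg x b
  refine le_trans ?_ ((mean_transfer h.cont hf0 x b hR).trans (h.mean_le hn hg x (by linarith)))
  refine mul_le_mul_of_nonneg_right (pow_le_pow_left₀ (div_nonneg hR.le (by linarith)) ?_ _)
    (mean_nonneg hf0 b R)
  exact div_le_div_of_nonneg_left hR.le (by linarith) (by linarith)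

/-- A source on a ball lifts the central value. -/
theorem source_lower (h : PunctSuper f g) (hn : 3 ≤ n) (hf0 : ∀ x, 0 ≤ f x)
    {b : Fin n → ℝ} {ρ c : ℝ} (hρ : 0 ≤ ρ) (hgb : ∀ y, dist2 y b ≤ ρ → c ≤ g y) :
    c * mass n 3 / 12 * ρ ^ 2 ≤ f b * mass n 2 := by
  have hd : ∀ R : ℝ, 0 < R → HasDerivAt (fun R => mean f b R + c * mass n 3 / 12 * R ^ 2)
      (deriv (mean f b) R + c * mass n 3 / 12 * (2 * R)) R := fun R hR =>
    ((hasDerivAt_mean h.cont b hR).differentiableAt.hasDerivAt.add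
      ((hasDerivAt_pow 2 R).const_mul (c * mass n 3 / 12))).congr_deriv (by ring)
  have hanti : AntitoneOn (fun R => mean f b R + c * mass n 3 / 12 * R ^ 2) (Icc 0 ρ) := by
    refine antitoneOn_of_deriv_nonpos (convex_Icc _ _)
      ((continuous_mean h.cont b).add (continuous_const.mul (continuous_pow 2))).continuousOn ?_ ?_
    · rw [interior_Icc]
      exact fun R hR => (hd R hR.1).differentiableAt.differentiableWithinAt
    · rw [interior_Icc]
      rintro R ⟨hR, hRρ⟩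
      rw [(hd R hR).deriv]
      have h1 := h.deriv_mean_le hn b hR
      have h2 : c * (R ^ (n + 6) * mass n 3) ≤ ∫ x, g x * bump b R x := by
        rw [← integral_bump n hR, ← integral_const_mul,
          ← integral_add_right_eq_self (fun x => g x * bump b R x) b]
        refine integral_mono (integrable_weight (f := fun _ => c) continuous_const 0 hR.le 3 (by norm_num))
          ?_ fun x => ?_
        · exact ((h.gcont.mul (contDiff_bump b R).continuous).integrable_of_hasCompactSupport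
            (hasCompactSupport_posPow b hR.le 3 (by norm_num)).mul_left).comp_add_right b
        · simp only [bump, sub_zero, add_sub_cancel_right]
          rcases le_or_gt (sqr x) (R ^ 2) with hx | hx
          · refine mul_le_mul_of_nonneg_right (hgb _ ?_) (posPow_nonneg _ _)
            exact (dist2_le hR.le (by rwa [add_sub_cancel_right])).trans hRρ.le
          · simp [posPow, max_eq_right (sub_nonpos.2 hx.le)]
      have h3 := mul_le_mul_of_nonneg_left h2 (show 0 ≤ (R ^ (n + 5))⁻¹ / 6 by positivity)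
      have e : (R ^ (n + 5))⁻¹ / 6 * (c * (R ^ (n + 6) * mass n 3)) = c * mass n 3 / 12 * (2 * R) := by
        rw [show n + 6 = n + 5 + 1 by omega, pow_succ]
        field_simp
        ring
      linarith
  have := hanti (Set.left_mem_Icc.2 hρ) (Set.right_mem_Icc.2 hρ) hρ
  simp only [mean_zero, ne_eq, OfNat.ofNat_ne_zero, not_false_eq_true, zero_pow, mul_zero,
    add_zero] at this
  linarith [mean_nonneg hf0 b ρ]

theorem sub_one_le_flat (s : ℝ) : s - 1 ≤ flat s := by
  rcases le_or_gt s 0 with hs | hs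
  · linarith [flat_nonneg s]
  · simp only [flat, expNegInvGlue, if_neg hs.not_ge]
    have h := mul_le_mul_of_nonneg_left (Real.add_one_le_exp (-s⁻¹)) hs.le
    rw [mul_add, mul_neg, mul_inv_cancel₀ hs.ne', mul_one] at h
    linarith

/-- The factor of the comparison where `v ≤ V`. -/
def lam (p q V : ℝ) : ℝ := V ^ ((p - q) / (q + 1))

/-- Where `v ≤ V` on a ball off the origin, `u` is at most `Λ v` plus a mean of `u`. -/
theorem WSol.excess_le (h : WSol a p q u v) (hq : 0 < q) (hqp : q ≤ p) {b : Fin n → ℝ} {ρ V : ℝ}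
    (hV : 0 < V) (hρ : 0 ≤ ρ) (hb : ∀ y, dist2 y b ≤ ρ → y ≠ 0)
    (hv : ∀ y, dist2 y b ≤ ρ → v y ≤ V) :
    u b ≤ lam p q V * v b + mean u b ρ / mass n 2 := by
  have hm := mass_pos n 2 one_le_two
  set Λ := lam p q V with hΛdef
  have hΛ : 0 < Λ := Real.rpow_pos_of_pos hV _
  have hΛq : Λ ^ (q + 1) = V ^ (p - q) := by
    rw [hΛdef, lam, ← Real.rpow_mul hV.le, div_mul_cancel₀ _ (by linarith)]
  refine le_of_forall_pos_le_add fun δ hδ => ?_
  set Z : (Fin n → ℝ) → ℝ := fun y => δ⁻¹ * (u y - Λ * v y) with hZdef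
  have hO : IsOpen {y : Fin n → ℝ | y ≠ 0} := isOpen_ne
  have hΛv : ContDiffOn ℝ 2 (fun y => Λ * v y) {y | y ≠ 0} := contDiffOn_const.mul h.smooth_v
  have hW : ContDiffOn ℝ 2 (fun y => u y - Λ * v y) {y | y ≠ 0} := h.smooth_u.sub hΛv
  have hZ : ContDiffOn ℝ 2 Z {y | y ≠ 0} := contDiffOn_const.mul hW
  have hZc : Continuous Z := continuous_const.mul (h.cont_u.sub (continuous_const.mul h.cont_v))
  have hlapZ : ∀ y, dist2 y b ≤ ρ → 0 < Z y → 0 ≤ lap Z y := by
    intro y hy hpos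
    have hy0 := hb y hy
    have hu := h.pos_u y
    have hvy := h.pos_v y
    have hlt : Λ * v y < u y := by
      have := (pos_iff_pos_of_mul_pos hpos).1 (inv_pos.2 hδ)
      linarith
    rw [hZdef, lap_comp (θ := fun t => δ⁻¹ * t) hO hW hy0
      (.of_forall fun t => (hasDerivAt_id' t).const_mul δ⁻¹) (hasDerivAt_const _ _),
      lap_sub hO h.smooth_u hΛv hy0, lap_comp (θ := fun t => Λ * t) hO h.smooth_v hy0
      (.of_forall fun t => (hasDerivAt_id' t).const_mul Λ) (hasDerivAt_const _ _),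
      h.eq_u y hy0, h.eq_v y hy0]
    have key : v y ^ p ≤ Λ * u y ^ q := by
      have h1 : v y ^ p = v y ^ (p - q) * v y ^ q := by rw [← Real.rpow_add hvy, sub_add_cancel]
      have h2 : v y ^ (p - q) ≤ Λ ^ (q + 1) := by
        rw [hΛq]; exact Real.rpow_le_rpow hvy.le (hv y hy) (by linarith)
      rw [h1]
      refine le_trans (mul_le_mul_of_nonneg_right h2 (Real.rpow_nonneg hvy.le q)) ?_
      rw [Real.rpow_add hΛ, Real.rpow_one, mul_comm (Λ ^ q), mul_assoc, ← Real.mul_rpow hΛ.le hvy.le]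
      exact mul_le_mul_of_nonneg_left (Real.rpow_le_rpow (mul_pos hΛ hvy).le hlt.le hq.le) hΛ.le
    have := mul_nonneg (mul_nonneg (inv_pos.2 hδ).le (wgt_pos (a := a) hy0).le) (sub_nonneg.2 key)
    simp only [mul_one, zero_mul, add_zero]
    linarith
  have hg := mean_growth (f := fun y => flat (Z y)) (c := 0) (contDiff_flat.continuous.comp hZc)
    (contDiff_flat.comp_contDiffOn hZ) hρ hb fun y hy => by
    rw [lap_comp (θ := flat) hO hZ (hb y hy) (.of_forall hasDerivAt_flat) (hasDerivAt_flat' (Z y)),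
      neg_zero]
    rcases le_or_gt (Z y) 0 with hz | hz
    · simp [expNegInvGlue.zero_of_nonpos hz]
    · have hexp := expNegInvGlue.nonneg (Z y)
      have := hlapZ y hy hz
      have hinv : 0 < (Z y)⁻¹ := inv_pos.2 hz
      have : 0 ≤ ∑ i, pd Z i y ^ 2 := sum_nonneg fun i _ => sq_nonneg _
      positivity
  have hle : mean (fun y => flat (Z y)) b ρ ≤ δ⁻¹ * mean u b ρ := by
    simp only [mean]
    rw [← integral_const_mul]
    have hsupp : ∀ {G : (Fin n → ℝ) → ℝ}, Continuous G →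
        Integrable fun y => G (b + ρ • y) * posPow 2 (1 - sqr y) := fun {G} hG => by
      simpa using integrable_weight (f := fun y => G (b + ρ • y)) (hG.comp (by fun_prop))
        (0 : Fin n → ℝ) zero_le_one 2 one_le_two
    refine integral_mono (hsupp (G := fun y => flat (Z y)) (contDiff_flat.continuous.comp hZc))
      ((hsupp h.cont_u).const_mul _) fun y => ?_
    rw [← mul_assoc]
    refine mul_le_mul_of_nonneg_right (flat_le ?_ (by have := h.pos_u (b + ρ • y); positivity))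
      (posPow_nonneg _ _)
    exact mul_le_mul_of_nonneg_left (by linarith [mul_pos hΛ (h.pos_v (b + ρ • y))]) (inv_pos.2 hδ).le
  have h2 := (mul_le_mul_of_nonneg_right (sub_one_le_flat (Z b)) hm.le).trans
    (hg.trans (by linarith : _ ≤ δ⁻¹ * mean u b ρ))
  rw [← le_div_iff₀ hm, hZdef, sub_le_iff_le_add, inv_mul_le_iff₀ hδ] at h2
  refine le_of_le_of_eq (by linarith : u b ≤ Λ * v b + δ * (δ⁻¹ * mean u b ρ / mass n 2 + 1)) ?_
  field_simp
  ring

theorem rpow_sig_mul (hp : 0 < p) {P : ℝ} (hP : 0 < P) :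
    (P ^ sig p q) ^ ((p - q) / (q + 1)) = P ^ (1 - sig p q) ∨ q + 1 = 0 := by
  rcases eq_or_ne (q + 1) 0 with h | h
  · exact Or.inr h
  left
  rw [← Real.rpow_mul hP.le]
  congr 1
  have : p + 1 ≠ 0 := by linarith
  simp only [sig]
  field_simp
  ring

/-- The weight on a ball with at most half the distance of the origin as radius. -/
theorem off_ball (ha : a ≤ 0) {x₁ y : Fin n → ℝ} {d : ℝ} (hd0 : 0 < d) (hd : 2 * d ≤ dist2 x₁ 0)
    (hy : dist2 y x₁ ≤ d) :
    y ≠ 0 ∧ (2 : ℝ) ^ a * wgt a x₁ ≤ floorW a (sqr x₁ / 4) y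
      ∧ wgt a y ≤ ((2 : ℝ) ^ a)⁻¹ * wgt a x₁ := by
  have t1 := dist2_triangle x₁ y 0
  have t2 := dist2_triangle y x₁ 0
  rw [dist2_comm x₁ y] at t1
  have e1 := dist2_zero_sq x₁
  have e2 := dist2_zero_sq y
  have h0 : 0 < dist2 y 0 := by linarith
  have h1 : sqr x₁ / 4 ≤ sqr y := by
    have := pow_le_pow_left₀ (by linarith : 0 ≤ dist2 x₁ 0 / 2) (by linarith : _ ≤ dist2 y 0) 2
    linarith
  have h2 : sqr y ≤ 4 * sqr x₁ := by
    have := pow_le_pow_left₀ h0.le (by linarith : _ ≤ 2 * dist2 x₁ 0) 2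
    linarith
  have hc0 : 0 < sqr x₁ / 4 := by
    have := pow_pos (show 0 < dist2 x₁ 0 by linarith) 2
    linarith
  have e4 : (4 : ℝ) ^ (a / 2) = 2 ^ a := by
    rw [show (4 : ℝ) = 2 ^ (2 : ℝ) by norm_num, ← Real.rpow_mul two_pos.le,
      show (2 : ℝ) * (a / 2) = a by ring]
  refine ⟨fun e => by simp [e, dist2, sqr_zero] at h0, ?_, ?_⟩
  · rw [floorW, max_eq_left h1]
    refine le_trans (le_of_eq ?_) (Real.rpow_le_rpow_of_nonpos (hc0.trans_le h1) h2 (by linarith))
    rw [Real.mul_rpow (by norm_num) (sqr_nonneg _), e4]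
    rfl
  · refine (Real.rpow_le_rpow_of_nonpos hc0 h1 (by linarith)).trans_eq ?_
    rw [Real.div_rpow (sqr_nonneg _) (by norm_num), e4, div_eq_mul_inv, mul_comm]
    rfl

/-- `u` near the centre of a ball. -/
theorem WSol.low_u (h : WSol a p q u v) (hn : 3 ≤ n) (ha : a ≤ 0) (hp : 0 < p) {x₁ : Fin n → ℝ}
    {d ρ V : ℝ} (hd0 : 0 < d) (hd : 2 * d ≤ dist2 x₁ 0) (hρ : 0 < ρ) (hρd : ρ ≤ d)
    (hv : ∀ y, dist2 y x₁ ≤ d → v y ≤ V)
    (hsmall : ((2 : ℝ) ^ a)⁻¹ * wgt a x₁ * V ^ p * mass n 3 / 12 * ρ ^ 2 ≤ u x₁ * mass n 2 / 2)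
    {y : Fin n → ℝ} (hy : dist2 y x₁ ≤ ρ) : ((1 : ℝ) / 2) ^ (n + 4) / 2 * u x₁ ≤ u y := by
  have hx : x₁ ≠ 0 := fun e => by
    rw [e, show dist2 (0 : Fin n → ℝ) 0 = 0 by simp [dist2, sqr_zero]] at hd
    linarith
  have hc0 : 0 < sqr x₁ / 4 := div_pos (sqr_pos hx) (by norm_num)
  have h1 := mean_growth (c := ((2 : ℝ) ^ a)⁻¹ * wgt a x₁ * V ^ p) h.cont_u h.smooth_u hρ.le
    (b := x₁) (fun z hz => (off_ball ha hd0 hd (hz.trans hρd)).1) fun z hz => by
      obtain ⟨hz0, -, hz2⟩ := off_ball (a := a) ha hd0 hd (hz.trans hρd)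
      rw [h.eq_u z hz0]
      exact neg_le_neg (mul_le_mul hz2 (Real.rpow_le_rpow (h.pos_v z).le (hv z (hz.trans hρd)) hp.le)
        (Real.rpow_nonneg (h.pos_v z).le p) ((wgt_pos hz0).le.trans hz2))
  have h2 := ball_lower_at (h.super_floor ha hp.le hc0) hn
    (fun z => mul_nonneg (floorW_pos hc0 z).le (Real.rpow_nonneg (h.pos_v z).le p))
    (fun z => (h.pos_u z).le) hρ hy
  rw [show ρ / (ρ + ρ) = 1 / 2 by field_simp; ring] at h2
  have h3 : u x₁ * mass n 2 / 2 ≤ mean u x₁ ρ := by linarith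
  refine le_of_mul_le_mul_right ?_ (mass_pos n 2 one_le_two)
  have := (mul_le_mul_of_nonneg_left h3 (by positivity : (0 : ℝ) ≤ ((1 : ℝ) / 2) ^ (n + 4))).trans h2
  linarith

/-- `v` around the ball on which `u` is large. -/
theorem WSol.low_v (h : WSol a p q u v) (hn : 3 ≤ n) (ha : a ≤ 0) (hq : 0 < q) {x₁ : Fin n → ℝ}
    {d ρ c : ℝ} (hd0 : 0 < d) (hd : 2 * d ≤ dist2 x₁ 0) (hρ : 0 < ρ) (hρd : 2 * ρ ≤ d) (hc : 0 ≤ c)
    (hu : ∀ y, dist2 y x₁ ≤ 2 * ρ → c ≤ u y) {D : ℝ} {y : Fin n → ℝ}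
    (hy : dist2 y x₁ ≤ D) :
    (ρ / (ρ + D)) ^ (n + 4) * ((2 : ℝ) ^ a * wgt a x₁ * c ^ q * mass n 3 / 12 * ρ ^ 2)
      ≤ v y * mass n 2 := by
  have hx : x₁ ≠ 0 := fun e => by
    rw [e, show dist2 (0 : Fin n → ℝ) 0 = 0 by simp [dist2, sqr_zero]] at hd
    linarith
  have hc0 : 0 < sqr x₁ / 4 := div_pos (sqr_pos hx) (by norm_num)
  have hD : 0 ≤ D := (dist2_nonneg _ _).trans hy
  have hsv := h.symm.super_floor ha hq.le hc0
  have hgv : ∀ y, 0 ≤ floorW a (sqr x₁ / 4) y * u y ^ q := fun y =>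
    mul_nonneg (floorW_pos hc0 y).le (Real.rpow_nonneg (h.pos_u y).le q)
  have hv0 : ∀ y, 0 ≤ v y := fun y => (h.pos_v y).le
  set L := (2 : ℝ) ^ a * wgt a x₁ * c ^ q * mass n 3 / 12 * ρ ^ 2
  have hnear : ∀ z, dist2 z x₁ ≤ ρ → L / mass n 2 ≤ v z := fun z hz => by
    rw [div_le_iff₀ (mass_pos n 2 one_le_two)]
    refine source_lower hsv hn hv0 (b := z) (c := (2 : ℝ) ^ a * wgt a x₁ * c ^ q) hρ.le
      fun z' hz' => ?_
    have hz'' : dist2 z' x₁ ≤ 2 * ρ := (dist2_triangle z' z x₁).trans (by linarith)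
    exact mul_le_mul (off_ball ha hd0 hd (hz''.trans hρd)).2.1
      (Real.rpow_le_rpow hc (hu z' hz'') hq.le) (by positivity) (floorW_pos hc0 z').le
  refine le_trans (mul_le_mul_of_nonneg_left ?_ (by positivity)) (ball_lower_at hsv hn hgv hv0 hρ hy)
  rw [show L = L / mass n 2 * mass n 2 from (div_mul_cancel₀ L (mass_pos n 2 one_le_two).ne').symm,
    ← mean_const (n := n) (L / mass n 2) x₁ ρ]
  simp only [mean]
  refine integral_mono
    (by simpa using integrable_weight (f := fun _ => L / mass n 2) continuous_const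
          (0 : Fin n → ℝ) zero_le_one 2 one_le_two)
    (by simpa using integrable_weight (f := fun z => v (x₁ + ρ • z))
          (h.cont_v.comp (by fun_prop)) (0 : Fin n → ℝ) zero_le_one 2 one_le_two) fun z => ?_
  rcases le_or_gt (sqr z) 1 with hz | hz
  · refine mul_le_mul_of_nonneg_right (hnear _ (dist2_le hρ.le ?_)) (posPow_nonneg _ _)
    rw [add_sub_cancel_left, sqr_smul]
    exact mul_le_of_le_one_right (sq_nonneg _) hz
  · simp [posPow, max_eq_right (sub_nonpos.2 hz.le)]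

/-- A mean of `u` feeds `v`. -/
theorem WSol.mean_feeds (h : WSol a p q u v) (hn : 3 ≤ n) (ha : a ≤ 0) (hp : 0 < p) (hq : 0 < q)
    {x₁ b : Fin n → ℝ} {d ρ V : ℝ} (hd0 : 0 < d) (hd : 2 * d ≤ dist2 x₁ 0) (hρ : 0 < ρ)
    (hb : dist2 b x₁ + ρ ≤ d) (hv : v b ≤ V) :
    (2 : ℝ) ^ a * wgt a x₁ * (((1 : ℝ) / 2) ^ (n + 4) * (mean u b ρ / mass n 2)) ^ q
      * mass n 3 / 12 * ρ ^ 2 ≤ V * mass n 2 := by
  have hm2 := mass_pos n 2 one_le_two
  have hx : x₁ ≠ 0 := fun e => by
    rw [e, show dist2 (0 : Fin n → ℝ) 0 = 0 by simp [dist2, sqr_zero]] at hd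
    linarith
  have hc0 : 0 < sqr x₁ / 4 := div_pos (sqr_pos hx) (by norm_num)
  have hu0 : ∀ y, 0 ≤ u y := fun y => (h.pos_u y).le
  have hm0 : 0 ≤ mean u b ρ / mass n 2 := div_nonneg (mean_nonneg hu0 _ _) hm2.le
  refine (source_lower (h.symm.super_floor ha hq.le hc0) hn
    (fun y => (h.pos_v y).le) hρ.le fun z hz => ?_).trans (mul_le_mul_of_nonneg_right hv hm2.le)
  have h1 := ball_lower_at (h.super_floor ha hp.le hc0) hn
    (fun y => mul_nonneg (floorW_pos hc0 y).le (Real.rpow_nonneg (h.pos_v y).le p)) hu0 hρ hz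
  rw [show ρ / (ρ + ρ) = 1 / 2 by field_simp; ring] at h1
  refine mul_le_mul (off_ball ha hd0 hd ((dist2_triangle z b x₁).trans (by linarith))).2.1
    (Real.rpow_le_rpow (by positivity) ?_ hq.le) (by positivity) (floorW_pos hc0 z).le
  rwa [mul_div_assoc', div_le_iff₀ hm2]

/-- The exponents of scaling. -/
theorem exponents (hq : 0 < q) (hqp : q ≤ p) (hpq : 1 < p * q) :
    sig p q * p = 1 + 2 / wt p q 0 ∧ q = sig p q + 2 / wt p q 0 := by
  obtain ⟨hα, -⟩ := wt_pos hq hqp hpq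
  have hσα : wt p q 0 * sig p q = wt p q 1 := (wt_one (hq.trans_le hqp)).symm
  have h1 := wt_one_mul hq hqp hpq
  have h2 := wt_zero_mul hq hqp hpq
  simp only [critDim] at h1 h2
  constructor
  · have e : wt p q 0 * (sig p q * p) = wt p q 0 + 2 := by linear_combination p * hσα + h1
    field_simp
    linarith
  · rw [← sub_eq_iff_eq_add', eq_div_iff hα.ne']
    linarith

/-- The local comparison. -/
theorem exists_ball_ratio (hn : 3 ≤ n) (ha : a ≤ 0) (ha2 : -2 < a) (hq : 0 < q) (hqp : q ≤ p)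
    (hpq : 1 < p * q) {K : ℝ} (hK : 1 ≤ K) :
    ∃ θ c C : ℝ, 0 < θ ∧ θ ≤ 1 ∧ 0 < c ∧ 0 < C ∧ ∀ {u v : (Fin n → ℝ) → ℝ}, WSol a p q u v →
      ∀ (x₁ : Fin n → ℝ) (d : ℝ), 2 * d ≤ dist2 x₁ 0 →
      4 ≤ u x₁ ^ (wt p q 0)⁻¹ * √(wgt a x₁) * d →
      (∀ y, dist2 y x₁ ≤ d → u y ≤ K * u x₁) →
        (∀ y, dist2 y x₁ ≤ θ * (u x₁ ^ (wt p q 0)⁻¹ * √(wgt a x₁))⁻¹ → c * u x₁ ≤ u y) ∧
        ∀ y, dist2 y x₁ ≤ (u x₁ ^ (wt p q 0)⁻¹ * √(wgt a x₁) * d) ^ min (2 / (q * (n + 4))) (1 / 2)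
              * (u x₁ ^ (wt p q 0)⁻¹ * √(wgt a x₁))⁻¹ →
          u y ≤ C * u x₁ ^ (1 - sig p q) * v y := by
  have hp : 0 < p := hq.trans_le hqp
  have hσ := sig_pos hp hq
  have hl := ell_pos hp hq
  have hm2 := mass_pos n 2 one_le_two
  have hm3 := mass_pos n 3 (by norm_num)
  have h2a : (0 : ℝ) < 2 ^ a := Real.rpow_pos_of_pos two_pos _
  obtain ⟨hσp, hqσ⟩ := exponents hq hqp hpq
  -- the constants
  set L := ell p q * K ^ sig p q with hLdef
  have hL : 0 < L := mul_pos hl (Real.rpow_pos_of_pos (by linarith) _)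
  have hLp : 0 < L ^ p := Real.rpow_pos_of_pos hL p
  set G := ((2 : ℝ) ^ a)⁻¹ * L ^ p * mass n 3 / 12
  have hG : 0 < G := by positivity
  set θ := min 1 (√(mass n 2 / 2 / (G + 1)))
  have hθ : 0 < θ := lt_min one_pos (Real.sqrt_pos.2 (by positivity))
  have hθ1 : θ ≤ 1 := min_le_left _ _
  have hθ2 : G * θ ^ 2 ≤ mass n 2 / 2 := by
    have h1 : θ ^ 2 ≤ mass n 2 / 2 / (G + 1) :=
      (pow_le_pow_left₀ hθ.le (min_le_right _ _) 2).trans_eq (Real.sq_sqrt (by positivity))
    refine (mul_le_mul_of_nonneg_left h1 hG.le).trans ?_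
    rw [mul_div_assoc', div_le_iff₀ (by positivity)]
    linarith [mul_nonneg hG.le hm2.le]
  set c₁ := ((1 : ℝ) / 2) ^ (n + 4) / 2
  have hc₁ : 0 < c₁ := by positivity
  have hc₁q : 0 < c₁ ^ q := Real.rpow_pos_of_pos hc₁ q
  set c₃ := (θ / 4) ^ (n + 4) * ((2 : ℝ) ^ a * c₁ ^ q * mass n 3 / 12 * (θ / 2) ^ 2 / mass n 2)
  have hc₃ : 0 < c₃ := by positivity
  set CL := L ^ ((p - q) / (q + 1))
  have hCL : 0 < CL := Real.rpow_pos_of_pos hL _
  set Cm := 2 ^ (n + 4) * (16 * 12 * L * mass n 2 / ((2 : ℝ) ^ a * mass n 3)) ^ q⁻¹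
  have hCm : 0 < Cm := by positivity
  refine ⟨θ, c₁, CL + Cm / c₃, hθ, hθ1, hc₁, by positivity, fun {u v} h x₁ d hd hT hu => ?_⟩
  set P := u x₁
  have hP : 0 < P := h.pos_u x₁
  set l := P ^ (wt p q 0)⁻¹ with hldef
  set w := wgt a x₁
  set T := l * √w * d with hTdef
  set η := (l * √w)⁻¹ with hηdef
  set R := T ^ min (2 / (q * ((n : ℝ) + 4))) (1 / 2)
  have hl1 : 0 < l := Real.rpow_pos_of_pos hP _
  have hd0 : 0 < d := pos_of_mul_pos_right (show 0 < T by linarith)
    (mul_nonneg hl1.le (Real.sqrt_nonneg w))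
  have hx₁ : x₁ ≠ 0 := fun e => by
    rw [e, show dist2 (0 : Fin n → ℝ) 0 = 0 by simp [dist2, sqr_zero]] at hd
    linarith
  have hw : 0 < w := wgt_pos hx₁
  have hη : 0 < η := inv_pos.2 (mul_pos hl1 (Real.sqrt_pos.2 hw))
  have hTd : d = T * η := by
    rw [hTdef, hηdef]
    have := (Real.sqrt_pos.2 hw).ne'
    field_simp
  have hη2 : w * η ^ 2 = (l ^ 2)⁻¹ := by
    rw [hηdef, inv_pow, mul_pow, Real.sq_sqrt hw.le]
    field_simp
  have hl2 : l ^ 2 = P ^ (2 / wt p q 0) := by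
    rw [hldef, ← Real.rpow_natCast, ← Real.rpow_mul hP.le]
    congr 1
    push_cast
    ring
  have hR1 : 1 ≤ R := Real.one_le_rpow (by linarith only [hT]) (le_min (by positivity) (by norm_num))
  have hR2 : 2 * R ≤ T := by
    have h1 : R ≤ √T := (Real.rpow_le_rpow_of_exponent_le (by linarith only [hT] : (1 : ℝ) ≤ T)
      (min_le_right _ _)).trans_eq (Real.sqrt_eq_rpow T).symm
    have h2 : (2 : ℝ) ≤ √T := Real.le_sqrt_of_sq_le (by linarith only [hT])
    have h3 : √T * √T = T := Real.mul_self_sqrt (by linarith only [hT])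
    have h4 := mul_le_mul h2 h1 (by linarith only [hR1]) (Real.sqrt_nonneg T)
    linarith only [h3, h4]
  have hRη : 2 * (R * η) ≤ d := by
    rw [hTd, ← mul_assoc]; exact mul_le_mul_of_nonneg_right hR2 hη.le
  have hθη : θ * η ≤ R * η := mul_le_mul_of_nonneg_right (hθ1.trans hR1) hη.le
  have hθη0 : 0 < θ * η := mul_pos hθ hη
  have hθd : θ * η ≤ d := by linarith only [hθη, hRη, hθη0]
  set V := L * P ^ sig p q with hVdef
  have hV : 0 < V := mul_pos hL (Real.rpow_pos_of_pos hP _)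
  have hvV : ∀ y, dist2 y x₁ ≤ d → v y ≤ V := fun y hy => by
    refine ((h.compare ha ha2 hn hq hqp y).trans (mul_le_mul_of_nonneg_left
      (Real.rpow_le_rpow (h.pos_u y).le (hu y hy) hσ.le) hl.le)).trans_eq ?_
    rw [hVdef, hLdef, Real.mul_rpow (zero_le_one.trans hK) hP.le, mul_assoc]
  have hVp : V ^ p = L ^ p * (P * l ^ 2) := by
    rw [hVdef, Real.mul_rpow hL.le (Real.rpow_nonneg hP.le _), ← Real.rpow_mul hP.le, hσp,
      Real.rpow_add hP, Real.rpow_one, hl2]
  have hlow : ∀ y, dist2 y x₁ ≤ θ * η → c₁ * P ≤ u y := fun y hy => by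
    refine h.low_u hn ha hp hd0 hd hθη0 hθd hvV ?_ hy
    rw [hVp, show ((2 : ℝ) ^ a)⁻¹ * w * (L ^ p * (P * l ^ 2)) * mass n 3 / 12 * (θ * η) ^ 2
      = G * θ ^ 2 * P * (l ^ 2 * (w * η ^ 2)) by simp only [G]; ring, hη2,
      mul_inv_cancel₀ (pow_ne_zero 2 hl1.ne'), mul_one]
    exact (mul_le_mul_of_nonneg_right hθ2 hP.le).trans_eq (by simp only [P]; ring)
  have hPσ : P ^ q * (w * η ^ 2) = P ^ sig p q := by
    rw [hη2, hl2, ← Real.rpow_neg hP.le, ← Real.rpow_add hP]
    congr 1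
    linarith only [hqσ]
  refine ⟨hlow, fun b hb => ?_⟩
  have hvR : c₃ * P ^ sig p q / R ^ (n + 4) ≤ v b := by
    have hr : 0 < θ * η / 2 := by positivity
    have h1 := h.low_v hn ha hq hd0 hd hr (by linarith only [hθd]) (c := c₁ * P) (by positivity)
      (fun y hy => hlow y (by linarith only [hy])) hb
    have h3 : (θ / 4 / R) ^ (n + 4) ≤ (θ * η / 2 / (θ * η / 2 + R * η)) ^ (n + 4) := by
      refine pow_le_pow_left₀ (by positivity) ?_ _
      rw [le_div_iff₀ (by positivity), div_mul_eq_mul_div, div_le_iff₀ (by positivity)]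
      have := mul_le_mul_of_nonneg_left hθη hθ.le
      have := mul_nonneg (mul_nonneg hθ.le (zero_le_one.trans hR1)) hη.le
      linarith
    refine le_of_mul_le_mul_right (le_trans (le_of_eq ?_)
      ((mul_le_mul_of_nonneg_right h3 (by positivity)).trans h1)) hm2
    rw [Real.mul_rpow hc₁.le hP.le, ← hPσ]
    simp only [c₃, div_pow]
    field_simp
    ring
  have hρ : 0 < d / 4 := by linarith only [hd0]
  have hball : ∀ y, dist2 y b ≤ d / 4 → dist2 y x₁ ≤ d := fun y hy =>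
    (dist2_triangle y b x₁).trans (by linarith only [hy, hb, hRη, hd0])
  have hexc := h.excess_le hq hqp hV hρ.le (fun y hy => (off_ball (a := a) ha hd0 hd (hball y hy)).1)
    fun y hy => hvV y (hball y hy)
  set m := mean u b (d / 4) / mass n 2
  have hm0 : 0 ≤ m := div_nonneg (mean_nonneg (fun y => (h.pos_u y).le) _ _) hm2.le
  have hm : m ≤ Cm * (P * T ^ (-(2 / q))) := by
    have h2 := h.mean_feeds hn ha hp hq hd0 hd hρ (b := b) (V := V) (by linarith only [hb, hRη, hd0])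
      (hvV b (by linarith only [hb, hRη, hd0]))
    have h3 : (((1 : ℝ) / 2) ^ (n + 4) * m) ^ q
        ≤ 16 * 12 * L * mass n 2 / ((2 : ℝ) ^ a * mass n 3) * (P ^ q / T ^ 2) := by
      rw [show V = L * (P ^ q * (w * η ^ 2)) by rw [hPσ],
        show (d / 4) ^ 2 = (T * η / 4) ^ 2 by rw [hTd]] at h2
      have hT2 : (0 : ℝ) < T ^ 2 := pow_pos (show (0 : ℝ) < T by linarith only [hT]) 2
      rw [div_mul_div_comm, le_div_iff₀ (mul_pos (mul_pos h2a hm3) hT2)]
      refine le_of_mul_le_mul_right ?_ (mul_pos hw (pow_pos hη 2))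
      linarith only [h2]
    have hT0 : (0 : ℝ) ≤ T := by linarith only [hT]
    have h4 := Real.rpow_le_rpow (by positivity) h3 (inv_pos.2 hq).le
    rw [Real.rpow_rpow_inv (by positivity) hq.ne', Real.mul_rpow (by positivity) (by positivity),
      Real.div_rpow (Real.rpow_nonneg hP.le _) (by positivity), Real.rpow_rpow_inv hP.le hq.ne',
      ← Real.rpow_natCast T 2, ← Real.rpow_mul hT0,
      show ((2 : ℕ) : ℝ) * q⁻¹ = 2 / q by push_cast; ring, div_eq_mul_inv P, ← Real.rpow_neg hT0,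
      div_pow, one_pow, div_mul_eq_mul_div, div_le_iff₀ (by positivity), one_mul] at h4
    simp only [Cm]
    linarith only [h4]
  have hTR : T ^ (-(2 / q)) ≤ (R ^ (n + 4))⁻¹ := by
    have hT0 : (0 : ℝ) ≤ T := by linarith only [hT]
    rw [← Real.rpow_natCast, ← Real.rpow_mul hT0, ← Real.rpow_neg hT0]
    refine Real.rpow_le_rpow_of_exponent_le (by linarith only [hT]) (neg_le_neg ?_)
    refine le_trans (mul_le_mul_of_nonneg_right (min_le_left _ _) (by positivity)) (le_of_eq ?_)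
    push_cast
    field_simp
  have hσ1 : P ^ (1 - sig p q) * P ^ sig p q = P := by
    rw [← Real.rpow_add hP, sub_add_cancel, Real.rpow_one]
  have hlam : lam p q V = CL * P ^ (1 - sig p q) := by
    rw [lam, hVdef, Real.mul_rpow hL.le (Real.rpow_nonneg hP.le _),
      (rpow_sig_mul (q := q) hp hP).resolve_right (by linarith only [hq])]
  have hmv : m ≤ Cm / c₃ * P ^ (1 - sig p q) * v b := by
    refine hm.trans ?_
    calc Cm * (P * T ^ (-(2 / q))) ≤ Cm * (P * (R ^ (n + 4))⁻¹) := by gcongr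
      _ = Cm / c₃ * P ^ (1 - sig p q) * (c₃ * P ^ sig p q / R ^ (n + 4)) := by
        nth_rewrite 1 [← hσ1]
        field_simp
      _ ≤ _ := mul_le_mul_of_nonneg_left hvR (by positivity)
  rw [hlam] at hexc
  linarith only [hexc, hmv]

end

end Vale.Agent.P100.Weighted
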