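import Mathlib
import Vale.Agent.P100.Orbit.Invariant
import Vale.Agent.P100.OrbitCert.Export

/-!
# P100, weighted: `r` is at most a power of `U` along the critical orbit

`U ≥ c T^(-S/2)` and `V ≤ C T^(-ν)` for every `ν < min (S/2) (N σ/2)`, so `r ≤ C U ^ e` for every
exponent `e` with `σ + e < 1` and `S (σ + e) < N σ`.
-/

namespace Vale.Agent.P100.Weighted

open Filter Set Topology
open Vale.Agent.P100.Orbit Vale.Agent.P100.OrbitCert

noncomputable section

variable {N p q T₁ T₀ : ℝ} {U V : ℝ → ℝ}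

/-- The derivative of `T ^ (N/2) f` for a solution of `N f + 2 T f' = g`. -/
theorem hasDerivAt_weighted {f : ℝ → ℝ} {f' g T : ℝ} (hT : 0 < T) (hf : HasDerivAt f f' T)
    (he : g = N * f T + 2 * T * f') :
    HasDerivAt (fun x => x ^ (N / 2) * f x) (T ^ (N / 2 - 1) * (g / 2)) T := by
  refine ((Real.hasDerivAt_rpow_const (p := N / 2) (Or.inl hT.ne')).mul hf).congr_deriv ?_
  rw [he, Real.rpow_sub_one hT.ne']
  field_simp

/-- `U` is at least the fundamental solution. -/
theorem exists_U_lower (s : Setting N p q T₁ T₀ U V) :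
    ∃ c > 0, ∀ T, 1 ≤ T → c * T ^ (-((N - 2) / 2)) ≤ U T := by
  have h1 : ∀ {T : ℝ}, 1 ≤ T → T₁ < T := fun hT => by linarith [s.lt_zero]
  have hS : 0 < N - 2 := by linarith [s.two_lt]
  set c := du N p V 1
  have hc : 0 < c := s.u₁_pos (h1 le_rfl).le
  have hmono : MonotoneOn (fun x => x ^ (N / 2) * du N p V x) (Ici 1) := by
    have hd : ∀ T, 1 ≤ T → HasDerivAt (fun x => x ^ (N / 2) * du N p V x)
        (T ^ (N / 2 - 1) * (V T ^ p / 2)) T := fun T hT =>
      hasDerivAt_weighted (by linarith) (s.orbit.deriv_du_u T (h1 hT)).hasDerivAt (s.ode_u (h1 hT))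
    refine monotoneOn_of_deriv_nonneg (convex_Ici _)
      (fun T hT => (hd T hT).continuousAt.continuousWithinAt) ?_ ?_
    · rw [interior_Ici]
      exact fun T (hT : 1 < T) => (hd T hT.le).differentiableAt.differentiableWithinAt
    · rw [interior_Ici]
      intro T (hT : 1 < T)
      rw [(hd T hT.le).deriv]
      exact mul_nonneg (Real.rpow_nonneg (by linarith) _)
        (div_nonneg (Real.rpow_nonneg (s.V_pos (h1 hT.le).le).le _) two_pos.le)
  refine ⟨c * (2 / (N - 2)), mul_pos hc (div_pos two_pos hS), fun T hT => ?_⟩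
  set G := fun x : ℝ => U x - c * (2 / (N - 2)) * x ^ (-((N - 2) / 2))
  have hd : ∀ x, 1 ≤ x → HasDerivAt G (-du N p V x + c * x ^ (-(N / 2))) x := fun x hx => by
    refine ((s.orbit.deriv_u x (h1 hx)).sub ((Real.hasDerivAt_rpow_const
      (p := -((N - 2) / 2)) (Or.inl (by linarith : x ≠ 0))).const_mul (c * (2 / (N - 2))))).congr_deriv ?_
    rw [show -((N - 2) / 2) - 1 = -(N / 2) by ring]
    field_simp
    ring
  have hanti : AntitoneOn G (Ici 1) := by
    refine antitoneOn_of_deriv_nonpos (convex_Ici _)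
      (fun x hx => (hd x hx).continuousAt.continuousWithinAt) ?_ ?_
    · rw [interior_Ici]
      exact fun x (hx : 1 < x) => (hd x hx.le).differentiableAt.differentiableWithinAt
    · rw [interior_Ici]
      intro x (hx : 1 < x)
      rw [(hd x hx.le).deriv]
      have hx0 : 0 < x := by linarith
      have h2 : c ≤ x ^ (N / 2) * du N p V x := by
        simpa [c] using hmono self_mem_Ici hx.le hx.le
      rw [Real.rpow_neg hx0.le, ← div_eq_mul_inv, neg_add_nonpos_iff, div_le_iff₀ (Real.rpow_pos_of_pos hx0 _)]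
      linarith
  have hlim : Tendsto G atTop (𝓝 0) := by
    simpa [G] using s.orbit.u_to_zero.sub
      ((tendsto_rpow_neg_atTop (by linarith : 0 < (N - 2) / 2)).const_mul (c * (2 / (N - 2))))
  have h3 : 0 ≤ G T := le_of_tendsto hlim (eventually_atTop.2 ⟨T, fun x hx => hanti hT (hT.trans hx) hx⟩)
  simpa [G] using h3

/-- `U` has every decay below the fundamental solution. -/
theorem exists_U_decay (s : Setting N p q T₁ T₀ U V) {θ : ℝ} (hθ : θ < (N - 2) / 2) :
    ∃ S C : ℝ, 1 ≤ S ∧ ∀ T, S ≤ T → U T ≤ C * T ^ (-θ) := by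
  have h1 : ∀ {T : ℝ}, 1 ≤ T → T₁ < T := fun hT => by linarith [s.lt_zero]
  have hlim := s.ground.tendsto_qX s.two_lt s.p_pos s.q_pos s.lt s.critical
  obtain ⟨S, hS⟩ := eventually_atTop.1
    (hlim.eventually (lt_mem_nhds (show 2 * θ < N - 2 by linarith)))
  set S' := max S 1
  have hd : ∀ x, 1 ≤ x → HasDerivAt (fun x => U x * x ^ θ)
      (-du N p V x * x ^ θ + U x * (θ * x ^ (θ - 1))) x := fun x hx =>
    (s.orbit.deriv_u x (h1 hx)).mul (Real.hasDerivAt_rpow_const (Or.inl (by linarith : x ≠ 0)))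
  have hanti : AntitoneOn (fun x => U x * x ^ θ) (Ici S') := by
    refine antitoneOn_of_deriv_nonpos (convex_Ici _)
      (fun x hx => (hd x ((le_max_right _ _).trans hx)).continuousAt.continuousWithinAt) ?_ ?_
    · rw [interior_Ici]
      exact fun x (hx : S' < x) =>
        (hd x ((le_max_right _ _).trans hx.le)).differentiableAt.differentiableWithinAt
    · rw [interior_Ici]
      intro x (hx : S' < x)
      have hx1 : 1 ≤ x := (le_max_right _ _).trans hx.le
      have hx0 : 0 < x := by linarith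
      rw [(hd x hx1).deriv, Real.rpow_sub_one hx0.ne']
      have h2 := hS x ((le_max_left _ _).trans hx.le)
      have hU := s.U_pos (h1 hx1).le
      rw [qX, lt_div_iff₀ hU] at h2
      rw [show -du N p V x * x ^ θ + U x * (θ * (x ^ θ / x))
        = x ^ θ / x * (θ * U x - x * du N p V x) by field_simp; ring]
      exact mul_nonpos_of_nonneg_of_nonpos (by positivity) (by linarith)
  refine ⟨S', U S' * S' ^ θ, le_max_right _ _, fun T hT => ?_⟩
  have hT0 : 0 < T := zero_lt_one.trans_le ((le_max_right _ _).trans hT)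
  rw [Real.rpow_neg hT0.le, ← div_eq_mul_inv, le_div_iff₀ (Real.rpow_pos_of_pos hT0 _)]
  exact hanti self_mem_Ici hT hT

/-- The decay of `V` that follows. -/
theorem exists_V_decay (s : Setting N p q T₁ T₀ U V) {ν : ℝ} (hν : 0 < ν) (hν1 : ν + 1 < N / 2)
    (hν2 : ν + 1 < q * ((N - 2) / 2)) : ∃ S C : ℝ, 1 ≤ S ∧ ∀ T, S ≤ T → V T ≤ C * T ^ (-ν) := by
  have hq := s.q_pos
  obtain ⟨S, C, hS1, hS⟩ := exists_U_decay s (θ := (ν + 1) / q) (by rw [div_lt_iff₀ hq]; linarith)
  have h1 : ∀ {T : ℝ}, S ≤ T → T₁ < T := fun hT => by linarith [s.lt_zero]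
  have hC : 0 < C := by
    have := (s.U_pos (h1 le_rfl).le).trans_le (hS S le_rfl)
    exact pos_of_mul_pos_left this (Real.rpow_nonneg (by linarith) _)
  set κ := ν + 1
  set k := N / 2 - κ with hk
  have hk0 : 0 < k := by rw [hk]; linarith
  have hUq : ∀ T, S ≤ T → U T ^ q ≤ C ^ q * T ^ (-κ) := fun T hT => by
    have hT0 : 0 < T := by linarith
    refine (Real.rpow_le_rpow (s.U_pos (h1 hT).le).le (hS T hT) hq.le).trans_eq ?_
    rw [Real.mul_rpow hC.le (Real.rpow_nonneg hT0.le _), ← Real.rpow_mul hT0.le]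
    congr 2
    field_simp
  -- the first monotone quantity
  set E := fun x : ℝ => x ^ (N / 2) * du N q U x - C ^ q / (2 * k) * x ^ k
  have hE : ∀ x, S ≤ x → HasDerivAt E
      (x ^ (N / 2 - 1) * (U x ^ q / 2) - C ^ q / (2 * k) * (k * x ^ (k - 1))) x := fun x hx =>
    (hasDerivAt_weighted (by linarith) (s.orbit.deriv_du_v x (h1 hx)).hasDerivAt (s.ode_v (h1 hx))).sub
      ((Real.hasDerivAt_rpow_const (Or.inl (by linarith : x ≠ 0))).const_mul _)
  have hEanti : AntitoneOn E (Ici S) := by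
    refine antitoneOn_of_deriv_nonpos (convex_Ici _)
      (fun x hx => (hE x hx).continuousAt.continuousWithinAt) ?_ ?_
    · rw [interior_Ici]
      exact fun x (hx : S < x) => (hE x hx.le).differentiableAt.differentiableWithinAt
    · rw [interior_Ici]
      intro x (hx : S < x)
      rw [(hE x hx.le).deriv]
      have hx0 : 0 < x := by linarith
      have h2 := mul_le_mul_of_nonneg_left (hUq x hx.le) (Real.rpow_nonneg hx0.le (N / 2 - 1))
      rw [show x ^ (N / 2 - 1) * (C ^ q * x ^ (-κ)) = C ^ q * x ^ (k - 1) by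
        rw [mul_left_comm, ← Real.rpow_add hx0]; congr 2; rw [hk]; ring] at h2
      rw [show C ^ q / (2 * k) * (k * x ^ (k - 1)) = C ^ q * x ^ (k - 1) / 2 by field_simp]
      linarith
  set C' := |E S| + C ^ q / (2 * k)
  have hdu : ∀ x, S ≤ x → du N q U x ≤ C' * x ^ (-κ) := fun x hx => by
    have hx1 : 1 ≤ x := hS1.trans hx
    have hx0 : 0 < x := by linarith
    have h2 := hEanti self_mem_Ici hx hx
    have h3 : 1 ≤ x ^ k := Real.one_le_rpow hx1 hk0.le
    have h4 : x ^ (N / 2) * du N q U x ≤ C' * x ^ k := by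
      simp only [E] at h2
      have := mul_le_mul_of_nonneg_left h3 (abs_nonneg (E S))
      have := le_abs_self (E S)
      simp only [C', add_mul]
      linarith
    rw [show -κ = k - N / 2 by rw [hk]; ring, Real.rpow_sub hx0, mul_div_assoc',
      le_div_iff₀ (Real.rpow_pos_of_pos hx0 _)]
    linarith
  refine ⟨S, C' / ν, hS1, fun T hT => ?_⟩
  set G := fun x : ℝ => V x - C' / ν * x ^ (-ν)
  have hG : ∀ x, S ≤ x → HasDerivAt G (-du N q U x + C' * x ^ (-κ)) x := fun x hx => by
    refine ((s.orbit.deriv_v x (h1 hx)).sub ((Real.hasDerivAt_rpow_const (p := -ν)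
      (Or.inl (by linarith : x ≠ 0))).const_mul (C' / ν))).congr_deriv ?_
    rw [show -ν - 1 = -κ by simp only [κ]; ring]
    field_simp
    ring
  have hmono : MonotoneOn G (Ici S) := by
    refine monotoneOn_of_deriv_nonneg (convex_Ici _)
      (fun x hx => (hG x hx).continuousAt.continuousWithinAt) ?_ ?_
    · rw [interior_Ici]
      exact fun x (hx : S < x) => (hG x hx.le).differentiableAt.differentiableWithinAt
    · rw [interior_Ici]
      intro x (hx : S < x)
      rw [(hG x hx.le).deriv]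
      linarith [hdu x hx.le]
  have hlim : Tendsto G atTop (𝓝 0) := by
    simpa [G] using s.orbit.v_to_zero.sub ((tendsto_rpow_neg_atTop hν).const_mul (C' / ν))
  have h3 : G T ≤ 0 := ge_of_tendsto hlim (eventually_atTop.2 ⟨T, fun x hx => hmono hT (hT.trans hx) hx⟩)
  simpa [G] using h3

/-- `r` is at most a power of `U`. -/
theorem exists_ratio_le (s : Setting N p q T₁ T₀ U V) {e : ℝ} (he : 0 < e)
    (he1 : Orbit.sig p q + e < 1) (he2 : (N - 2) * (Orbit.sig p q + e) < N * Orbit.sig p q) :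
    ∃ C, 0 < C ∧ ∀ T, T₀ ≤ T → Orbit.ratio p q U V T ≤ C * U T ^ e := by
  have hS : 0 < N - 2 := by linarith [s.two_lt]
  have hσ := Orbit.sig_pos s.p_pos s.q_pos
  have hqS : q * ((N - 2) / 2) = N * Orbit.sig p q / 2 + 1 := by
    obtain ⟨-, -, -, hq'⟩ := s.degree_eq
    have hα := s.α_pos
    have hβ : cα N p = cα N q * Orbit.sig p q := by
      have : p + 1 ≠ 0 := by linarith [s.p_pos]
      have : q + 1 ≠ 0 := by linarith [s.q_pos]
      unfold cα Orbit.sig; field_simp
    have hN : N - 2 = cα N q * (1 + Orbit.sig p q) := by linarith [s.sum_eq]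
    have hqα : q * cα N q = Orbit.sig p q * cα N q + 2 := by
      have h1 : q * cα N q = (Orbit.sig p q + 2 / cα N q) * cα N q := congrArg (· * cα N q) hq'
      rwa [add_mul, div_mul_cancel₀ _ hα.ne'] at h1
    linear_combination (q / 2) * hN + ((1 + Orbit.sig p q) / 2) * hqα - (Orbit.sig p q / 2) * hN
  set ν := (N - 2) / 2 * (Orbit.sig p q + e) with hν
  obtain ⟨S, C, hS1, hV⟩ := exists_V_decay s (ν := ν) (by positivity)
    (by
      have := mul_lt_mul_of_pos_left he1 (show 0 < (N - 2) / 2 by linarith)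
      rw [hν]; linarith) (by rw [hqS, hν]; linarith)
  obtain ⟨c, hc, hU⟩ := exists_U_lower s
  have hC : 0 < C := by
    have := (s.V_pos (by linarith [s.lt_zero] : T₁ ≤ S)).trans_le (hV S le_rfl)
    exact pos_of_mul_pos_left this (Real.rpow_nonneg (by linarith) _)
  have hK : IsCompact (Icc T₀ (max T₀ S)) := isCompact_Icc
  obtain ⟨T', hT', hmin⟩ := hK.exists_isMinOn ⟨T₀, left_mem_Icc.2 (le_max_left _ _)⟩
    s.orbit.cont_u.continuousOn
  have hU' : 0 < U T' := s.U_pos (s.orbit.T₁_lt.le.trans hT'.1)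
  set C1 := C / c ^ (Orbit.sig p q + e)
  refine ⟨max C1 (Orbit.rtop p q / U T' ^ e), lt_max_of_lt_left (by positivity), fun T hT => ?_⟩
  have h1 : T₁ ≤ T := s.orbit.T₁_lt.le.trans hT
  have hUT := s.U_pos h1
  rcases le_or_gt T S with hTS | hTS
  · refine le_trans ?_ (mul_le_mul_of_nonneg_right (le_max_right _ _) (Real.rpow_nonneg hUT.le _))
    have h2 : Orbit.ratio p q U V T ≤ Orbit.rtop p q := by
      rw [← s.orbit.ratio_top]
      exact s.orbit.ratio_anti.antitoneOn self_mem_Ici hT hT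
    have h3 : U T' ^ e ≤ U T ^ e :=
      Real.rpow_le_rpow hU'.le (hmin ⟨hT, hTS.trans (le_max_right _ _)⟩) he.le
    have hr : 0 < Orbit.rtop p q := Real.rpow_pos_of_pos
      (div_pos (by linarith [s.p_pos]) (by linarith [s.q_pos])) _
    refine h2.trans ?_
    rw [div_mul_eq_mul_div, le_div_iff₀ (Real.rpow_pos_of_pos hU' _)]
    exact mul_le_mul_of_nonneg_left h3 hr.le
  · refine le_trans ?_ (mul_le_mul_of_nonneg_right (le_max_left _ _) (Real.rpow_nonneg hUT.le _))
    have hT1 : 1 ≤ T := hS1.trans hTS.le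
    have hT0 : 0 < T := by linarith
    rw [Orbit.ratio, div_le_iff₀ (Real.rpow_pos_of_pos hUT _), mul_assoc, ← Real.rpow_add hUT,
      add_comm e]
    refine (hV T hTS.le).trans ?_
    have h4 := Real.rpow_le_rpow (mul_nonneg hc.le (Real.rpow_nonneg hT0.le _)) (hU T hT1)
      (by linarith : 0 ≤ Orbit.sig p q + e)
    rw [Real.mul_rpow hc.le (Real.rpow_nonneg hT0.le _), ← Real.rpow_mul hT0.le,
      show -((N - 2) / 2) * (Orbit.sig p q + e) = -ν by rw [hν]; ring] at h4
    have h5 := mul_le_mul_of_nonneg_left h4 (show 0 ≤ C1 by positivity)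
    rw [← mul_assoc, div_mul_cancel₀ C (Real.rpow_pos_of_pos hc _).ne'] at h5
    exact h5

end

end Vale.Agent.P100.Weighted
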