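import Mathlib
import Vale.Agent.P100.Weighted.OrbitDecay
import Vale.Agent.P100.Weighted.Scaled

/-!
# P100, weighted: the orbit certificate at the data of the weighted system

For a critical orbit in a dimension `N > 2 (n + a) / (2 + a)` the five functions make the normalised
divergence at least a constant and bound the field by `r ^ (-d/((α-β) N))` times its power `1 - 1/N`.
-/

namespace Vale.Agent.P100.Weighted

open Filter Set Topology Finset
open Vale.Agent.P098.Cone
open Vale.Agent.P100.OrbitCert (Setting Rule Margin cert square fluxVec cα)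

noncomputable section

variable {n : ℕ} {a p q N T₁ T₀ : ℝ} {U V : ℝ → ℝ}

/-- What the analysis uses about the five functions. -/
def Ample (n : ℕ) (a p q N d : ℝ) (F : Five) : Prop :=
  ∃ ε > 0, ∃ K k : ℝ, 0 ≤ k ∧ ∀ r ∈ Set.Ioc (0 : ℝ) (ell p q),
    ∀ (z X Y : Fin n → ℝ) (H : Fin n → Fin n → ℝ), z ≠ 0 → (∀ i j, H i j = H j i) →
      ∑ i, H i i = -(r ^ p) →
      ε ≤ normDiv a p q (N + d) F r z X Y H ∧ ∀ i,
        |normFlux a F r z X Y H i|
            ≤ K * r ^ (-(d / ((wt p q 0 - wt p q 1) * N))) * normDiv a p q (N + d) F r z X Y H ^ (1 - 1 / N)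
          ∧ |normFlux a F r z X Y H i|
            ≤ K * r ^ (-k) * normDiv a p q (N + d) F r z X Y H ^ (3 / 4 : ℝ)

/-- The shift of the traceless part. -/
def starH (a p : ℝ) (r : ℝ) (z X : Fin n → ℝ) (H : Fin n → Fin n → ℝ) (i j : Fin n) : ℝ :=
  H i j - (halfLog a z i * X j + X i * halfLog a z j)
    + if i = j then inner2 (halfLog a z) X + r ^ p / n else 0

theorem fluxVec_star (F : Five) (r : ℝ) (z X Y : Fin n → ℝ) (H : Fin n → Fin n → ℝ) (i : Fin n) :
    fluxVec (F.A r) (F.B r) (F.C r) (F.c r) (F.d r) (r ^ p) X Y (starH a p r z X H) i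
      = normFlux a F r z X Y H i := by
  have e : ∀ j, starH a p r z X H i j - (if i = j then r ^ p / (n : ℝ) else 0)
      = H i j - (halfLog a z i * X j + X i * halfLog a z j)
        + if i = j then inner2 (halfLog a z) X else 0 := fun j => by
    simp only [starH]
    split_ifs <;> ring
  simp only [fluxVec, normFlux, e, add_mul, sub_mul, ite_mul, zero_mul, sum_add_distrib, sum_sub_distrib,
    Finset.sum_ite_eq, Finset.mem_univ, if_true]
  simp only [inner2, mul_assoc, ← mul_sum]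
  ring

theorem square_star (F : Five) (hn : n ≠ 0) {D r : ℝ} (hA : F.A r ≠ 0)
    (hM : dimW n a ≠ 0) (z X Y : Fin n → ℝ) (H : Fin n → Fin n → ℝ) :
    square (F.A r) (F.k₁ p q D r) (F.k₂ p q D r) X Y (starH a p r z X H)
      ≤ 2 * (∑ i, ∑ j, shiftH p q D F r H (halfLog a z) X Y
          (shiftT n a p q D F r (inner2 X X) (inner2 X Y)) i j ^ 2)
        + 2 * (extra n a ^ 2 / n) * shiftT n a p q D F r (inner2 X X) (inner2 X Y) ^ 2 := by
  have hn' : (n : ℝ) ≠ 0 := Nat.cast_ne_zero.2 hn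
  set τ := shiftT n a p q D F r (inner2 X X) (inner2 X Y) with hτ
  have eT : dimW n a * τ
      = -(r ^ p) + (F.k₁ p q D r * inner2 X X + F.k₂ p q D r * inner2 X Y) / (2 * F.A r) := by
    rw [hτ, shiftT, mul_div_cancel₀ _ hM]
  have key : ∀ i j, starH a p r z X H i j
      + (F.k₁ p q D r * dev (sym X X) i j + F.k₂ p q D r * dev (sym X Y) i j) / (2 * F.A r)
      = shiftH p q D F r H (halfLog a z) X Y τ i j - if i = j then extra n a * τ / n else 0 := by
    intro i j
    simp only [starH, shiftH, dev, trace_sym]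
    simp only [sym]
    split_ifs with hij
    · subst hij
      have : extra n a * τ = dimW n a * τ - n * τ := by simp [dimW]; ring
      rw [this, eT]
      field_simp
      ring
    · field_simp
      ring
  simp only [square, key]
  calc ∑ i, ∑ j, (shiftH p q D F r H (halfLog a z) X Y τ i j
        - if i = j then extra n a * τ / n else 0) ^ 2
      ≤ ∑ i, ∑ j, (2 * shiftH p q D F r H (halfLog a z) X Y τ i j ^ 2
          + if i = j then 2 * (extra n a * τ / n) ^ 2 else 0) :=
        sum_le_sum fun i _ => sum_le_sum fun j _ => by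
          split_ifs
          · nlinarith [sq_nonneg (shiftH p q D F r H (halfLog a z) X Y τ i j + extra n a * τ / n)]
          · nlinarith [sq_nonneg (shiftH p q D F r H (halfLog a z) X Y τ i j)]
    _ = _ := by
      simp only [sum_add_distrib, ← mul_sum, Finset.sum_ite_eq, Finset.mem_univ, if_true, sum_const,
        card_univ, Fintype.card_fin, nsmul_eq_mul]
      field_simp

theorem restAt_split (F : Five) {D r M₁ : ℝ} (hA : F.A r ≠ 0) (hM : dimW n a ≠ 0) (hM₁ : M₁ ≠ 0)
    (x y g : ℝ) :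
    F.restAt (dimW n a) p q D r x y g = F.restAt M₁ p q D r x y g
      + dimW n a ^ 2 * (1 / dimW n a - 1 / M₁) * (F.A r * shiftT n a p q D F r x y ^ 2) := by
  simp only [Five.restAt, Five.slope, shiftT]
  field_simp
  ring

/-- The power of `U` that multiplies `√r`. -/
theorem exists_phi_le (s : Setting N p q T₁ T₀ U V) {e g y : ℝ} (he : 0 < e)
    (he1 : Orbit.sig p q + e < 1) (he2 : (N - 2) * (Orbit.sig p q + e) < N * Orbit.sig p q)
    (hg : 0 ≤ g) (hy : y ≤ 1 / 2 - g / e) :
    ∃ C, 0 < C ∧ ∀ r ∈ Set.Ioc 0 (Orbit.rtop p q),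
      √r * U (OrbitCert.τ N p q T₁ T₀ U V r) ^ (-g) ≤ C * r ^ y := by
  obtain ⟨C, hC, hle⟩ := exists_ratio_le s he he1 he2
  have hr0 : 0 < Orbit.rtop p q :=
    Real.rpow_pos_of_pos (div_pos (by linarith [s.p_pos]) (by linarith [s.q_pos])) _
  refine ⟨C ^ (g / e) * Orbit.rtop p q ^ (1 / 2 - g / e - y), by positivity, fun r hr => ?_⟩
  have hT := s.τ_mem hr
  have hT1 := s.orbit.T₁_lt.le.trans hT
  have hratio : Orbit.ratio p q U V (OrbitCert.τ N p q T₁ T₀ U V r) = r :=
    (s.τ_spec ⟨hr.1, hr.2.trans_lt s.top_lt⟩).2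
  have h1 := hle _ hT
  rw [hratio] at h1
  have hU := s.U_pos hT1
  have h2 : U (OrbitCert.τ N p q T₁ T₀ U V r) ^ (-g) ≤ C ^ (g / e) * r ^ (-(g / e)) := by
    rw [show -g = e * (-(g / e)) by field_simp, Real.rpow_mul hU.le,
      show C ^ (g / e) * r ^ (-(g / e)) = (r / C) ^ (-(g / e)) by
        rw [Real.div_rpow hr.1.le hC.le, Real.rpow_neg hC.le, div_inv_eq_mul, mul_comm]]
    refine Real.rpow_le_rpow_of_nonpos (div_pos hr.1 hC) ?_ (neg_nonpos.2 (div_nonneg hg he.le))
    rw [div_le_iff₀ hC]; linarith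
  calc √r * U (OrbitCert.τ N p q T₁ T₀ U V r) ^ (-g)
      ≤ √r * (C ^ (g / e) * r ^ (-(g / e))) := mul_le_mul_of_nonneg_left h2 (Real.sqrt_nonneg r)
    _ = C ^ (g / e) * (r ^ (1 / 2 - g / e - y) * r ^ y) := by
      rw [← Real.rpow_add hr.1, sub_add_cancel, sub_eq_add_neg (1 / 2 : ℝ), Real.rpow_add hr.1,
        Real.sqrt_eq_rpow]
      ring
    _ ≤ _ := by
      rw [← mul_assoc]
      refine mul_le_mul_of_nonneg_right (mul_le_mul_of_nonneg_left ?_ (by positivity))
        (Real.rpow_nonneg hr.1.le _)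
      exact Real.rpow_le_rpow hr.1.le hr.2 (by linarith)

/-- The orbit certificate is ample in every smaller weighted dimension. -/
theorem ample_of_orbit (s : Setting N p q T₁ T₀ U V) (R : Rule) {κ : ℝ}
    (hm : Margin N p q T₀ U V R κ) (hd : 0 ≤ R.d) (hd' : R.d * (N - 2) < N * cα N p)
    (hn : 3 ≤ n) (ha : a ≤ 0) (ha2 : -2 < a) (hN4 : 4 ≤ N) (hdim : dimW n a < N) :
    Ample n a p q N R.d (cert N p q T₁ T₀ U V R) := by
  set F := cert N p q T₁ T₀ U V R
  have hN := s.N_pos
  have hM0 := dimW_pos (by omega : 2 ≤ n) ha ha2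
  have hn0 : (0 : ℝ) < n := Nat.cast_pos.2 (by omega)
  set M₀ := dimW n a
  set M₁ := (M₀ + N) / 2 with hM1
  have h01 : M₀ < M₁ := by rw [hM1]; linarith
  have hM10 : 0 < M₁ := hM0.trans h01
  obtain ⟨ε, hε, K, hK⟩ := s.exists_pointwise R hm hM10 (show M₁ < N by rw [hM1]; linarith)
    (by omega : 0 < n)
  -- exponents
  have hα := s.α_pos
  have hβ := s.β_pos
  have hwt := s.wt_eq
  have hδ : 0 < cα N q - cα N p := by
    have : cα N p < cα N q := div_lt_div_of_pos_left hN (by linarith [s.q_pos]) (by linarith [s.lt])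
    linarith
  have hσ : cα N p = cα N q * Orbit.sig p q := by
    have : p + 1 ≠ 0 := by linarith [s.p_pos]
    have : q + 1 ≠ 0 := by linarith [s.q_pos]
    unfold cα Orbit.sig; field_simp
  have hS : 0 < N - 2 := by linarith [s.two_lt]
  set d' := (R.d + N * cα N p / (N - 2)) / 2 with hd'def
  have hdlt : R.d < N * cα N p / (N - 2) := (lt_div_iff₀ hS).2 hd'
  have hd1 : R.d < d' := by rw [hd'def]; linarith
  have hd0 : 0 < d' := hd.trans_lt hd1
  have hd2 : (N - 2) * d' < N * cα N p := by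
    have : d' < N * cα N p / (N - 2) := by rw [hd'def]; linarith
    rw [lt_div_iff₀ hS] at this; linarith
  set se := cα N q / (cα N q - cα N p) + cα N q * N / (2 * d') with hse
  have h1 : 0 < cα N q / (cα N q - cα N p) := div_pos hα hδ
  have h2 : 0 < cα N q * N / (2 * d') := by positivity
  have hs0 : 0 < se := by rw [hse]; linarith
  have he : 0 < 1 / se := one_div_pos.2 hs0
  have he1 : Orbit.sig p q + 1 / se < 1 := by
    have : 1 / se < 1 / (cα N q / (cα N q - cα N p)) := one_div_lt_one_div_of_lt h1 (by rw [hse]; linarith)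
    rw [one_div_div, sub_div, div_self hα.ne', hσ, mul_div_cancel_left₀ _ hα.ne'] at this
    linarith
  have he2 : (N - 2) * (Orbit.sig p q + 1 / se) < N * Orbit.sig p q := by
    have h3 : 1 / se < 1 / (cα N q * N / (2 * d')) := one_div_lt_one_div_of_lt h2 (by rw [hse]; linarith)
    rw [one_div_div] at h3
    have h4 := mul_lt_mul_of_pos_left h3 hS
    have h5 : (N - 2) * (2 * d' / (cα N q * N)) < 2 * Orbit.sig p q := by
      rw [mul_div_assoc', div_lt_iff₀ (by positivity)]
      have : 2 * Orbit.sig p q * (cα N q * N) = 2 * (N * cα N p) := by rw [hσ]; ring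
      linarith
    linarith
  -- the two powers of `U`
  obtain ⟨C₁, hC₁, hφ₁⟩ := exists_phi_le s he he1 he2 (g := R.d / (cα N q * N))
    (y := -(R.d / ((cα N q - cα N p) * N))) (by positivity) (by
      have e : R.d / (cα N q * N) / (1 / se) = R.d / ((cα N q - cα N p) * N) + R.d / d' / 2 := by
        rw [hse]; field_simp
      rw [e]
      have : R.d / d' ≤ 1 := (div_le_one hd0).2 hd1.le
      linarith)
  set k := R.d / (4 * cα N q) / (1 / se)
  obtain ⟨C₂, hC₂, hφ₂⟩ := exists_phi_le s he he1 he2 (g := R.d / (4 * cα N q))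
    (y := -k) (by positivity) (by simp only [k]; linarith)
  -- `U` is bounded
  obtain ⟨B, hB, hUB⟩ : ∃ B, 0 < B ∧ ∀ T, T₀ ≤ T → U T ≤ B := by
    obtain ⟨b, hb⟩ := eventually_atTop.1 (s.orbit.u_to_zero.eventually (eventually_le_nhds zero_lt_one))
    obtain ⟨B, hB⟩ := (isCompact_Icc (a := T₀) (b := max T₀ b)).exists_bound_of_continuousOn
      s.orbit.cont_u.continuousOn
    refine ⟨max B 1, lt_max_of_lt_right one_pos, fun T hT => ?_⟩
    rcases le_or_gt T (max T₀ b) with h | h
    · exact ((le_abs_self _).trans (hB T ⟨hT, h⟩)).trans (le_max_left _ _)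
    · exact (hb T ((le_max_right _ _).trans h.le)).trans (le_max_right _ _)
  set c := M₀ ^ 2 * (1 / M₀ - 1 / M₁) with hc
  have hc0 : 0 < c := mul_pos (pow_pos hM0 2) (sub_pos.2 (one_div_lt_one_div_of_lt hM0 h01))
  set Cq := max 2 (2 * (extra n a ^ 2 / n) / c) with hCq
  have hCq2 : 2 ≤ Cq := le_max_left _ _
  refine ⟨ε * B ^ (-(R.d / cα N q)) / Cq, by positivity, |K| * Cq * max C₁ C₂, k, by positivity,
    fun r hr z X Y H hz hsym htr => ?_⟩
  obtain ⟨hA, hpt⟩ := hK r hr
  have hT := s.τ_mem hr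
  have hU := s.U_pos (s.orbit.T₁_lt.le.trans hT)
  have hrest : 0 ≤ F.restAt M₁ p q (N + R.d) r (inner2 X X) (inner2 X Y) (inner2 Y Y) := by
    have h0 := (hpt X Y fun i j => -((F.k₁ p q (N + R.d) r * dev (sym X X) i j
      + F.k₂ p q (N + R.d) r * dev (sym X Y) i j) / (2 * F.A r))).1
    simp only [show cert N p q T₁ T₀ U V R = F from rfl, square, neg_add_cancel, ne_eq, OfNat.ofNat_ne_zero, not_false_eq_true, zero_pow,
      sum_const_zero, mul_zero, zero_add] at h0
    exact le_trans (mul_nonneg hε.le (Real.rpow_nonneg hU.le _)) h0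
  obtain ⟨hw, hflux⟩ := hpt X Y (starH a p r z X H)
  set P' := F.A r * square (F.A r) (F.k₁ p q (N + R.d) r) (F.k₂ p q (N + R.d) r) X Y (starH a p r z X H)
    + F.restAt M₁ p q (N + R.d) r (inner2 X X) (inner2 X Y) (inner2 Y Y) with hP'
  set w := U (OrbitCert.τ N p q T₁ T₀ U V r) ^ (-(R.d / cα N q)) with hwdef
  set P := normDiv a p q (N + R.d) F r z X Y H with hPdef
  have hle : P' ≤ Cq * P := by
    have hsq := mul_le_mul_of_nonneg_left
      (square_star (p := p) (q := q) F (by omega) (D := N + R.d) hA.ne' hM0.ne' z X Y H) hA.le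
    rw [hPdef, normDiv_eq F (by omega) ha ha2 hA.ne' hz X Y hsym htr,
      restAt_split F hA.ne' hM0.ne' hM10.ne']
    set τ := shiftT n a p q (N + R.d) F r (inner2 X X) (inner2 X Y)
    set S2 := ∑ i, ∑ j, shiftH p q (N + R.d) F r H (halfLog a z) X Y τ i j ^ 2
    have t1 : 0 ≤ F.A r * (extra n a * (radial a z X - τ) ^ 2) :=
      mul_nonneg hA.le (mul_nonneg (extra_nonneg (by omega) ha ha2) (sq_nonneg _))
    have t2 := mul_nonneg hA.le (angular_nonneg (by omega : 2 ≤ n) ha z X)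
    have t3 : 2 * (extra n a ^ 2 / n) ≤ Cq * c := (div_le_iff₀ hc0).1 (le_max_right _ _)
    have t4 := mul_le_mul_of_nonneg_right t3 (mul_nonneg hA.le (sq_nonneg τ))
    have hS2 : 0 ≤ F.A r * S2 :=
      mul_nonneg hA.le (sum_nonneg fun i _ => sum_nonneg fun j _ => sq_nonneg _)
    have t5 := mul_le_mul_of_nonneg_right hCq2 hS2
    have hCq0 : 0 ≤ Cq - 1 := by linarith
    have := mul_nonneg hCq0 hrest
    have := mul_nonneg (show 0 ≤ Cq by linarith) t1
    have := mul_nonneg (show 0 ≤ Cq by linarith) t2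
    simp only [hP']
    linarith
  have hw0 : 0 < w := Real.rpow_pos_of_pos hU _
  have hP'0 : 0 < P' := (mul_pos hε hw0).trans_le hw
  have hP0 : 0 < P := pos_of_mul_pos_right (hP'0.trans_le hle) (by linarith)
  have hlow : ε * B ^ (-(R.d / cα N q)) / Cq ≤ P := by
    rw [div_le_iff₀ (by linarith)]
    refine le_trans (mul_le_mul_of_nonneg_left ?_ hε.le) (hw.trans (hle.trans_eq (mul_comm _ _)))
    exact Real.rpow_le_rpow_of_nonpos hU (hUB _ hT) (neg_nonpos.2 (div_nonneg hd hα.le))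
  have hgen : ∀ (m g y C : ℝ), 3 / 4 ≤ m → m ≤ 1 → -g = -(R.d / cα N q) * (1 - m) →
      √r * U (OrbitCert.τ N p q T₁ T₀ U V r) ^ (-g) ≤ C * r ^ y → C ≤ max C₁ C₂ → ∀ i,
      |normFlux a F r z X Y H i| ≤ |K| * Cq * max C₁ C₂ * r ^ y * P ^ m := by
    intro m g y C hm hm1 hg hφ hC i
    have hf := hflux m hm hm1 i
    rw [fluxVec_star] at hf
    refine hf.trans ?_
    have e1 : w ^ (1 - m) = U (OrbitCert.τ N p q T₁ T₀ U V r) ^ (-g) := by
      rw [hwdef, ← Real.rpow_mul hU.le, hg]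
    have e2 : P' ^ m ≤ Cq * P ^ m := by
      refine (Real.rpow_le_rpow hP'0.le hle (by linarith)).trans ?_
      rw [Real.mul_rpow (by linarith) hP0.le]
      refine mul_le_mul_of_nonneg_right ?_ (Real.rpow_nonneg hP0.le _)
      exact (Real.rpow_le_rpow_of_exponent_le (by linarith) hm1).trans_eq (Real.rpow_one _)
    have hφ' : √r * w ^ (1 - m) ≤ max C₁ C₂ * r ^ y := by
      rw [e1]; exact hφ.trans (mul_le_mul_of_nonneg_right hC (Real.rpow_nonneg hr.1.le _))
    calc K * (√r * w ^ (1 - m)) * P' ^ m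
        ≤ |K| * (√r * w ^ (1 - m)) * P' ^ m := mul_le_mul_of_nonneg_right
          (mul_le_mul_of_nonneg_right (le_abs_self K) (by positivity)) (Real.rpow_nonneg hP'0.le _)
      _ ≤ |K| * (max C₁ C₂ * r ^ y) * (Cq * P ^ m) := by
          refine mul_le_mul (mul_le_mul_of_nonneg_left hφ' (abs_nonneg K)) e2 (Real.rpow_nonneg hP'0.le _) ?_
          exact mul_nonneg (abs_nonneg K) ((mul_nonneg (Real.sqrt_nonneg r) (Real.rpow_nonneg hw0.le _)).trans hφ')
      _ = _ := by ring
  refine ⟨hlow, fun i => ⟨?_, hgen (3 / 4) _ _ _ le_rfl (by norm_num) (by ring) (hφ₂ r hr)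
    (le_max_right _ _) i⟩⟩
  rw [hwt.1, hwt.2.1]
  refine hgen (1 - 1 / N) _ _ _ ?_ ?_ ?_ (hφ₁ r hr) (le_max_left _ _) i
  · have : 1 / N ≤ 1 / 4 := one_div_le_one_div_of_le (by norm_num) hN4
    linarith
  · linarith [one_div_pos.2 hN]
  · field_simp
    ring

end

end Vale.Agent.P100.Weighted
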