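import Mathlib
import Vale.Agent.P100.Local.Cut
import Vale.Agent.P100.Weighted.Ball
import Vale.Agent.P100.Weighted.Bridge
import Vale.Agent.P100.Weighted.Cutoff

/-!
# P100, weighted: the a priori bound `u ^ (1/α) |x| ^ (1 + a/2) ≤ C`

The field is at most `(u/v) ^ e |x| ^ (a (1/N - 1/2))` times the power `1 - 1/N` of its divergence.
On the ball of the local comparison the cut-off bounds the natural radius, and doubling turns that
into the bound at every point.
-/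

namespace Vale.Agent.P100.Weighted

open MeasureTheory Set Filter Topology Finset Function
open Vale.Agent.P098.Cone
open Vale.Agent.P100.Local (cube sqr_gt_of_notMem_cube volume_cube integrable_cube)

noncomputable section

variable {n : ℕ} {a p q N d : ℝ} {u v : (Fin n → ℝ) → ℝ}

/-- The bounds of the field at a point. -/
theorem exists_point_bounds (hn : 3 ≤ n) (ha : a ≤ 0) (ha2 : -2 < a) (hq : 0 < q) (hqp : q < p)
    (hpq : 1 < p * q) (hN : 0 < N) {F : Five} (hF : F.SmoothPos) (hA : Ample n a p q N d F) :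
    ∃ ε > 0, ∃ K k : ℝ, 0 ≤ K ∧ 0 ≤ k ∧ ∀ {u v : (Fin n → ℝ) → ℝ}, WSol a p q u v → ∀ x, x ≠ 0 →
      ε * (wgt a x * scaleAt p q u x ^ (N + d)) ≤ wdiv a p (coefFive p q (N + d) F) u v x
      ∧ ∀ i, |wflux a (coefFive p q (N + d) F) u v i x|
            ≤ K * (u x / v x) ^ (d / ((wt p q 0 - wt p q 1) * N)) * wgt a x ^ (1 / N - 1 / 2)
              * wdiv a p (coefFive p q (N + d) F) u v x ^ (1 - 1 / N)
        ∧ |wflux a (coefFive p q (N + d) F) u v i x|
            ≤ K * ratio p q u v x ^ (-k) * scaleAt p q u x ^ ((N + d) / 4 - 1) * sqr x ^ (-a / 8)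
              * wdiv a p (coefFive p q (N + d) F) u v x ^ (3 / 4 : ℝ) := by
  obtain ⟨ε, hε, K, k, hk, hAm⟩ := hA
  refine ⟨ε, hε, |K|, k, abs_nonneg K, hk, fun {u v} h x hx => ?_⟩
  have hp : 0 < p := hq.trans hqp
  obtain ⟨hα, -⟩ := wt_pos hq hqp.le hpq
  obtain ⟨hl, hr, hz, hH⟩ := h.data ha ha2 hn hq hqp.le hx
  obtain ⟨hlow, hflux⟩ := hAm _ hr (normZ a p q u x) (normU a p q u x) (normV a p q u v x) _ hz hH
    (h.trace_norm hq hqp.le hpq hx)
  obtain ⟨hdiv, hX⟩ := h.scaled (D := N + d) hq hqp.le hpq hF hx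
  set r := ratio p q u v x with hrdef
  set l := scaleAt p q u x with hldef
  set w := wgt a x with hwdef
  set P := normDiv a p q (N + d) F r (normZ a p q u x) (normU a p q u x) (normV a p q u v x)
    (normH a p q u x)
  have hP : 0 < P := hε.trans_le hlow
  have hw : 0 < w := wgt_pos hx
  have hlD : 0 < l ^ (N + d) := Real.rpow_pos_of_pos hl _
  refine ⟨?_, fun i => ?_⟩
  · rw [hdiv]
    calc ε * (w * l ^ (N + d)) ≤ P * (w * l ^ (N + d)) :=
          mul_le_mul_of_nonneg_right hlow (by positivity)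
      _ = _ := by ring
  obtain ⟨h1, h2⟩ := hflux i
  have hpre : 0 ≤ √w * l ^ (N + d - 1) := by positivity
  rw [hX i, abs_mul, abs_of_nonneg hpre, hdiv]
  set δ := wt p q 0 - wt p q 1 with hδdef
  have hδ : δ = wt p q 0 * (1 - sig p q) := by rw [hδdef, show wt p q 1 = wt p q 0 * sig p q from wt_one hp]; ring
  have hδ0 : δ ≠ 0 := by
    rw [hδ]
    refine mul_ne_zero hα.ne' (sub_ne_zero.2 (ne_of_gt ?_))
    rw [sig, div_lt_one (by linarith)]; linarith
  set e := d / (δ * N) with he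
  constructor
  · refine (mul_le_mul_of_nonneg_left (h1.trans (mul_le_mul_of_nonneg_right
      (mul_le_mul_of_nonneg_right (le_abs_self K) (Real.rpow_nonneg hr.1.le _))
      (Real.rpow_nonneg hP.le _))) hpre).trans (le_of_eq ?_)
    have hu := h.pos_u x
    have eu : u x / v x = u x ^ (1 - sig p q) * r⁻¹ := by
      rw [hrdef, ratio, inv_div, Real.rpow_sub hu, Real.rpow_one]
      have := (Real.rpow_pos_of_pos hu (sig p q)).ne'
      field_simp
    have el : l ^ (N + d - 1) = (u x ^ (1 - sig p q)) ^ e * l ^ ((N + d) * (1 - 1 / N)) := by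
      rw [show (u x ^ (1 - sig p q)) ^ e = l ^ (d / N) by
        rw [← Real.rpow_mul hu.le, hldef, scaleAt, ← Real.rpow_mul hu.le]
        congr 1
        rw [he]
        rw [hδ] at hδ0 ⊢
        have := hα.ne'
        have := right_ne_zero_of_mul hδ0
        field_simp, ← Real.rpow_add hl]
      congr 1
      field_simp
      ring
    have ew : √w = w ^ (1 / N - 1 / 2) * w ^ (1 - 1 / N) := by
      rw [← Real.rpow_add hw, Real.sqrt_eq_rpow]
      congr 1
      ring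
    rw [el, ew, eu, Real.mul_rpow (Real.rpow_nonneg hu.le _) (inv_nonneg.2 hr.1.le),
      Real.inv_rpow hr.1.le, ← Real.rpow_neg hr.1.le, Real.mul_rpow (by positivity) hP.le,
      Real.mul_rpow hw.le hlD.le, ← Real.rpow_mul hl.le]
    ring
  · refine (mul_le_mul_of_nonneg_left (h2.trans (mul_le_mul_of_nonneg_right
      (mul_le_mul_of_nonneg_right (le_abs_self K) (Real.rpow_nonneg hr.1.le _))
      (Real.rpow_nonneg hP.le _))) hpre).trans (le_of_eq ?_)
    have hS := sqr_pos hx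
    have ew : √w = sqr x ^ (-a / 8) * w ^ (3 / 4 : ℝ) := by
      rw [hwdef, wgt, ← Real.rpow_mul hS.le, ← Real.rpow_add hS, Real.sqrt_eq_rpow,
        ← Real.rpow_mul hS.le]
      congr 1
      ring
    have el : l ^ (N + d - 1) = l ^ ((N + d) / 4 - 1) * l ^ ((N + d) * (3 / 4)) := by
      rw [← Real.rpow_add hl]
      congr 1
      ring
    rw [el, ew, Real.mul_rpow (by positivity) hP.le, Real.mul_rpow hw.le hlD.le, ← Real.rpow_mul hl.le]
    ring

/-- The cut-off on a ball off the origin. -/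
theorem exists_local_cut (hn : 3 ≤ n) {D : ℝ} (hD : 1 ≤ D) :
    ∃ A, 0 ≤ A ∧ ∀ (X : Fin n → (Fin n → ℝ) → ℝ) (P : (Fin n → ℝ) → ℝ) (b : Fin n → ℝ) (ρ C c s : ℝ),
      0 < ρ → 0 ≤ C → 0 < s → 2 * s ≤ ρ → 0 ≤ c →
      (∀ i, ContinuousOn (X i) {x | x ≠ 0}) → ContinuousOn P {x | x ≠ 0} →
      (∀ φ : (Fin n → ℝ) → ℝ, ContDiff ℝ 1 φ → HasCompactSupport φ →
        tsupport φ ⊆ {x | x ≠ 0} → ∫ x, (φ x * P x + ∑ i, pd φ i x * X i x) = 0) →
      (∀ x, dist2 x b ≤ 2 * ρ → x ≠ 0 ∧ 0 ≤ P x ∧ ∀ i, |X i x| ≤ C * P x ^ (1 - 1 / D)) →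
      (∀ x, dist2 x b ≤ 2 * s → c ≤ P x) →
      c * (2 * s / n) ^ n ≤ A * ρ ^ n * (C / ρ) ^ D := by
  obtain ⟨C0, hC00, hC0⟩ := hole_bound n
  obtain ⟨k, hk⟩ := exists_nat_ge D
  have hk0 : 1 ≤ k := by exact_mod_cast hD.trans hk
  set A1 := (k : ℝ) * n * C0
  refine ⟨2 * 4 ^ n * (4 : ℝ) ^ (D - 1) * A1 ^ D, by positivity,
    fun X P b ρ C c s hρ hC hs hsρ hc hX hPc hid hball hlow => ?_⟩
  have hA1 : 0 ≤ A1 := by positivity
  have hO : IsOpen {x : Fin n → ℝ | x ≠ 0} := isOpen_ne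
  set χ : (Fin n → ℝ) → ℝ := fun x => 1 - hole ρ (x - b)
  have hh : ContDiff ℝ 1 fun x : Fin n → ℝ => hole ρ (x - b) :=
    ((contDiff_hole _).of_le (WithTop.coe_le_coe.2 le_top)).comp (contDiff_id.sub contDiff_const)
  have hχ : ContDiff ℝ 1 χ := contDiff_const.sub hh
  have hχ01 : ∀ x, 0 ≤ χ x ∧ χ x ≤ 1 := fun x => by
    obtain ⟨h1, h2⟩ := hole_mem (n := n) ρ (x - b)
    simp only [χ]; constructor <;> linarith
  set φ : (Fin n → ℝ) → ℝ := fun x => χ x ^ k
  have hφ : ContDiff ℝ 1 φ := hχ.pow k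
  have hφz : ∀ x, 2 * ρ ^ 2 < sqr (x - b) → φ x = 0 := fun x hx => by
    simp [φ, χ, ((hC0 _ hρ (x - b)).2.2.2 hx).1, zero_pow (by omega : k ≠ 0)]
  have hcs : HasCompactSupport φ := HasCompactSupport.intro (K := cube b ρ) isCompact_Icc
    fun x hx => hφz x (sqr_gt_of_notMem_cube hρ.le hx)
  have hsupp : ∀ x ∈ tsupport φ, dist2 x b ≤ 2 * ρ := fun x hx => by
    have h1 : x ∈ {y : Fin n → ℝ | sqr (y - b) ≤ 2 * ρ ^ 2} := by
      refine closure_minimal (fun y hy => ?_)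
        (isClosed_le (continuous_sqr.comp (continuous_id.sub continuous_const)) continuous_const) hx
      show sqr (y - b) ≤ 2 * ρ ^ 2
      exact le_of_not_gt fun hlt => hy (hφz y hlt)
    refine dist2_le (by linarith) (le_trans h1 ?_)
    nlinarith
  have hts : tsupport φ ⊆ {x | x ≠ 0} := fun x hx => (hball x (hsupp x hx)).1
  set F : (Fin n → ℝ) → ℝ := fun x => φ x * P x
  have hFc : Continuous F := continuous_mul_of_tsupport hφ.continuous hO hts hPc
  have hFi : Integrable F := hFc.integrable_of_hasCompactSupport hcs.mul_right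
  have hF0 : ∀ x, 0 ≤ F x := fun x => by
    by_cases hx : x ∈ tsupport φ
    · exact mul_nonneg (pow_nonneg (hχ01 x).1 k) (hball x (hsupp x hx)).2.1
    · simp [F, image_eq_zero_of_notMem_tsupport hx]
  set G : (Fin n → ℝ) → ℝ := fun x => ∑ i, pd φ i x * X i x
  have hGc : Continuous G := continuous_finsetSum _ fun i _ =>
    continuous_mul_of_tsupport (continuous_pd_one hφ i) hO ((tsupport_pd _ _).trans hts) (hX i)
  have hGs : HasCompactSupport G := HasCompactSupport.intro hcs fun x hx =>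
    sum_eq_zero fun i _ => by
      rw [image_eq_zero_of_notMem_tsupport fun h => hx (tsupport_pd _ _ h), zero_mul]
  have hGi : Integrable G := hGc.integrable_of_hasCompactSupport hGs
  have hI := hid φ hφ hcs hts
  rw [integral_add hFi hGi] at hI
  set c1 := (4 : ℝ) ^ (D - 1) * (A1 * C / ρ) ^ D
  have hptw : ∀ x, -G x ≤ F x / 4 + (cube b ρ).indicator (fun _ => c1) x := by
    intro x
    have hc1 : 0 ≤ (cube b ρ).indicator (fun _ => c1) x :=
      indicator_nonneg (fun _ _ => by positivity) x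
    by_cases hx : x ∈ tsupport φ
    swap
    · have : G x = 0 := sum_eq_zero fun i _ => by
        rw [image_eq_zero_of_notMem_tsupport fun h => hx (tsupport_pd _ _ h), zero_mul]
      linarith [hF0 x]
    obtain ⟨-, hgχ, -, hχ'⟩ := hC0 _ hρ (x - b)
    obtain ⟨-, hP0, hXb⟩ := hball x (hsupp x hx)
    have epd : ∀ i, pd φ i x = -(k * χ x ^ (k - 1) * pd (hole ρ) i (x - b)) := fun i => by
      rw [show φ = fun z => (fun t : ℝ => t ^ k) (χ z) from rfl,
        pd_comp (hasDerivAt_pow k _) (hχ.differentiable one_ne_zero x)]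
      simp only [χ]
      rw [pd_sub (differentiableAt_const _) (hh.differentiable one_ne_zero x), pd_const, pd_translate]
      ring
    have hG : -G x ≤ ∑ i, k * χ x ^ (k - 1) * |pd (hole ρ) i (x - b)| * |X i x| := by
      rw [← sum_neg_distrib]
      refine sum_le_sum fun i _ => ?_
      rw [epd i, neg_mul, neg_neg]
      refine (le_abs_self _).trans (le_of_eq ?_)
      rw [abs_mul, abs_mul, abs_of_nonneg (mul_nonneg (Nat.cast_nonneg k) (pow_nonneg (hχ01 x).1 _))]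
    refine hG.trans ?_
    rcases le_or_gt (sqr (x - b)) (2 * ρ ^ 2) with hm | hm
    swap
    · simp only [(hχ' hm).2.2, abs_zero, mul_zero, zero_mul, sum_const_zero]
      linarith [hF0 x]
    have hmB : x ∈ cube b ρ := by
      by_contra h
      linarith [sqr_gt_of_notMem_cube hρ.le h]
    rw [indicator_of_mem hmB]
    have h1 := young_sum (G := fun i => pd (hole ρ) i (x - b)) (X := fun i => X i x) (L := C0 / ρ)
      (B := C) (hχ01 x).1 (hχ01 x).2 hD hk hP0 (div_nonneg hC00 hρ.le) hC hgχ hXb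
    refine h1.trans (le_of_eq ?_)
    simp only [F, φ, c1, A1]
    congr 3
    ring
  have hle : ∫ x, -G x ≤ (∫ x, F x) / 4 + (4 * ρ) ^ n * c1 := by
    refine (integral_mono hGi.neg ((hFi.div_const 4).add (integrable_cube b ρ c1)) hptw).trans ?_
    simp only [Pi.add_apply]
    rw [integral_add (hFi.div_const 4) (integrable_cube _ _ _), integral_div, volume_cube _ hρ.le]
  rw [integral_neg] at hle
  -- from below
  set B := Icc (fun i => b i - s / n) fun i => b i + s / n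
  have hn0 : (0 : ℝ) < n := Nat.cast_pos.2 (by omega)
  have hB : ∀ x ∈ B, sqr (x - b) ≤ s ^ 2 := fun x hx => by
    calc sqr (x - b) ≤ ∑ _i : Fin n, (s / n) ^ 2 := sum_le_sum fun i _ => by
          have := hx.1 i; have := hx.2 i
          simp only [Pi.sub_apply]
          nlinarith
      _ = s ^ 2 / n := by simp; field_simp
      _ ≤ s ^ 2 := div_le_self (sq_nonneg s) (by exact_mod_cast (show 1 ≤ n by omega))
  have hpt : ∀ x, B.indicator (fun _ => c) x ≤ F x := fun x => by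
    by_cases hx : x ∈ B
    · rw [indicator_of_mem hx]
      have h1 : φ x = 1 := by
        simp [φ, χ, (hC0 _ hρ (x - b)).2.2.1 (lt_of_le_of_lt (hB x hx) (by nlinarith))]
      simp only [F, h1, one_mul]
      exact hlow x (dist2_le (by linarith) ((hB x hx).trans (by nlinarith)))
    · rw [indicator_of_notMem hx]; exact hF0 x
  have hint : ∫ x, B.indicator (fun _ => c) x = (2 * s / n) ^ n * c := by
    rw [integral_indicator measurableSet_Icc, setIntegral_const, smul_eq_mul, measureReal_def,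
      Real.volume_Icc_pi_toReal (fun i => by linarith [div_nonneg hs.le hn0.le])]
    simp
    left
    ring
  have hge : (2 * s / n) ^ n * c ≤ ∫ x, F x := by
    rw [← hint]
    exact integral_mono ((integrable_indicator_iff measurableSet_Icc).2
      (integrableOn_const isCompact_Icc.measure_lt_top.ne)) hFi hpt
  calc c * (2 * s / n) ^ n ≤ 2 * ((4 * ρ) ^ n * c1) := by
        have : 0 ≤ (4 * ρ) ^ n * c1 := by positivity
        linarith
    _ = _ := by
      simp only [c1]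
      rw [mul_div_assoc, Real.mul_rpow hA1 (div_nonneg hC hρ.le), mul_pow]
      ring

/-- The natural radius of a ball on which `u` at most doubles is bounded. -/
theorem exists_radius_bound (hn : 3 ≤ n) (ha : a ≤ 0) (ha2 : -2 < a) (hq : 0 < q) (hqp : q < p)
    (hpq : 1 < p * q) (hnN : (n : ℝ) < N) (hd : 0 ≤ d) {F : Five}
    (hF : F.SmoothPos) (hA : Ample n a p q N d F) :
    ∃ T₀, 0 < T₀ ∧ ∀ {u v : (Fin n → ℝ) → ℝ}, WSol a p q u v → ∀ (x₁ : Fin n → ℝ) (d₁ : ℝ),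
      0 < d₁ → 2 * d₁ ≤ dist2 x₁ 0 →
      (∀ y, dist2 y x₁ ≤ d₁ → u y ≤ 2 ^ wt p q 0 * u x₁) →
        scaleAt p q u x₁ * √(wgt a x₁) * d₁ ≤ T₀ := by
  have hp : 0 < p := hq.trans hqp
  have hn3 : (3 : ℝ) ≤ n := by exact_mod_cast hn
  have hN : 0 < N := by linarith
  obtain ⟨hα, -⟩ := wt_pos hq hqp.le hpq
  have hσ : sig p q < 1 := by rw [sig, div_lt_one (by linarith)]; linarith
  have hδ : 0 < wt p q 0 - wt p q 1 := by
    rw [show wt p q 1 = wt p q 0 * sig p q from wt_one hp, ← mul_one_sub]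
    exact mul_pos hα (sub_pos.2 hσ)
  obtain ⟨θ, c₁, C₁, hθ, hθ1, hc₁, hC₁, hball⟩ := exists_ball_ratio (n := n) hn ha ha2 hq hqp.le hpq
    (Real.one_le_rpow one_le_two hα.le : (1 : ℝ) ≤ 2 ^ wt p q 0)
  obtain ⟨ε, hε, K, k, hK, -, hpt⟩ := exists_point_bounds hn ha ha2 hq hqp hpq hN hF hA
  obtain ⟨A, hA0, hcut⟩ := exists_local_cut (n := n) hn (show 1 ≤ N by linarith)
  set e := d / ((wt p q 0 - wt p q 1) * N) with hedef
  have he : 0 ≤ e := div_nonneg hd (mul_pos hδ hN).le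
  have h2a : (0 : ℝ) < 2 ^ a := Real.rpow_pos_of_pos two_pos _
  set k₁ := ε * 2 ^ a * (c₁ ^ (wt p q 0)⁻¹) ^ (N + d) * (2 * (θ / 4) / n) ^ n
  have hk₁ : 0 < k₁ := by
    have : (0 : ℝ) < n := by linarith
    positivity
  set k₂ := A * (K * C₁ ^ e * (2 ^ a) ^ (1 / N - 1 / 2)) ^ N
  set s₀ := min (2 / (q * ((n : ℝ) + 4))) (1 / 2)
  have hs₀ : 0 < s₀ := lt_min (by positivity) (by norm_num)
  set R₀ := 2 * (k₂ / k₁) ^ (1 / (N - n))
  refine ⟨max 4 (R₀ ^ s₀⁻¹), lt_max_of_lt_left (by norm_num), fun {u v} h x₁ d₁ hd₁ hfar hu => ?_⟩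
  set l₁ := scaleAt p q u x₁ with hl₁def
  set w₁ := wgt a x₁ with hw₁def
  set T := l₁ * √w₁ * d₁ with hTdef
  rcases le_or_gt T 4 with hT4 | hT4
  · exact hT4.trans (le_max_left _ _)
  obtain ⟨hlow, hup⟩ := hball h x₁ d₁ hfar (by rw [← scaleAt]; exact hT4.le) hu
  have hx₁ : x₁ ≠ 0 := fun e => by
    rw [e, show dist2 (0 : Fin n → ℝ) 0 = 0 by simp [dist2, sqr_zero]] at hfar
    linarith
  have hl₁ : 0 < l₁ := Real.rpow_pos_of_pos (h.pos_u x₁) _
  have hw₁ : 0 < w₁ := wgt_pos hx₁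
  set η := (l₁ * √w₁)⁻¹ with hηdef
  have hη : 0 < η := by positivity
  set R := T ^ s₀ with hRdef
  have hR1 : 1 ≤ R := Real.one_le_rpow (by linarith) hs₀.le
  have hTd : d₁ = T * η := by rw [hTdef, hηdef]; field_simp
  have hRT : R ≤ T := (Real.rpow_le_rpow_of_exponent_le (by linarith)
    ((min_le_right _ _).trans (by norm_num))).trans_eq (Real.rpow_one T)
  have hRd : R * η ≤ d₁ := by rw [hTd]; exact mul_le_mul_of_nonneg_right hRT hη.le
  set Kc := coefFive p q (N + d) F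
  have hKc : Kc.Smooth := coefFive_smooth hF
  set C := K * (C₁ * u x₁ ^ (1 - sig p q)) ^ e * (2 ^ a * w₁) ^ (1 / N - 1 / 2)
  have hCnn : 0 ≤ C := by
    have := h.pos_u x₁
    positivity
  set c := ε * (2 ^ a * w₁ * (c₁ ^ (wt p q 0)⁻¹ * l₁) ^ (N + d))
  have hgeo : ∀ y, dist2 y x₁ ≤ R * η → y ≠ 0 ∧ 2 ^ a * w₁ ≤ wgt a y := fun y hy => by
    obtain ⟨hy0, hy1, -⟩ := off_ball (a := a) ha hd₁ hfar (hy.trans hRd)
    exact ⟨hy0, hy1.trans (floorW_le ha hy0)⟩
  have hsize : θ * η ≤ R * η := mul_le_mul_of_nonneg_right (hθ1.trans hR1) hη.le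
  have key := hcut (fun i => wflux a Kc u v i) (wdiv a p Kc u v) x₁ (R * η / 2) C c (θ / 4 * η)
    (by positivity) hCnn (by positivity) (by linarith) (by positivity)
    (fun i => h.continuousOn_wflux hKc i) (h.continuousOn_wdiv hKc)
    (fun φ hφ hc hs => h.identity hKc hφ hc hs) (fun y hy => ?_) fun y hy => ?_
  rotate_left
  · obtain ⟨hy0, hyw⟩ := hgeo y (by linarith)
    obtain ⟨h1, h2⟩ := hpt h y hy0
    have hP : 0 ≤ wdiv a p Kc u v y := le_trans (mul_nonneg hε.le (mul_nonneg (wgt_pos hy0).le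
      (Real.rpow_nonneg (Real.rpow_nonneg (h.pos_u y).le _) _))) h1
    refine ⟨hy0, hP, fun i => (h2 i).1.trans (mul_le_mul_of_nonneg_right ?_ (Real.rpow_nonneg hP _))⟩
    refine mul_le_mul (mul_le_mul_of_nonneg_left (Real.rpow_le_rpow
        (div_pos (h.pos_u y) (h.pos_v y)).le ?_ he) hK)
      (Real.rpow_le_rpow_of_nonpos (by positivity) hyw ?_) (Real.rpow_nonneg (wgt_pos hy0).le _) ?_
    · rw [div_le_iff₀ (h.pos_v y)]
      exact hup y (by show dist2 y x₁ ≤ R * η; linarith)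
    · have : 1 / N ≤ 1 / 2 := one_div_le_one_div_of_le two_pos (by linarith)
      linarith
    · have := h.pos_u x₁
      positivity
  · obtain ⟨hy0, hyw⟩ := hgeo y (by linarith [mul_pos hθ hη])
    refine le_trans (mul_le_mul_of_nonneg_left (mul_le_mul hyw (Real.rpow_le_rpow (by positivity) ?_
      (by linarith)) (by positivity) (wgt_pos hy0).le) hε.le) (hpt h y hy0).1
    have h1 := hlow y (by show dist2 y x₁ ≤ θ * η; linarith [mul_pos hθ hη])
    rw [hl₁def, scaleAt, scaleAt, ← Real.mul_rpow hc₁.le (h.pos_u x₁).le]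
    exact Real.rpow_le_rpow (mul_pos hc₁ (h.pos_u x₁)).le h1 (inv_pos.2 hα).le
  -- the powers cancel
  have hC : C = K * C₁ ^ e * (2 ^ a) ^ (1 / N - 1 / 2) * (l₁ ^ (d / N) * w₁ ^ (1 / N - 1 / 2)) := by
    have : (u x₁ ^ (1 - sig p q)) ^ e = l₁ ^ (d / N) := by
      rw [← Real.rpow_mul (h.pos_u x₁).le, hl₁def, scaleAt, ← Real.rpow_mul (h.pos_u x₁).le]
      congr 1
      rw [hedef, show wt p q 1 = wt p q 0 * sig p q from wt_one hp]
      have := hα.ne'
      have : 1 - sig p q ≠ 0 := by linarith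
      field_simp
    simp only [C]
    rw [Real.mul_rpow hC₁.le (Real.rpow_nonneg (h.pos_u x₁).le _), this, Real.mul_rpow h2a.le hw₁.le]
    ring
  set W := w₁ * l₁ ^ (N + d) * η ^ n with hW
  have hW0 : 0 < W := by positivity
  have eL : c * (2 * (θ / 4 * η) / n) ^ n = k₁ * W := by
    simp only [c, k₁, W]
    rw [Real.mul_rpow (Real.rpow_nonneg hc₁.le _) hl₁.le,
      show 2 * (θ / 4 * η) / (n : ℝ) = 2 * (θ / 4) / n * η by ring, mul_pow]
    ring
  have eR : A * (R * η / 2) ^ n * (C / (R * η / 2)) ^ N = k₂ * W * ((R / 2) ^ n / (R / 2) ^ N) := by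
    have hR2 : 0 < R / 2 := by linarith
    rw [hC, show R * η / 2 = R / 2 * η by ring, Real.div_rpow (by positivity) (by positivity),
      Real.mul_rpow (by positivity) (by positivity), Real.mul_rpow hR2.le hη.le, mul_pow]
    simp only [k₂, W]
    have e1 : (l₁ ^ (d / N) * w₁ ^ (1 / N - 1 / 2)) ^ N / η ^ N = w₁ * l₁ ^ (N + d) := by
      rw [hηdef, Real.inv_rpow (by positivity), div_inv_eq_mul, Real.mul_rpow (by positivity) (by positivity),
        ← Real.rpow_mul hl₁.le, ← Real.rpow_mul hw₁.le, Real.mul_rpow hl₁.le (Real.sqrt_nonneg _),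
        Real.sqrt_eq_rpow, ← Real.rpow_mul hw₁.le,
        show l₁ ^ (d / N * N) * w₁ ^ ((1 / N - 1 / 2) * N) * (l₁ ^ N * w₁ ^ (1 / 2 * N))
          = (w₁ ^ ((1 / N - 1 / 2) * N) * w₁ ^ (1 / 2 * N)) * (l₁ ^ N * l₁ ^ (d / N * N)) by ring,
        ← Real.rpow_add hw₁, ← Real.rpow_add hl₁, div_mul_cancel₀ d hN.ne',
        show (1 / N - 1 / 2) * N + 1 / 2 * N = 1 by field_simp; ring, Real.rpow_one]
    rw [← e1]
    ring
  rw [eL, eR] at key
  have hR2 : 0 < R / 2 := by linarith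
  have h3 : (R / 2) ^ (N - n) ≤ k₂ / k₁ := by
    rw [Real.rpow_sub hR2, Real.rpow_natCast, div_le_div_iff₀ (by positivity) hk₁]
    have h4 : k₁ ≤ k₂ * ((R / 2) ^ n / (R / 2) ^ N) := by
      refine le_of_mul_le_mul_right ?_ hW0
      linarith
    rw [mul_div_assoc', le_div_iff₀ (by positivity)] at h4
    linarith
  have h5 : R ≤ R₀ := by
    have h6 := Real.rpow_le_rpow (by positivity) h3 (one_div_pos.2 (sub_pos.2 hnN)).le
    rw [← Real.rpow_mul hR2.le, mul_one_div_cancel (sub_ne_zero.2 hnN.ne'), Real.rpow_one] at h6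
    simp only [R₀]
    linarith
  refine le_trans ?_ (le_max_right _ _)
  have h7 := Real.rpow_le_rpow (zero_le_one.trans hR1) h5 (inv_pos.2 hs₀).le
  rwa [hRdef, Real.rpow_rpow_inv (by linarith) hs₀.ne'] at h7

/-- Doubling: the a priori bound. -/
theorem exists_apriori (hn : 3 ≤ n) (ha : a ≤ 0) (ha2 : -2 < a) (hq : 0 < q) (hqp : q < p)
    (hpq : 1 < p * q) (hnN : (n : ℝ) < N) (hd : 0 ≤ d) {F : Five}
    (hF : F.SmoothPos) (hA : Ample n a p q N d F) :
    ∃ C, ∀ {u v : (Fin n → ℝ) → ℝ}, WSol a p q u v → ∀ x, x ≠ 0 →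
      scaleAt p q u x * √(wgt a x) * dist2 x 0 ≤ C := by
  obtain ⟨T₀, hT₀, hrad⟩ := exists_radius_bound hn ha ha2 hq hqp hpq hnN hd hF hA
  obtain ⟨hα, -⟩ := wt_pos hq hqp.le hpq
  have h2a : (0 : ℝ) < 2 ^ a := Real.rpow_pos_of_pos two_pos _
  refine ⟨4 * T₀ / √(2 ^ a), fun {u v} h x₀ hx₀ => ?_⟩
  set l := scaleAt p q u
  have hlc : Continuous l := h.cont_u.rpow_const fun _ => Or.inr (inv_pos.2 hα).le
  have hl : ∀ x, 0 < l x := fun x => Real.rpow_pos_of_pos (h.pos_u x) _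
  set ρ := dist2 x₀ 0 / 2 with hρdef
  have h00 : 0 < dist2 x₀ 0 := by
    rw [dist2, sub_zero]; exact Real.sqrt_pos.2 (sqr_pos hx₀)
  have hρ : 0 < ρ := by rw [hρdef]; linarith
  have hdc : Continuous fun x : Fin n → ℝ => dist2 x x₀ :=
    (continuous_sqr.comp (continuous_id.sub continuous_const)).sqrt
  have hS : IsCompact {x : Fin n → ℝ | dist2 x x₀ ≤ ρ} := by
    refine (isCompact_Icc (a := fun i => x₀ i - 2 * ρ) (b := fun i => x₀ i + 2 * ρ)).of_isClosed_subset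
      (isClosed_le hdc continuous_const) fun x (hx : dist2 x x₀ ≤ ρ) => ?_
    refine mem_box (x := x) (a := x₀) (R := 2 * ρ) (by linarith) ?_
    have e : dist2 x x₀ ^ 2 = sqr (x - x₀) := Real.sq_sqrt (sqr_nonneg _)
    rw [← e]
    exact pow_le_pow_left₀ (dist2_nonneg _ _) (by linarith) 2
  obtain ⟨x₁, hx₁, hmax⟩ := hS.exists_isMaxOn ⟨x₀, show dist2 x₀ x₀ ≤ ρ by simp [dist2, sqr_zero, hρ.le]⟩
    (f := fun x => l x * (ρ - dist2 x x₀)) (hlc.mul (continuous_const.sub hdc)).continuousOn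
  set d₁ := (ρ - dist2 x₁ x₀) / 2 with hd₁def
  have h0 : l x₀ * ρ ≤ l x₁ * (2 * d₁) := by
    have := hmax (show x₀ ∈ {x : Fin n → ℝ | dist2 x x₀ ≤ ρ} by simp [dist2, sqr_zero, hρ.le])
    simp only [Set.mem_setOf_eq, show dist2 x₀ x₀ = 0 by simp [dist2, sqr_zero], sub_zero] at this
    rw [hd₁def]; linarith
  have hd₁ : 0 < d₁ := by
    have h2 := (pos_iff_pos_of_mul_pos (lt_of_lt_of_le (mul_pos (hl x₀) hρ) h0)).1 (hl x₁)
    linarith
  have t1 := dist2_triangle x₀ x₁ 0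
  have t2 := dist2_triangle x₁ x₀ 0
  rw [dist2_comm x₀ x₁] at t1
  have hu : ∀ y, dist2 y x₁ ≤ d₁ → u y ≤ 2 ^ wt p q 0 * u x₁ := fun y hy => by
    have t3 := dist2_triangle y x₁ x₀
    have hy0 : dist2 y x₀ ≤ ρ := by rw [hd₁def] at hy hd₁; linarith
    have h2 : l y * (ρ - dist2 y x₀) ≤ l x₁ * (ρ - dist2 x₁ x₀) := hmax hy0
    have h3 : l y ≤ 2 * l x₁ := by
      refine le_of_mul_le_mul_right ?_ hd₁
      calc l y * d₁ ≤ l y * (ρ - dist2 y x₀) :=
            mul_le_mul_of_nonneg_left (by rw [hd₁def] at hy ⊢; linarith) (hl y).le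
        _ ≤ l x₁ * (ρ - dist2 x₁ x₀) := h2
        _ = _ := by rw [hd₁def]; ring
    have h4 := Real.rpow_le_rpow (hl y).le h3 hα.le
    rw [Real.mul_rpow two_pos.le (hl x₁).le] at h4
    simp only [l, scaleAt] at h4
    rwa [Real.rpow_inv_rpow (h.pos_u y).le hα.ne',
      Real.rpow_inv_rpow (h.pos_u x₁).le hα.ne'] at h4
  have hmem : dist2 x₁ x₀ ≤ ρ := hx₁
  have hnn := dist2_nonneg x₁ x₀
  have hfar : 2 * d₁ ≤ dist2 x₁ 0 := by rw [hd₁def]; linarith
  have hr := hrad h x₁ d₁ hd₁ hfar hu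
  have hx₁0 : x₁ ≠ 0 := fun e => by
    rw [e, show dist2 (0 : Fin n → ℝ) 0 = 0 by simp [dist2, sqr_zero]] at hfar
    linarith
  have hw : 2 ^ a * wgt a x₀ ≤ wgt a x₁ := by
    have h2 : sqr x₁ ≤ 4 * sqr x₀ := by
      rw [← dist2_zero_sq, ← dist2_zero_sq]
      have := pow_le_pow_left₀ (dist2_nonneg x₁ 0) (by linarith : dist2 x₁ 0 ≤ 2 * dist2 x₀ 0) 2
      linarith
    refine le_of_eq_of_le ?_ (Real.rpow_le_rpow_of_nonpos (sqr_pos hx₁0) h2 (by linarith))
    rw [Real.mul_rpow (by norm_num) (sqr_nonneg _), show (4 : ℝ) = 2 ^ (2 : ℝ) by norm_num,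
      ← Real.rpow_mul two_pos.le, show (2 : ℝ) * (a / 2) = a by ring]
    rfl
  have hsq : √(2 ^ a) * √(wgt a x₀) ≤ √(wgt a x₁) := by
    rw [← Real.sqrt_mul h2a.le]; exact Real.sqrt_le_sqrt hw
  rw [le_div_iff₀ (Real.sqrt_pos.2 h2a)]
  calc l x₀ * √(wgt a x₀) * dist2 x₀ 0 * √(2 ^ a) = 2 * (l x₀ * ρ) * (√(2 ^ a) * √(wgt a x₀)) := by
        rw [hρdef]; ring
    _ ≤ 2 * (l x₁ * (2 * d₁)) * √(wgt a x₁) :=
        mul_le_mul (mul_le_mul_of_nonneg_left h0 two_pos.le) hsq (by positivity)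
          (by have := hl x₁; positivity)
    _ = 4 * (l x₁ * √(wgt a x₁) * d₁) := by ring
    _ ≤ _ := by linarith

end

end Vale.Agent.P100.Weighted
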