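import Mathlib
import Vale.Agent.P100.Weighted.Apriori
import Vale.Agent.P100.Weighted.General

/-!
# P100, weighted: no solution from an ample certificate

The a priori bound makes the solution bounded, then `u ≤ Λ v` everywhere, and the cut-off in the
effective dimension finishes the proof.
-/

namespace Vale.Agent.P100.Weighted

open MeasureTheory Set Filter Topology Finset Function
open Vale.Agent.P098.Cone

noncomputable section

variable {n : ℕ} {a p q N d : ℝ} {u v : (Fin n → ℝ) → ℝ}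

/-- Where `v ≤ V` everywhere, `u ≤ Λ v` everywhere. -/
theorem WSol.global_below (h : WSol a p q u v) (ha : a ≤ 0) (ha2 : -2 < a) (hn : 3 ≤ n) (hq : 0 < q)
    (hqp : q ≤ p) {V : ℝ} (hV : 0 < V) (hv : ∀ y, v y ≤ V) (x : Fin n → ℝ) :
    u x ≤ lam p q V * v x := by
  have hp : 0 < p := hq.trans_le hqp
  set Λ := lam p q V with hΛdef
  have hΛ : 0 < Λ := Real.rpow_pos_of_pos hV _
  have hΛq : Λ ^ (q + 1) = V ^ (p - q) := by
    rw [hΛdef, lam, ← Real.rpow_mul hV.le, div_mul_cancel₀ _ (by linarith)]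
  have hO : IsOpen {y : Fin n → ℝ | y ≠ 0} := isOpen_ne
  set w : (Fin n → ℝ) → ℝ := fun y => u y - Λ * v y with hwdef
  have hΛv : ContDiffOn ℝ 2 (fun y => Λ * v y) {y | y ≠ 0} := contDiffOn_const.mul h.smooth_v
  have hw : ContDiffOn ℝ 2 w {y | y ≠ 0} := h.smooth_u.sub hΛv
  have hwc : Continuous w := h.cont_u.sub (continuous_const.mul h.cont_v)
  have hlap : ∀ y, y ≠ 0 → 0 < w y → 0 ≤ lap w y := by
    intro y hy hwy
    have hu := h.pos_u y
    have hvy := h.pos_v y
    have hlt : Λ * v y < u y := by simp only [w, sub_pos] at hwy; exact hwy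
    rw [hwdef, lap_sub hO h.smooth_u hΛv hy, lap_comp (θ := fun t => Λ * t) hO h.smooth_v hy
      (.of_forall fun t => (hasDerivAt_id' t).const_mul Λ) (hasDerivAt_const _ _),
      h.eq_u y hy, h.eq_v y hy]
    have key : v y ^ p ≤ Λ * u y ^ q := by
      have h1 : v y ^ p = v y ^ (p - q) * v y ^ q := by rw [← Real.rpow_add hvy, sub_add_cancel]
      have h2 : v y ^ (p - q) ≤ Λ ^ (q + 1) := by
        rw [hΛq]; exact Real.rpow_le_rpow hvy.le (hv y) (by linarith)
      rw [h1]
      refine le_trans (mul_le_mul_of_nonneg_right h2 (Real.rpow_nonneg hvy.le q)) ?_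
      rw [Real.rpow_add hΛ, Real.rpow_one, mul_comm (Λ ^ q), mul_assoc, ← Real.mul_rpow hΛ.le hvy.le]
      exact mul_le_mul_of_nonneg_left (Real.rpow_le_rpow (mul_pos hΛ hvy).le hlt.le hq.le) hΛ.le
    have := mul_nonneg (wgt_pos (a := a) hy).le (sub_nonneg.2 key)
    simp only [mul_one, zero_mul, add_zero]
    linarith
  have hsup : PunctSuper (fun y => -flat (w y)) fun _ => 0 := by
    refine ⟨(contDiff_flat.continuous.comp hwc).neg,
      (contDiff_flat.comp_contDiffOn hw).neg, continuous_const, fun y hy => ?_⟩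
    rw [lap_comp (θ := fun s => -flat s) hO hw hy
      (.of_forall fun t => (hasDerivAt_flat t).neg) (hasDerivAt_flat' (w y)).neg]
    rw [neg_zero]
    rcases le_or_gt (w y) 0 with hwy | hwy
    · simp [expNegInvGlue.zero_of_nonpos hwy]
    · have hg := expNegInvGlue.nonneg (w y)
      have := hlap y hy hwy
      have hinv : 0 < (w y)⁻¹ := inv_pos.2 hwy
      have a1 : 0 ≤ (1 + (w y)⁻¹) * expNegInvGlue (w y) * lap w y := by positivity
      have a2 : 0 ≤ (w y)⁻¹ ^ 3 * expNegInvGlue (w y) * ∑ i, pd w i y ^ 2 :=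
        mul_nonneg (by positivity) (sum_nonneg fun i _ => sq_nonneg _)
      linarith
  by_contra hcon
  push Not at hcon
  have hpos : 0 < flat (w x) := mul_pos (sub_pos.2 hcon) (expNegInvGlue.pos_of_pos (sub_pos.2 hcon))
  obtain ⟨R, hR, hlt⟩ := exists_mean_lt_of_zero (h.super_u ha hp.le) hn
    (fun y => mul_nonneg (soft_pos a y).le (Real.rpow_nonneg (h.pos_v y).le p))
    (fun y => (h.pos_u y).le) (fun e he => h.symm.exists_mean_lt ha ha2 hq hp hn he) x
    (mul_pos hpos (mass_pos n 2 one_le_two))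
  have hle := hsup.mean_le hn (fun _ => le_rfl) x hR.le
  have hcm : mean (fun y => flat (w y)) x R ≤ mean u x R := by
    refine integral_mono ?_ ?_ fun y => mul_le_mul_of_nonneg_right ?_ (posPow_nonneg _ _)
    · simpa using integrable_weight (f := fun y => flat (w (x + R • y)))
        ((contDiff_flat.continuous.comp hwc).comp (by fun_prop)) (0 : Fin n → ℝ) zero_le_one 2
        one_le_two
    · simpa using integrable_weight (f := fun y => u (x + R • y)) (h.cont_u.comp (by fun_prop))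
        (0 : Fin n → ℝ) zero_le_one 2 one_le_two
    · exact flat_le (sub_le_self _ (mul_nonneg hΛ.le (h.pos_v _).le)) (h.pos_u _).le
  simp only [mean, neg_mul, integral_neg] at hle
  simp only [mean] at hcm hlt
  linarith

/-- A ball around the origin is compact. -/
theorem bound_near {f : (Fin n → ℝ) → ℝ} (hf : Continuous f) :
    ∃ B, ∀ x : Fin n → ℝ, sqr x ≤ 4 → f x ≤ B := by
  obtain ⟨B, hB⟩ := (isCompact_Icc (a := fun _ : Fin n => -(2 : ℝ)) (b := fun _ => 2)
    ).exists_bound_of_continuousOn hf.continuousOn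
  refine ⟨B, fun x hx => (le_abs_self _).trans (hB x ?_)⟩
  have := mem_box (x := x) (a := 0) (R := 2) (by norm_num) (by rw [sub_zero]; linarith)
  simpa using this

/-- No solution from an ample certificate. -/
theorem WSol.false_of_ample (h : WSol a p q u v) (hn : 3 ≤ n) (ha : a ≤ 0) (ha2 : -2 < a)
    (hn4 : 4 + a < n) (hq : 0 < q) (hqp : q < p) (hpq : 1 < p * q) (hdim : dimW n a < N) (hd : 0 ≤ d)
    {F : Five} (hF : F.SmoothPos) (hA : Ample n a p q N d F) : False := by
  have hp : 0 < p := hq.trans hqp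
  have hn3 : (3 : ℝ) ≤ n := by exact_mod_cast hn
  have hext := extra_nonneg (by omega : 2 ≤ n) ha ha2
  have hnN : (n : ℝ) < N := lt_of_le_of_lt (by simp only [dimW]; linarith) hdim
  have hdim' : 2 * ((n : ℝ) + a) / (2 + a) < N := by rw [← dimW_eq ha2]; exact hdim
  have hN4 : 4 < N := by
    refine lt_trans ?_ hdim'
    rw [lt_div_iff₀ (by linarith)]
    linarith
  have hN : 0 < N := by linarith
  obtain ⟨hα, -⟩ := wt_pos hq hqp.le hpq
  obtain ⟨C, hC⟩ := exists_apriori hn ha ha2 hq hqp hpq hnN hd hF hA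
  have hC' := hC h
  -- bounded
  obtain ⟨B₀, hB₀⟩ := bound_near h.cont_u
  have hlC : ∀ x, 4 < sqr x → scaleAt p q u x ≤ |C| := fun x hx => by
    have hx0 : x ≠ 0 := fun e => by rw [e, sqr_zero] at hx; linarith
    refine le_trans ?_ ((hC' x hx0).trans (le_abs_self C))
    rw [mul_assoc]
    refine le_mul_of_one_le_right (Real.rpow_nonneg (h.pos_u x).le _) ?_
    rw [sqrt_wgt hx0, dist2, sub_zero, Real.sqrt_eq_rpow, ← Real.rpow_add (sqr_pos hx0)]
    exact Real.one_le_rpow (by linarith) (by linarith)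
  set L := max (max B₀ (|C| ^ wt p q 0)) 1
  have hL0 : 0 < L := lt_max_of_lt_right one_pos
  have hL : ∀ x, u x ≤ L := fun x => by
    rcases le_or_gt (sqr x) 4 with hx | hx
    · exact (hB₀ x hx).trans ((le_max_left _ _).trans (le_max_left _ _))
    · refine le_trans ?_ ((le_max_right _ _).trans (le_max_left _ _))
      have := Real.rpow_le_rpow (Real.rpow_nonneg (h.pos_u x).le _) (hlC x hx) hα.le
      rwa [Real.rpow_inv_rpow (h.pos_u x).le hα.ne'] at this
  set V := ell p q * L ^ sig p q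
  have hV : 0 < V := mul_pos (ell_pos hp hq) (Real.rpow_pos_of_pos hL0 _)
  have hvV : ∀ x, v x ≤ V := fun x => (h.compare ha ha2 hn hq hqp.le x).trans
    (mul_le_mul_of_nonneg_left (Real.rpow_le_rpow (h.pos_u x).le (hL x) (sig_pos hp hq).le)
      (ell_pos hp hq).le)
  have hbelow := h.global_below ha ha2 hn hq hqp.le hV hvV
  -- near the origin
  obtain ⟨B₁, hB₁⟩ := bound_near (f := fun x => u x ^ sig p q / v x)
    ((h.cont_u.rpow_const fun _ => Or.inr (sig_pos hp hq).le).div h.cont_v fun x => (h.pos_v x).ne')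
  obtain ⟨ε, hε, K, k, hK, hk, hpt⟩ := exists_point_bounds hn ha ha2 hq hqp hpq hN hF hA
  set Kc := coefFive p q (N + d) F
  have hKc : Kc.Smooth := coefFive_smooth hF
  set e := d / ((wt p q 0 - wt p q 1) * N)
  have he : 0 ≤ e := by
    refine div_nonneg hd (mul_nonneg (sub_nonneg.2 ?_) hN.le)
    rw [show wt p q 1 = wt p q 0 * sig p q from wt_one hp]
    exact mul_le_of_le_one_right hα.le (by rw [sig, div_le_one (by linarith)]; linarith)
  have hP : ∀ x, x ≠ 0 → 0 < wdiv a p Kc u v x := fun x hx =>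
    (mul_pos hε (mul_pos (wgt_pos hx) (Real.rpow_pos_of_pos (Real.rpow_pos_of_pos (h.pos_u x) _) _))).trans_le
      (hpt h x hx).1
  set e₁ := a / 4 * (2 / N - 1) with he₁def
  set e₂ := -a / 8 with he₂def
  have h2N : 2 / N < 1 := (div_lt_one hN).2 (by linarith)
  refine no_positive_divergence (X := fun i => wflux a Kc u v i) (P := wdiv a p Kc u v) (D := N)
    (e₁ := e₁) (e₂ := e₂) hn (by linarith)
    (mul_nonneg_of_nonpos_of_nonpos (by linarith) (by linarith)) (by linarith) ?_ ?_
    (fun i => h.continuousOn_wflux hKc i) (h.continuousOn_wdiv hKc) hP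
    (fun φ hφ hc hs => h.identity hKc hφ hc hs)
    ⟨K * lam p q V ^ e, fun x hx i => ?_⟩
    ⟨K * |B₁| ^ k * (L ^ (wt p q 0)⁻¹) ^ ((N + d) / 4 - 1), fun x hx hx4 i => ?_⟩
  · rw [div_lt_iff₀ (by linarith)] at hdim'
    rw [he₁def, show N * (2 * (a / 4 * (2 / N - 1)) - 1) = a - a * N / 2 - N by field_simp; ring]
    linarith
  · rw [he₂def]; linarith
  · refine ((hpt h x hx).2 i).1.trans (mul_le_mul_of_nonneg_right ?_ (Real.rpow_nonneg (hP x hx).le _))
    rw [show wgt a x ^ (1 / N - 1 / 2) = sqr x ^ e₁ by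
      rw [wgt, ← Real.rpow_mul (sqr_nonneg x), he₁def]
      congr 1
      ring]
    refine mul_le_mul_of_nonneg_right (mul_le_mul_of_nonneg_left
      (Real.rpow_le_rpow (div_pos (h.pos_u x) (h.pos_v x)).le ?_ he) hK) (Real.rpow_nonneg (sqr_nonneg x) _)
    rw [div_le_iff₀ (h.pos_v x)]
    exact hbelow x
  · rw [show (1 : ℝ) - 1 / 4 = 3 / 4 by norm_num]
    refine ((hpt h x hx).2 i).2.trans (mul_le_mul_of_nonneg_right ?_ (Real.rpow_nonneg (hP x hx).le _))
    refine mul_le_mul_of_nonneg_right ?_ (Real.rpow_nonneg (sqr_nonneg x) _)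
    have hr : 0 < ratio p q u v x := div_pos (h.pos_v x) (Real.rpow_pos_of_pos (h.pos_u x) _)
    refine mul_le_mul (mul_le_mul_of_nonneg_left ?_ hK) ?_
      (Real.rpow_nonneg (Real.rpow_nonneg (h.pos_u x).le _) _)
      (mul_nonneg hK (Real.rpow_nonneg (abs_nonneg _) _))
    · rw [Real.rpow_neg hr.le, ← Real.inv_rpow hr.le]
      refine Real.rpow_le_rpow (inv_nonneg.2 hr.le) ?_ hk
      rw [ratio, inv_div]
      exact (hB₁ x hx4).trans (le_abs_self _)
    · exact Real.rpow_le_rpow (Real.rpow_nonneg (h.pos_u x).le _)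
        (Real.rpow_le_rpow (h.pos_u x).le (hL x) (inv_pos.2 hα).le) (by linarith)

end

end Vale.Agent.P100.Weighted
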