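import Mathlib
import Vale.Agent.P100.OrbitCert.Glue
import Vale.Agent.P100.OrbitCert.Export
import Vale.Agent.P100.Statement
import Vale.Agent.P100.Weighted.Final
import Vale.Agent.P100.Weighted.Diagonal

/-!
# P100, weighted: nonexistence below the critical curve from the sign conditions on the orbits

`A = B = a` with `-2 < a ≤ 0`. The sign conditions are asked on the orbits of dimension above `N₀`,
and `N₀ ≤ 2 (n + a) / (2 + a)`.
-/

namespace Vale.Agent.P100.Weighted

open Set Finset Function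
open Vale.Agent.P098.Cone
open Vale.Agent.P100.OrbitCert (Setting Rule Margin cert cα)
open scoped ContDiff Laplacian RealInnerProductSpace

noncomputable section

variable {n : ℕ} {a p q N₀ : ℝ}

/-- The sign conditions on every critical orbit of dimension above `N₀`. -/
def Margins (N₀ : ℝ) : Prop :=
  ∀ p q : ℝ, 0 < q → q < p → 1 < p * q → N₀ < critDim p q → ∀ T₁ T₀ U V,
    Setting (critDim p q) p q T₁ T₀ U V →
      ∃ (R : Rule) (κ : ℝ), 0 ≤ R.d ∧ R.d * (critDim p q - 2) < critDim p q * cα (critDim p q) p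
        ∧ Margin (critDim p q) p q T₀ U V R κ

/-- Off the diagonal. -/
theorem WSol.false_of_margins {u v : (Fin n → ℝ) → ℝ} (h : WSol a p q u v) (hM : Margins N₀)
    (hN₀ : N₀ ≤ dimW n a) (hn : 3 ≤ n) (ha : a ≤ 0) (ha2 : -2 < a) (hn4 : 4 + a < n) (hq : 0 < q)
    (hqp : q < p) (hpq : 1 < p * q) (hsub : dimW n a < critDim p q) : False := by
  have hp : 0 < p := hq.trans hqp
  have h2 := two_lt_critDim hq hqp.le hpq
  have hc := critDim_critical hq hqp.le hpq
  obtain ⟨T₁, T₀, U, V, o⟩ := Orbit.exists_critical_orbit h2 hp hq hqp hc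
  have s : Setting (critDim p q) p q T₁ T₀ U V := ⟨h2, hp, hq, hqp, hc, o⟩
  obtain ⟨R, κ, hd, hd', hm⟩ := hM p q hq hqp hpq (hN₀.trans_lt hsub) T₁ T₀ U V s
  have h4 : 4 < dimW n a := by
    rw [dimW_eq ha2, lt_div_iff₀ (by linarith)]
    linarith
  exact h.false_of_ample hn ha ha2 hn4 hq hqp hpq hsub hd (s.cert_smooth R)
    (ample_of_orbit s R hm hd hd' hn ha ha2 (by linarith) hsub)

/-- Coordinates keep the weight. -/
theorem wgt_coords (a : ℝ) (x : Fin n → ℝ) : wgt a x = ‖coords n x‖ ^ a := by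
  have e : ‖coords n x‖ = √(sqr x) := by
    rw [EuclideanSpace.norm_eq]
    simp [sqr, coords, Real.norm_eq_abs, sq_abs]
  rw [e, Real.sqrt_eq_rpow, ← Real.rpow_mul (sqr_nonneg x), wgt]
  congr 1
  ring

/-- The solution on coordinates. -/
theorem wsol_of_euclidean {u v : EuclideanSpace ℝ (Fin n) → ℝ} (hu : Continuous u) (hv : Continuous v)
    (hu2 : ContDiffOn ℝ 2 u {x | x ≠ 0}) (hv2 : ContDiffOn ℝ 2 v {x | x ≠ 0})
    (pu : ∀ x, 0 < u x) (pv : ∀ x, 0 < v x) (eu : ∀ x, x ≠ 0 → -(Δ u x) = ‖x‖ ^ a * v x ^ p)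
    (ev : ∀ x, x ≠ 0 → -(Δ v x) = ‖x‖ ^ a * u x ^ q) :
    WSol a p q (u ∘ coords n) (v ∘ coords n) := by
  have hne : ∀ x : Fin n → ℝ, x ≠ 0 → coords n x ≠ 0 := fun x hx h =>
    hx ((coords n).injective (by simpa using h))
  refine ⟨hu.comp (coords n).continuous, hv.comp (coords n).continuous,
    hu2.comp (coords n).contDiff.contDiffOn fun x hx => hne x hx,
    hv2.comp (coords n).contDiff.contDiffOn fun x hx => hne x hx,
    fun x => pu _, fun x => pv _, fun x hx => ?_, fun x hx => ?_⟩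
  · rw [lap_coords (hu2.contDiffAt (isOpen_ne.mem_nhds (hne x hx))), comp_apply, wgt_coords,
      ← eu _ (hne x hx), neg_neg]
  · rw [lap_coords (hv2.contDiffAt (isOpen_ne.mem_nhds (hne x hx))), comp_apply, wgt_coords,
      ← ev _ (hne x hx), neg_neg]

/-- The subcriticality in the effective dimension. -/
theorem dimW_lt_critDim (ha2 : -2 < a) (hq : 0 < q) (hqp : q ≤ p) (hpq : 1 < p * q)
    (hsub : (n : ℝ) - 2 < ((n : ℝ) + a) / (p + 1) + ((n : ℝ) + a) / (q + 1)) :
    dimW n a < critDim p q := by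
  have hp : 0 < p := hq.trans_le hqp
  have hc := critDim_critical hq hqp hpq
  have hp1 : 0 < p + 1 := by linarith
  have hq1 : 0 < q + 1 := by linarith
  set s := 1 / (p + 1) + 1 / (q + 1) with hs
  have hs1 : s < 1 := by
    rw [hs, div_add_div _ _ hp1.ne' hq1.ne', div_lt_one (by positivity)]
    linarith
  have h1 : ((n : ℝ) - 2) < ((n : ℝ) + a) * s := by rw [hs]; ring_nf; ring_nf at hsub; linarith
  have h2 : critDim p q * s = critDim p q - 2 := by rw [hs]; ring_nf; ring_nf at hc; linarith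
  rw [dimW_eq ha2, div_lt_iff₀ (by linarith)]
  refine lt_of_mul_lt_mul_right ?_ (by linarith : (0 : ℝ) ≤ 1 - s)
  have h3 : critDim p q * (1 - s) = 2 := by linarith
  calc 2 * ((n : ℝ) + a) * (1 - s) < 2 * (2 + a) := by linarith
    _ = critDim p q * (2 + a) * (1 - s) := by linear_combination -(2 + a) * h3

/-- The whole statement from the sign conditions. -/
theorem no_solution_of_margins (hM : Margins N₀) (hn : 3 ≤ n) (ha : a ≤ 0) (ha2 : -2 < a)
    (hn4 : 4 + a < n) (hN₀ : N₀ ≤ dimW n a) (hp : 0 < p) (hq : 0 < q)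
    (hsub : (n : ℝ) - 2 < ((n : ℝ) + a) / (p + 1) + ((n : ℝ) + a) / (q + 1))
    {u v : EuclideanSpace ℝ (Fin n) → ℝ} (hu : Continuous u) (hv : Continuous v)
    (hu2 : ContDiffOn ℝ 2 u {x | x ≠ 0}) (hv2 : ContDiffOn ℝ 2 v {x | x ≠ 0})
    (pu : ∀ x, 0 < u x) (pv : ∀ x, 0 < v x) (eu : ∀ x, x ≠ 0 → -(Δ u x) = ‖x‖ ^ a * v x ^ p)
    (ev : ∀ x, x ≠ 0 → -(Δ v x) = ‖x‖ ^ a * u x ^ q) : False := by
  have key : ∀ {p q : ℝ} {f g : (Fin n → ℝ) → ℝ}, WSol a p q f g → 0 < q → q ≤ p →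
      (n : ℝ) - 2 < ((n : ℝ) + a) / (p + 1) + ((n : ℝ) + a) / (q + 1) → False :=
    fun {p q f g} s hq hqp hsub => by
    rcases le_or_gt (p * q) 1 with hpq | hpq
    · exact s.small ha ha2 hn hq hqp hpq
    have hlt := dimW_lt_critDim ha2 hq hqp hpq hsub
    rcases hqp.lt_or_eq with hqp' | rfl
    · exact s.false_of_margins hM hN₀ hn ha ha2 hn4 hq hqp' hpq hlt
    · exact s.false_of_diag ha ha2 hn hn4 (by nlinarith) hlt
  have s := wsol_of_euclidean hu hv hu2 hv2 pu pv eu ev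
  rcases le_total q p with hqp | hqp
  · exact key s hq hqp hsub
  · exact key s.symm hp hqp (by linarith)

end

end Vale.Agent.P100.Weighted
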