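import Mathlib
import Vale.Agent.P100.OrbitCert.Margins
import Vale.Agent.P100.Weighted.Main

/-!
# P100: the Hénon–Lane–Emden statement for `A = B = a ≤ 0` from the three pointwise signs

The range is `-2 < a ≤ 0`, `10 + 3 a ≤ 2 n`, which is every `a` for `n ≥ 5`.
-/

namespace Vale.Agent.P100.Weighted

open Set
open Vale.Agent.P100.OrbitCert
open scoped ContDiff Laplacian

noncomputable section

variable {n : ℕ} {a : ℝ}

theorem five_le_dimW (ha2 : -2 < a) (hna : 10 + 3 * a ≤ 2 * n) : 5 ≤ dimW n a := by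
  rw [dimW_eq ha2, le_div_iff₀ (by linarith)]
  linarith

/-- The literal statement, from the signs that remain. -/
theorem answer_of_signs
    (hneg : ∀ N p q T₁ T₀ U V, 5 < N → Setting N p q T₁ T₀ U V → ∀ T ∈ Icc T₀ 0,
      (orbitPoint N p q U V (finalRule N q) T).Good)
    (hR4 : ∀ S f x z w : ℝ, 3 < S → 3 / 5 ≤ f → Orbit.InRegion S f x z w →
      0 < (S + 2) * z - f * S → ((S + 2) * z - f * S) ^ 2 = 6 * (1 - x + (1 - f) ^ 3) →
      2 * ((S + 2) * z - f * S) * (S + 2) * (Orbit.rP S f z - x * Orbit.rPm S f z w)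
        + 6 * x * (2 * (1 - x) + x * (S + 2) * (f - w) / f) < 0)
    (hE : ∀ S f x z w : ℝ, 3 < S → Orbit.InRegion S f x z w →
      (3 / 5 ≤ f → (S + 2) * z - f * S ≤ 0 ∨
        ((S + 2) * z - f * S) ^ 2 ≤ 6 * (1 - x + (1 - f) ^ 3)) →
      0 < Ineq.cE S f x z w) :
    ∀ (n : ℕ) (a p q : ℝ), 3 ≤ n → -2 < a → a ≤ 0 → 10 + 3 * a ≤ 2 * n → 0 < p → 0 < q →
      (n : ℝ) - 2 < ((n : ℝ) + a) / (p + 1) + ((n : ℝ) + a) / (q + 1) →
      ¬ ∃ u v : EuclideanSpace ℝ (Fin n) → ℝ, Continuous u ∧ Continuous v ∧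
        ContDiffOn ℝ 2 u {x | x ≠ 0} ∧ ContDiffOn ℝ 2 v {x | x ≠ 0} ∧
        (∀ x, 0 < u x) ∧ (∀ x, 0 < v x) ∧
        ∀ x, x ≠ 0 → -(Δ u x) = ‖x‖ ^ a * v x ^ p ∧ -(Δ v x) = ‖x‖ ^ a * u x ^ q := by
  rintro n a p q hn ha2 ha hna hp hq hsub ⟨u, v, hu, hv, hu2, hv2, pu, pv, he⟩
  exact no_solution_of_margins (margins_of_signs hneg hR4 hE) hn ha ha2 (by linarith)
    (five_le_dimW ha2 hna) hp hq hsub hu hv hu2 hv2 pu pv (fun x hx => (he x hx).1)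
    fun x hx => (he x hx).2

end

end Vale.Agent.P100.Weighted
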