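import Vale.Agent.P100.Weighted.Answer
import Vale.Agent.P100.Negative.Orbit
import Vale.Agent.P100.Ineq.R4

/-!
# P100: the statement from the single sign on the forward region
-/

namespace Vale.Agent.P100.Weighted

open Vale.Agent.P100.OrbitCert
open scoped ContDiff Laplacian

/-- The backward signs and the barrier sign put into `answer_of_signs`. -/
theorem answer_of_forward
    (hE : ∀ S f x z w : ℝ, 3 < S → Orbit.InRegion S f x z w →
      (3 / 5 ≤ f → (S + 2) * z - f * S ≤ 0 ∨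
        ((S + 2) * z - f * S) ^ 2 ≤ 6 * (1 - x + (1 - f) ^ 3)) →
      0 < Ineq.cE S f x z w) :
    ∀ (n : ℕ) (a p q : ℝ), 3 ≤ n → -2 < a → a ≤ 0 → 10 + 3 * a ≤ 2 * n → 0 < p → 0 < q →
      (n : ℝ) - 2 < ((n : ℝ) + a) / (p + 1) + ((n : ℝ) + a) / (q + 1) →
      ¬ ∃ u v : EuclideanSpace ℝ (Fin n) → ℝ, Continuous u ∧ Continuous v ∧
        ContDiffOn ℝ 2 u {x | x ≠ 0} ∧ ContDiffOn ℝ 2 v {x | x ≠ 0} ∧
        (∀ x, 0 < u x) ∧ (∀ x, 0 < v x) ∧
        ∀ x, x ≠ 0 → -(Δ u x) = ‖x‖ ^ a * v x ^ p ∧ -(Δ v x) = ‖x‖ ^ a * u x ^ q :=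
  answer_of_signs Negative.good_of_nonpos
    (fun _ _ _ _ _ hS hf R hU he => R4.barrier_sign hS.le hf R hU (he.trans (by ring))) hE

end Vale.Agent.P100.Weighted
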